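import Vale.Agent.P218N.B.Stmt

/-! Block B: the mass over a small disc. -/

open MeasureTheory Set Filter Topology Metric
open scoped ENNReal NNReal RealInnerProductSpace ContDiff

namespace Vale.Agent.P218N.B

open Vale.Agent.P218.H313 Vale.Agent.P218N.H

theorem holeMassStmt : HoleMassStmt := by
  intro Λ L h hΛ hL hh
  refine ⟨9 * Λ * L ^ 2 * (2 * h + (3 * L)⁻¹), (3 * L)⁻¹, by positivity, by positivity, ?_⟩
  intro M Φ D z r hM hr hr0 hΦ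
  rcases (D ∩ closedBall z r).eq_empty_or_nonempty with he | ⟨y0, hy0, hz0⟩
  · simp [he]
  have h1 : 3 * L * r ≤ 1 := by
    calc 3 * L * r ≤ 3 * L * (3 * L)⁻¹ := by gcongr
      _ = 1 := mul_inv_cancel₀ (by positivity)
  have hsub : Φ '' ((D ∩ closedBall z r) ×ˢ Icc (-h) h) ⊆
      ⋃ j ∈ Finset.range (⌊2 * h / r⌋₊ + 1), closedBall (Φ (y0, -h + j * r)) (3 * L * r) := by
    rintro _ ⟨⟨y, t⟩, ⟨⟨hy, hz⟩, ht1, ht2⟩, rfl⟩
    simp only at hy hz ht1 ht2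
    have h2 : 0 ≤ (t + h) / r := div_nonneg (by linarith) hr.le
    have h3 : (⌊(t + h) / r⌋₊ : ℝ) * r ≤ t + h := (le_div_iff₀ hr).1 (Nat.floor_le h2)
    have h4 : t + h < (⌊(t + h) / r⌋₊ + 1) * r := (div_lt_iff₀ hr).1 (Nat.lt_floor_add_one _)
    have h5 : (0 : ℝ) ≤ ⌊(t + h) / r⌋₊ * r := by positivity
    refine mem_biUnion (x := ⌊(t + h) / r⌋₊) (Finset.mem_coe.2 (Finset.mem_range.2
      (Nat.lt_succ_of_le (Nat.floor_le_floor (by gcongr; linarith))))) ?_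
    rw [mem_closedBall, dist_eq_norm]
    refine (hΦ y hy y0 hy0 t _ (abs_le.2 ⟨ht1, ht2⟩) (abs_le.2 ⟨by linarith, by linarith⟩)).trans ?_
    have h6 : ‖y - y0‖ ≤ 2 * r := by
      rw [← dist_eq_norm]
      have := dist_triangle_right y y0 z
      rw [mem_closedBall] at hz hz0
      linarith
    have h7 : |t - (-h + ⌊(t + h) / r⌋₊ * r)| ≤ r := abs_le.2 ⟨by linarith, by linarith⟩
    calc L * (‖y - y0‖ + |t - (-h + ⌊(t + h) / r⌋₊ * r)|) ≤ L * (2 * r + r) := by gcongr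
      _ = 3 * L * r := by ring
  refine (measure_mono hsub).trans ((measure_biUnion_finset_le _ _).trans ?_)
  refine (Finset.sum_le_card_nsmul _ _ (ENNReal.ofReal (Λ * (3 * L * r) ^ 2))
    fun j _ => hM.ratio _ _ (by positivity) h1).trans ?_
  rw [Finset.card_range, nsmul_eq_mul, ← ENNReal.ofReal_natCast,
    ← ENNReal.ofReal_mul (Nat.cast_nonneg _)]
  refine ENNReal.ofReal_le_ofReal ?_
  have h2 : ((⌊2 * h / r⌋₊ + 1 : ℕ) : ℝ) * r ≤ 2 * h + (3 * L)⁻¹ := by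
    have h3 : (⌊2 * h / r⌋₊ : ℝ) * r ≤ 2 * h := (le_div_iff₀ hr).1 (Nat.floor_le (by positivity))
    push_cast
    linarith
  calc ((⌊2 * h / r⌋₊ + 1 : ℕ) : ℝ) * (Λ * (3 * L * r) ^ 2)
      = 9 * Λ * L ^ 2 * (((⌊2 * h / r⌋₊ + 1 : ℕ) : ℝ) * r) * r := by ring
    _ ≤ 9 * Λ * L ^ 2 * (2 * h + (3 * L)⁻¹) * r := by gcongr

end Vale.Agent.P218N.B
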