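import Vale.Agent.P218N.B.Stmt

/-! Graphs over open subsets of the plane: the area formula, and convergence of areas. -/

open MeasureTheory Set Filter Topology Metric
open scoped ENNReal NNReal RealInnerProductSpace ContDiff

namespace Vale.Agent.P218N.B.Lim

open Vale.Agent.P218.H313 Vale.Agent.P218N.H Vale.Agent.P218N.G
open Vale.Agent.P218GA (cH cH_pos')

set_option linter.unusedSectionVars false
set_option linter.unusedVariables false

variable {f : Frame 2 E3} {p : E3} {u v : E2 → ℝ} {G s : Set E2} {L : ℝ}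

lemma mem_gr {x : E3} : x ∈ f.gr p u '' G ↔ f.π (x - p) ∈ G ∧ f.gw p u x = 0 := by
  constructor
  · rintro ⟨y, hy, rfl⟩
    exact ⟨by rwa [f.π_gr], f.gw_gr p u y⟩
  · rintro ⟨h1, h2⟩
    exact ⟨_, h1, f.gr_π h2⟩

lemma contDiffOn_gr {n : WithTop ℕ∞} (hu : ContDiffOn ℝ n u G) :
    ContDiffOn ℝ n (f.gr p u) G :=
  contDiffOn_const.add (f.ι.contDiff.contDiffOn.add (hu.smul contDiffOn_const))

lemma continuousOn_gr (hu : ContinuousOn u G) : ContinuousOn (f.gr p u) G :=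
  continuousOn_const.add (f.ι.continuous.continuousOn.add (hu.smul continuousOn_const))

lemma continuous_gr (hu : Continuous u) : Continuous (f.gr p u) :=
  continuous_const.add (f.ι.continuous.add (hu.smul continuous_const))

lemma fderiv_gr (hG : IsOpen G) (hu : ContDiffOn ℝ 1 u G) {y : E2} (hy : y ∈ G) :
    fderiv ℝ (f.gr p u) y = f.dgr u y :=
  (f.hasFDerivAt_gr p ((hu.differentiableOn one_ne_zero).differentiableAt
    (hG.mem_nhds hy))).fderiv

lemma measurableSet_gr (hu : ContinuousOn u s) (hs : MeasurableSet s) :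
    MeasurableSet (f.gr p u '' s) :=
  hs.image_of_continuousOn_injOn (continuousOn_gr hu) (f.gr_injective p u).injOn

theorem lintegral_gr' (hG : IsOpen G) (hu : ContDiffOn ℝ 1 u G) (hs : MeasurableSet s)
    (hsG : s ⊆ G) (g : E3 → ℝ≥0∞) :
    ∫⁻ x, g x ∂(mu (f.gr p u '' s)) = ∫⁻ y in s, ENNReal.ofReal (gJ u y) * g (f.gr p u y) := by
  rw [(P218GA.isJac_volume (U := E2) (V := E3) (m := 2) (by simp)).lintegral_image hG
    (contDiffOn_gr hu) (fun y hy => by rw [fderiv_gr hG hu hy]; exact f.dgr_injective u y) hs hsG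
    (f.gr_injective p u).injOn]
  refine setLIntegral_congr_fun hs fun y hy => ?_
  simp only [fderiv_gr hG hu (hsG hy), f.normDet_dgr, gJ]

theorem integral_gr' (hG : IsOpen G) (hu : ContDiffOn ℝ 1 u G) (hs : MeasurableSet s)
    (hsG : s ⊆ G) (g : E3 → ℝ) :
    ∫ x, g x ∂(mu (f.gr p u '' s)) = ∫ y in s, gJ u y * g (f.gr p u y) := by
  rw [(P218GA.isJac_volume (U := E2) (V := E3) (m := 2) (by simp)).integral_image hG
    (contDiffOn_gr hu) (fun y hy => by rw [fderiv_gr hG hu hy]; exact f.dgr_injective u y) hs hsG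
    (f.gr_injective p u).injOn]
  refine setIntegral_congr_fun hs fun y hy => ?_
  simp only [fderiv_gr hG hu (hsG hy), f.normDet_dgr, gJ, smul_eq_mul]

lemma cH_le_gJ (u : E2 → ℝ) (y : E2) : (cH 2 : ℝ) ≤ gJ u y :=
  le_mul_of_one_le_right (cH_pos' 2).le (Real.one_le_sqrt.2 (by nlinarith [norm_nonneg (grad u y)]))

/-- integrals over the base are bounded by integrals over the graph -/
lemma lintegral_base_le (hG : IsOpen G) (hu : ContDiffOn ℝ 1 u G) (g : E3 → ℝ≥0∞) :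
    ENNReal.ofReal (cH 2) * ∫⁻ y in G, g (f.gr p u y) ≤ ∫⁻ x, g x ∂(mu (f.gr p u '' G)) := by
  rw [lintegral_gr' hG hu hG.measurableSet subset_rfl,
    ← lintegral_const_mul' _ _ ENNReal.ofReal_ne_top]
  exact lintegral_mono fun y => mul_le_mul_left (ENNReal.ofReal_le_ofReal (cH_le_gJ u y)) _

/-- a graph has full support -/
lemma mu_gr_pos (hG : IsOpen G) (hu : ContDiffOn ℝ 1 u G) {y : E2} (hy : y ∈ G) {O : Set E3}
    (hO : IsOpen O) (hyO : f.gr p u y ∈ O) : 0 < mu (f.gr p u '' G) O := by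
  have h1 : IsOpen (G ∩ f.gr p u ⁻¹' O) :=
    (continuousOn_gr hu.continuousOn).isOpen_inter_preimage hG hO
  have h2 := lintegral_base_le (f := f) (p := p) h1 (hu.mono inter_subset_left) fun _ => 1
  rw [lintegral_one, lintegral_one, Measure.restrict_apply_univ, Measure.restrict_apply_univ,
    image_inter_preimage] at h2
  rw [Measure.restrict_apply hO.measurableSet, inter_comm]
  refine lt_of_lt_of_le (ENNReal.mul_pos ?_ (h1.measure_pos volume ⟨y, hy, hyO⟩).ne') h2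
  exact (ENNReal.ofReal_pos.2 (cH_pos' 2)).ne'

lemma norm_grad_le (hL : 0 ≤ L) (hu : ∀ y y', |u y - u y'| ≤ L * ‖y - y'‖) (y : E2) :
    ‖grad u y‖ ≤ L := by
  rw [norm_grad]
  exact norm_fderiv_le_of_lip' ℝ hL (Eventually.of_forall fun x => hu x y)

lemma continuous_of_lip (hu : ∀ y y', |u y - u y'| ≤ L * ‖y - y'‖) : Continuous u := by
  refine continuous_iff_continuousAt.2 fun y => tendsto_iff_norm_sub_tendsto_zero.2 ?_
  refine squeeze_zero (fun _ => norm_nonneg _) (fun x => hu x y) ?_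
  simpa using (tendsto_norm_sub_self y).const_mul L

lemma gJ_le (hL : 0 ≤ L) (hu : ∀ y y', |u y - u y'| ≤ L * ‖y - y'‖) (y : E2) :
    gJ u y ≤ cH 2 * √(1 + L ^ 2) := by
  have := norm_grad_le hL hu y
  unfold gJ
  gcongr

lemma measurable_grad (u : E2 → ℝ) : Measurable (grad u) := by
  rw [grad_eq]
  exact (riesz E2).continuous.measurable.comp (measurable_fderiv ℝ u)

lemma measurable_gJ (u : E2 → ℝ) : Measurable (gJ u) := by
  have := measurable_grad u
  unfold gJ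
  fun_prop

lemma abs_gJ_sub (f : Frame 2 E3) (u v : E2 → ℝ) (y : E2) :
    |gJ u y - gJ v y| ≤ cH 2 * ‖grad u y - grad v y‖ := by
  unfold gJ
  rw [← mul_sub, abs_mul, abs_of_pos (cH_pos' 2), ← f.norm_N, ← f.norm_N]
  refine mul_le_mul_of_nonneg_left ((abs_norm_sub_norm_le _ _).trans (le_of_eq ?_)) (cH_pos' 2).le
  rw [sub_sub_sub_cancel_left, ← map_sub, f.norm_ι, norm_sub_rev]

lemma continuousAt_gw {x : E3} (hu : ContinuousAt u (f.π (x - p))) :
    ContinuousAt (f.gw p u) x := by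
  have h1 : ContinuousAt (fun x : E3 => f.π (x - p)) x := by fun_prop
  have h2 : ContinuousAt (fun x : E3 => u (f.π (x - p))) x :=
    ContinuousAt.comp (f := fun x : E3 => f.π (x - p)) hu h1
  exact (continuousAt_const.inner (continuousAt_id.sub continuousAt_const)).sub h2

/-- graphs which miss a point miss a neighbourhood -/
lemma eventually_ne {k : ℕ} {τ : ℕ → E2 → ℝ} {x₀ : E3}
    (hc : ∀ l < k, ContinuousAt (τ l) (f.π (x₀ - p))) :
    ∀ᶠ x in 𝓝 x₀, ∀ l < k, f.gw p (τ l) x₀ ≠ 0 → f.gw p (τ l) x ≠ 0 := by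
  have h : ∀ l ∈ Finset.range k, ∀ᶠ x in 𝓝 x₀, f.gw p (τ l) x₀ ≠ 0 → f.gw p (τ l) x ≠ 0 := by
    intro l hl
    by_cases h0 : f.gw p (τ l) x₀ = 0
    · exact Eventually.of_forall fun x hx => absurd h0 hx
    · exact ((continuousAt_gw (hc l (Finset.mem_range.1 hl))).eventually_ne h0).mono
        fun x hx _ => hx
  filter_upwards [(eventually_all_finset _).2 h] with x hx l hl
  exact hx l (Finset.mem_range.2 hl)

variable {ι : Type*} {l : Filter ι}

/-- pointwise convergence of uniformly Lipschitz functions is locally uniform -/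
lemma unif {u : ι → E2 → ℝ} (hL : 0 ≤ L) (hu : ∀ᶠ i in l, ∀ y y', |u i y - u i y'| ≤ L * ‖y - y'‖)
    (hv : ∀ y y', |v y - v y'| ≤ L * ‖y - y'‖)
    (hlim : ∀ y, Tendsto (fun i => u i y) l (𝓝 (v y))) (ρ : ℝ) {δ : ℝ} (hδ : 0 < δ) :
    ∀ᶠ i in l, ∀ y ∈ ball (0 : E2) ρ, |u i y - v y| ≤ δ := by
  have he : 0 < δ / 3 / (L + 1) := by positivity
  obtain ⟨Y, -, hY, hcov⟩ := finite_cover_balls_of_compact (isCompact_closedBall (0 : E2) ρ) he
  have h1 : ∀ z ∈ Y, ∀ᶠ i in l, dist (u i z) (v z) < δ / 3 := fun z _ =>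
    Metric.tendsto_nhds.1 (hlim z) _ (by positivity)
  filter_upwards [(eventually_all_finite hY).2 h1, hu] with i hi hi' y hy
  obtain ⟨z, hz, hyz⟩ := mem_iUnion₂.1 (hcov (ball_subset_closedBall hy))
  rw [mem_ball, dist_eq_norm] at hyz
  have h2 : L * ‖y - z‖ ≤ δ / 3 := by
    calc L * ‖y - z‖ ≤ (L + 1) * (δ / 3 / (L + 1)) := by gcongr; linarith
      _ = δ / 3 := by field_simp
  have h3 := hi z hz
  rw [Real.dist_eq] at h3
  have h4 := abs_le.1 ((hi' y z).trans h2)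
  have h5 := abs_le.1 ((hv y z).trans h2)
  have h6 := abs_lt.1 h3
  rw [abs_le]
  constructor <;> linarith

lemma integrableOn_F (hL : 0 ≤ L) (hu : ∀ y y', |u y - u y'| ≤ L * ‖y - y'‖) {ψ : E3 → ℝ}
    (hψ : Continuous ψ) {B : ℝ} (hB : ∀ x, |ψ x| ≤ B) (ρ : ℝ) :
    (∀ y, ‖gJ u y * ψ (f.gr p u y)‖ ≤ cH 2 * √(1 + L ^ 2) * B) ∧
      IntegrableOn (fun y => gJ u y * ψ (f.gr p u y)) (ball 0 ρ) := by
  have h1 : ∀ y, ‖gJ u y * ψ (f.gr p u y)‖ ≤ cH 2 * √(1 + L ^ 2) * B := fun y => by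
    rw [norm_mul, Real.norm_of_nonneg (gJ_pos u y).le]
    exact mul_le_mul (gJ_le hL hu y) (hB _) (norm_nonneg _) (by positivity)
  refine ⟨h1, Measure.integrableOn_of_bounded measure_ball_lt_top.ne ?_ (Eventually.of_forall h1)⟩
  exact ((measurable_gJ u).mul
    (hψ.comp (continuous_gr (continuous_of_lip hu))).measurable).aestronglyMeasurable

/-- **convergence of integrals over graphs** -/
theorem plane_conv {u : ι → E2 → ℝ} {G : ι → Set E2} {ρ : ℝ} (hL : 0 ≤ L)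
    (hG : ∀ᶠ i in l, MeasurableSet (G i) ∧ G i ⊆ ball 0 ρ)
    (hu : ∀ᶠ i in l, ∀ y y', |u i y - u i y'| ≤ L * ‖y - y'‖)
    (hv : ∀ y y', |v y - v y'| ≤ L * ‖y - y'‖)
    (hlim : ∀ y, Tendsto (fun i => u i y) l (𝓝 (v y)))
    (hgrad : ∀ ε : ℝ, 0 < ε → ∀ᶠ i in l,
      ∫⁻ y in G i, ‖grad (u i) y - grad v y‖ₑ ≤ ENNReal.ofReal ε)
    (hvol : ∀ ε : ℝ, 0 < ε → ∀ᶠ i in l, volume (ball 0 ρ \ G i) ≤ ENNReal.ofReal ε)
    {ψ : E3 → ℝ} (hψ : Continuous ψ) (hψc : HasCompactSupport ψ) :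
    Tendsto (fun i => ∫ y in G i, gJ (u i) y * ψ (f.gr p (u i) y)) l
      (𝓝 (∫ y in ball 0 ρ, gJ v y * ψ (f.gr p v y))) := by
  obtain ⟨B, hB⟩ := hψc.exists_bound_of_continuous hψ
  have hB0 : 0 ≤ B := (norm_nonneg _).trans (hB 0)
  have huc := hψc.uniformContinuous_of_continuous hψ
  obtain ⟨J, hJ⟩ : ∃ J : ℝ, J = cH 2 * √(1 + L ^ 2) := ⟨_, rfl⟩
  have hc := cH_pos' 2
  have hJ0 : 0 ≤ J := by rw [hJ]; positivity
  obtain ⟨A, hA⟩ : ∃ A : ℝ, A = volume.real (ball (0 : E2) ρ) := ⟨_, rfl⟩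
  have hA0 : 0 ≤ A := by rw [hA]; positivity
  obtain ⟨v1, v2⟩ := integrableOn_F (f := f) (p := p) hL hv hψ hB ρ
  rw [← hJ] at v1
  rw [Metric.tendsto_nhds]
  intro ε hε
  obtain ⟨e, he, hee⟩ : ∃ e : ℝ, 0 < e ∧ (B * cH 2 + J * A + J * B) * e < ε := by
    refine ⟨ε / (B * cH 2 + J * A + J * B + 1), by positivity, ?_⟩
    rw [← mul_div_assoc, div_lt_iff₀ (by positivity)]
    nlinarith
  obtain ⟨δ, hδ, hδ'⟩ := Metric.uniformContinuous_iff.1 huc e he
  filter_upwards [hG, hu, hgrad e he, hvol e he, unif hL hu hv hlim ρ (half_pos hδ)]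
    with i ⟨g1, g2⟩ h1 h2 h3 h4
  obtain ⟨-, u2⟩ := integrableOn_F (f := f) (p := p) hL h1 hψ hB ρ
  have hm : AEStronglyMeasurable (fun y => grad (u i) y - grad v y) (volume.restrict (G i)) :=
    ((measurable_grad _).sub (measurable_grad _)).aestronglyMeasurable
  have hfin : volume (G i) < ⊤ := (measure_mono g2).trans_lt measure_ball_lt_top
  have i1 : IntegrableOn (fun y => ‖grad (u i) y - grad v y‖) (G i) :=
    Integrable.norm (f := fun y => grad (u i) y - grad v y)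
      ⟨hm, h2.trans_lt ENNReal.ofReal_lt_top⟩
  have i2 : ∫ y in G i, ‖grad (u i) y - grad v y‖ ≤ e := by
    rw [integral_norm_eq_lintegral_enorm hm]
    exact ENNReal.toReal_le_of_le_ofReal he.le h2
  have i3 : IntegrableOn (fun _ : E2 => J * e) (G i) := integrableOn_const hfin.ne
  have e1 : ‖∫ y in G i, (gJ (u i) y * ψ (f.gr p (u i) y) - gJ v y * ψ (f.gr p v y))‖
      ≤ ∫ y in G i, (B * cH 2 * ‖grad (u i) y - grad v y‖ + J * e) := by
    refine norm_integral_le_of_norm_le ((i1.const_mul _).add i3) ?_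
    filter_upwards [ae_restrict_mem g1] with y hy
    have k1 := abs_gJ_sub f (u i) v y
    have k2 : |ψ (f.gr p (u i) y) - ψ (f.gr p v y)| ≤ e := by
      refine (hδ' ?_).le
      have : f.gr p (u i) y - f.gr p v y = (u i y - v y) • f.n := by
        unfold Frame.gr; rw [sub_smul]; abel
      rw [dist_eq_norm, this, norm_smul, f.norm_n, mul_one]
      exact (h4 y (g2 hy)).trans_lt (half_lt_self hδ)
    have k3 : gJ (u i) y * ψ (f.gr p (u i) y) - gJ v y * ψ (f.gr p v y)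
        = (gJ (u i) y - gJ v y) * ψ (f.gr p (u i) y)
          + gJ v y * (ψ (f.gr p (u i) y) - ψ (f.gr p v y)) := by ring
    rw [k3]
    refine (norm_add_le _ _).trans (add_le_add ?_ ?_)
    · rw [norm_mul]
      exact (mul_le_mul k1 (hB _) (norm_nonneg _) (by positivity)).trans (le_of_eq (by ring))
    · rw [norm_mul, Real.norm_of_nonneg (gJ_pos v y).le]
      exact mul_le_mul (hJ ▸ gJ_le hL hv y) k2 (norm_nonneg _) hJ0
  rw [integral_sub (u2.mono_set g2) (v2.mono_set g2), integral_add (i1.const_mul _) i3,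
    integral_const_mul, setIntegral_const, smul_eq_mul] at e1
  have e2 : volume.real (G i) ≤ A := hA ▸ measureReal_mono g2 measure_ball_lt_top.ne
  have e3 : ‖∫ y in ball 0 ρ \ G i, gJ v y * ψ (f.gr p v y)‖ ≤ J * B * e :=
    (norm_setIntegral_le_of_norm_le_const (h3.trans_lt ENNReal.ofReal_lt_top)
      fun y _ => v1 y).trans
      (mul_le_mul_of_nonneg_left (ENNReal.toReal_le_of_le_ofReal he.le h3) (by positivity))
  rw [setIntegral_sdiff g1 v2 g2] at e3
  have e4 : B * cH 2 * ∫ y in G i, ‖grad (u i) y - grad v y‖ ≤ B * cH 2 * e :=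
    mul_le_mul_of_nonneg_left i2 (by positivity)
  have e5 : volume.real (G i) * (J * e) ≤ A * (J * e) :=
    mul_le_mul_of_nonneg_right e2 (by positivity)
  rw [Real.norm_eq_abs, abs_le] at e1 e3
  rw [Real.dist_eq, abs_lt]
  constructor <;> linarith [e1.1, e1.2, e3.1, e3.2]

end Vale.Agent.P218N.B.Lim
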