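import Vale.Agent.P218N.H.Div
import Vale.Agent.P218N.G.Model

/-! Block B (static structure of limits of surfaces with bounded total curvature): definitions
and the statements of the sub-results. -/

open MeasureTheory Set Filter Topology Metric
open scoped ENNReal NNReal RealInnerProductSpace ContDiff ComplexConjugate

namespace Vale.Agent.P218N.B

open Vale.Agent.P218.H313 Vale.Agent.P218N.H Vale.Agent.P218N.G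
open Vale.Agent.P218.H552 (MC)
open Vale.Agent.P214 (proj)

set_option linter.unusedSectionVars false
set_option linter.unusedVariables false

/-! ### definitions -/

/-- the area measure of `M` -/
noncomputable abbrev mu (M : Set E3) : Measure E3 := (μH[((2 : ℕ) : ℝ)] : Measure E3).restrict M

/-- closed surfaces with bounded area ratios -/
structure Good (Λ : ℝ) (M : Set E3) : Prop where
  surf : Surf M
  closed : IsClosed M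
  ratio : ∀ (x : E3) (r : ℝ), 0 < r → r ≤ 1 → mu M (closedBall x r) ≤ ENNReal.ofReal (Λ * r ^ 2)

/-- the shrinker quantity `H + x^⊥ / 2` -/
noncomputable def velM (M : Set E3) (x : E3) : E3 := vel (tanP M) (Hv M) x

/-- `∫_A |A|²` -/
noncomputable def En (M A : Set E3) : ℝ≥0∞ := ∫⁻ x in A, ENNReal.ofReal (Asq M x) ∂(mu M)

/-- `∫_A |H|²` -/
noncomputable def Hn (M A : Set E3) : ℝ≥0∞ := ∫⁻ x in A, ENNReal.ofReal (‖Hv M x‖ ^ 2) ∂(mu M)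

/-- `∫_A |H + x^⊥/2|²` -/
noncomputable def Vn (M A : Set E3) : ℝ≥0∞ := ∫⁻ x in A, ENNReal.ofReal (‖velM M x‖ ^ 2) ∂(mu M)

/-- the points of `M` with `|⟨ν, e⟩| < b` -/
def band (M : Set E3) (e : E3) (b : ℝ) : Set E3 := {x | x ∈ M ∧ |⟪nu M x, e⟫| < b}

/-- the points of `M` with `|⟨ν, e⟩| ≤ b` -/
def bandc (M : Set E3) (e : E3) (b : ℝ) : Set E3 := {x | x ∈ M ∧ |⟪nu M x, e⟫| ≤ b}

/-- `K` is covered by finitely many balls, the square roots of the radii having sum `≤ ε` -/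
def Cov (K : Set E3) (ε : ℝ) : Prop :=
  ∃ s : Finset (E3 × ℝ), (∀ c ∈ s, 0 < c.2) ∧ ∑ c ∈ s, √c.2 ≤ ε ∧ K ⊆ ⋃ c ∈ s, ball c.1 c.2

/-- the local bound for the total curvature (local Gauss-Bonnet) -/
def EB (b : ℝ) (M : Set E3) : Prop :=
  ∀ (x : E3) (r : ℝ), 0 < r → En M (ball x r) ≤ ENNReal.ofReal b *
    (Hn M (ball x (2 * r)) + ENNReal.ofReal (r ^ 2)⁻¹ * mu M (ball x (2 * r)) + 1)

/-- the class of area measures of closed surfaces with the local curvature bound -/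
def cls (b : ℝ) : Set (Measure E3) := {μ | ∃ M, Surf M ∧ IsClosed M ∧ EB b M ∧ μ = mu M}

/-- closed surfaces with bounded area ratios and locally bounded total curvature which are almost
shrinkers and converge to `κ` -/
structure Seq {ι : Type} (U : Ultrafilter ι) (M : ι → Set E3) (κ : Measure E3) (Λ : ℝ) : Prop where
  pos : 0 < Λ
  good : ∀ᶠ i in (U : Filter ι), Good Λ (M i)
  energy : ∀ R : ℝ, ∃ C : ℝ, ∀ᶠ i in (U : Filter ι), En (M i) (ball 0 R) ≤ ENNReal.ofReal C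
  vel : ∀ R ε : ℝ, 0 < ε → ∀ᶠ i in (U : Filter ι), Vn (M i) (ball 0 R) ≤ ENNReal.ofReal ε
  lf : IsLocallyFiniteMeasure κ
  lim : ∀ φ : E3 → ℝ, Continuous φ → HasCompactSupport φ →
    Tendsto (fun i => ∫ x, φ x ∂(mu (M i))) U (𝓝 (∫ x, φ x ∂κ))

/-- the bad points of `M` in a closed cylinder: steep, or close to the lids -/
def Bad (M : Set E3) (f : Frame 2 E3) (p : E3) (ρ h' h b : ℝ) : Set E3 :=
  {x | x ∈ M ∧ ‖f.π (x - p)‖ ≤ ρ ∧ |⟪f.n, x - p⟫| ≤ h ∧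
    (|⟪nu M x, f.n⟫| ≤ b ∨ h' ≤ |⟪f.n, x - p⟫|)}

/-- a disc with finitely many closed discs removed -/
def GG (ρ : ℝ) (s : Finset (E2 × ℝ)) : Set E2 := ball 0 ρ \ ⋃ c ∈ s, closedBall c.1 c.2

/-- over `GG ρ s` the set `Φ ⁻¹ M` consists of `k` ordered graphs -/
structure Sheets (n : ℕ∞) (M K : Set E3) (Φ : E2 × ℝ → E3) (ρ h' h L : ℝ) (s : Finset (E2 × ℝ))
    (k : ℕ) (τ : ℕ → E2 → ℝ) : Prop where
  pos : ∀ c ∈ s, 0 < c.2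
  good : ∀ z ∈ GG ρ s, ∀ t, |t| ≤ h → Φ (z, t) ∉ K
  fib : ∀ z ∈ GG ρ s, ∀ t, |t| ≤ h → (Φ (z, t) ∈ M ↔ ∃ l < k, t = τ l z)
  smono : ∀ z ∈ GG ρ s, ∀ l l', l < l' → l' < k → τ l z < τ l' z
  mono : ∀ z, Monotone fun l => τ l z
  bd : ∀ l z, |τ l z| ≤ h'
  smooth : ∀ l < k, ContDiffOn ℝ n (τ l) (GG ρ s)
  lip : ∀ l z z', |τ l z - τ l z'| ≤ L * ‖z - z'‖

/-- the mean curvature operator -/
noncomputable def mc (u : E2 → ℝ) (y : E2) : ℝ :=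
  tr (fderiv ℝ (grad u) y) - ⟪fderiv ℝ (grad u) y (grad u y), grad u y⟫ / (1 + ‖grad u y‖ ^ 2)

/-- the shrinker operator for a graph in a frame with origin `(a, c)` -/
noncomputable def res (a : E2) (c : ℝ) (u : E2 → ℝ) (y : E2) : ℝ :=
  mc u y + (c + u y - ⟪a + y, grad u y⟫) / 2

/-! ### input from block H -/

/-- the tangent plane and the mean curvature of a slice which is a surface are the classical ones -/
def BridgeStmt : Prop := ∀ (M : Set E3) (T : E3 → Submodule ℝ E3) (H : E3 → E3), Surf M →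
  IsClosed M → MC 2 (mu M) T H → ∀ᵐ x ∂(mu M), proj (T x) = PT M x ∧ H x = Hv M x

/-- the density is at least one at every point -/
def DensStmt : Prop := ∀ M : Set E3, Surf M → IsClosed M → ∀ x ∈ M, ∀ c < om 2,
  ∀ᶠ r in 𝓝[>] (0 : ℝ), c ≤ (∫ y, P218.H313.ker (r⁻¹ • (y - x)) ∂(mu M)) / r ^ 2

/-! ### coverings of the bad set -/

/-- **B1**: the energy in a band of directions -/
def BandStmt : Prop := ∀ b b' : ℝ, 0 ≤ b → b < b' → ∃ ε₀ C : ℝ, 0 < ε₀ ∧ 0 < C ∧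
  ∀ (M : Set E3) (e : E3) (ζ : E3 → ℝ), Surf M → IsClosed M → ‖e‖ = 1 → ContDiff ℝ 1 ζ →
    HasCompactSupport ζ → En M (tsupport ζ ∩ band M e b') ≤ ENNReal.ofReal ε₀ →
    ∫⁻ x in bandc M e b, ENNReal.ofReal (ζ x ^ 2 * Asq M x) ∂(mu M) ≤ ENNReal.ofReal C *
      ∫⁻ x in band M e b', ENNReal.ofReal (ζ x ^ 2 * ‖Hv M x‖ ^ 2
        + |ζ x| * ‖fderiv ℝ ζ x‖ * √(Asq M x)) ∂(mu M)

/-- **B2**: De Giorgi iteration; the centre `p` may carry a curvature concentration -/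
def DGStmt : Prop := ∀ Λ : ℝ, 0 < Λ → ∃ δ : ℝ, 0 < δ ∧ ∀ b b' : ℝ, 0 ≤ b → b < b' → b' ≤ 1 →
  ∀ τ t r : ℝ, 0 < τ → 0 < t → 0 < r → r ≤ 1 → ∃ t' σ : ℝ, 0 < t' ∧ 0 < σ ∧
    ∀ (M : Set E3) (p e : E3), Good Λ M → ‖e‖ = 1 →
      mu M (ball p r ∩ band M e b') ≤ ENNReal.ofReal (δ * r ^ 2) →
      En M (ball p r \ closedBall p t') ≤ ENNReal.ofReal (δ * (b' - b) ^ 2) →
      ∫⁻ x in ball p r, ENNReal.ofReal (‖Hv M x‖ ^ 2 - δ * (b' - b) ^ 2 / r ^ 2) ∂(mu M)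
        ≤ ENNReal.ofReal σ →
      mu M ((ball p (r / 2) \ closedBall p t) ∩ band M e b) ≤ ENNReal.ofReal τ

/-- **B3**: content of a superlevel set -/
def ContentStmt : Prop := ∀ Λ : ℝ, 0 < Λ → ∃ c₀ C : ℝ, 0 < c₀ ∧ 0 < C ∧
  ∀ (M K O : Set E3) (g : E3 → ℝ) (r I : ℝ), Good Λ M → IsCompact K → K ⊆ M → IsOpen O →
    ContDiff ℝ 1 g → (∀ x, 0 ≤ g x) → 0 < r → r ≤ 1 → (∀ x ∈ K, closedBall x r ⊆ O) →
    (∀ x ∈ K, 1 ≤ g x) →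
    (∀ x ∈ K, ∫⁻ y in closedBall x r, ENNReal.ofReal (g y) ∂(mu M) ≤ ENNReal.ofReal (c₀ * r ^ 2)) →
    0 ≤ I → ∫⁻ y in O, ENNReal.ofReal (‖gradM M g y‖ ^ 2 + g y ^ 2 * ‖Hv M y‖ ^ 2) ∂(mu M)
      ≤ ENNReal.ofReal I →
    Cov K (C * I ^ 2)

/-- covering of the steep points in an annulus with small energy -/
def CovLocStmt : Prop := ∀ Λ b b' : ℝ, 0 < Λ → 0 ≤ b → b < b' → ∃ ε₀ : ℝ, 0 < ε₀ ∧
  ∀ r t : ℝ, 0 < t → t < r → ∃ C a₀ : ℝ, 0 < C ∧ 0 < a₀ ∧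
    ∀ (M : Set E3) (p e : E3) (A : ℝ), Good Λ M → ‖e‖ = 1 → 0 ≤ A → A ≤ a₀ →
      En M (ball p (2 * r) \ closedBall p (t / 2)) ≤ ENNReal.ofReal ε₀ →
      mu M ((ball p (2 * r) \ closedBall p (t / 2)) ∩ band M e b') ≤ ENNReal.ofReal A →
      Hn M ((ball p (2 * r) \ closedBall p (t / 2)) ∩ band M e b') ≤ ENNReal.ofReal A →
      Cov ((closedBall p r \ ball p t) ∩ bandc M e b) (C * A)

/-- covering of a part of `M` with small area -/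
def CovLidStmt : Prop := ∀ (Λ : ℝ) (K O : Set E3), 0 < Λ → IsCompact K → IsOpen O → K ⊆ O →
  ∃ C a₀ : ℝ, 0 < C ∧ 0 < a₀ ∧ ∀ (M : Set E3) (A : ℝ), Good Λ M → 0 ≤ A → A ≤ a₀ →
    mu M O ≤ ENNReal.ofReal A → Hn M O ≤ ENNReal.ofReal A → Cov (M ∩ K) (C * A)

/-- **B2-B4**: every point has a cylinder in which the bad points have small content -/
def HolesStmt : Prop := ∀ (ι : Type) (U : Ultrafilter ι) (M : ι → Set E3) (κ : Measure E3) (Λ : ℝ),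
  Seq U M κ Λ → ∀ p : E3, ∃ (f : Frame 2 E3) (ρ h' h b : ℝ), 0 < ρ ∧ 0 < h' ∧ h' < h ∧ 0 < b ∧
    ∀ ε : ℝ, 0 < ε → ∀ᶠ i in (U : Filter ι), Cov (Bad (M i) f p ρ h' h b) ε

/-! ### sheets -/

/-- **B5a**: a closed bounded set which is locally a graph consists locally of ordered graphs -/
def OrderStmt : Prop := ∀ (S : Set (E2 × ℝ)) (O : Set E2) (h : ℝ), IsOpen O →
  (∀ q ∈ closure S, q.1 ∈ O → q ∈ S) → (∀ q ∈ S, q.1 ∈ O → |q.2| ≤ h) →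
  (∀ q ∈ S, q.1 ∈ O → ∃ g : E2 → ℝ, ContinuousAt g q.1 ∧ ∀ᶠ q' in 𝓝 q, q' ∈ S ↔ q'.2 = g q'.1) →
  ∃ (N : E2 → ℕ) (τ : ℕ → E2 → ℝ), ∀ y ∈ O, (∀ t, (y, t) ∈ S ↔ ∃ l < N y, t = τ l y) ∧
    (∀ l l', l < l' → l' < N y → τ l y < τ l' y) ∧ (∀ᶠ y' in 𝓝 y, N y' = N y) ∧
    ∀ l < N y, ContinuousAt (τ l) y

/-- **B5b**: points outside the enlarged discs are joined by two segments which avoid the discs -/
def ShadowStmt : Prop := ∃ c₀ : ℝ, 0 < c₀ ∧ ∀ (s : Finset (E2 × ℝ)), (∀ c ∈ s, 0 < c.2) →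
  ∑ c ∈ s, √c.2 ≤ c₀ → ∀ y y' : E2, (∀ c ∈ s, √c.2 ≤ ‖y - c.1‖) → (∀ c ∈ s, √c.2 ≤ ‖y' - c.1‖) →
    ∃ z : E2, ‖z - midpoint ℝ y y'‖ ≤ ‖y - y'‖ / 2 ∧
      ∀ x ∈ segment ℝ y z ∪ segment ℝ z y', ∀ c ∈ s, c.2 < ‖x - c.1‖

/-- **B5**: sheets -/
def SheetStmt : Prop := ∀ L₀ L₁ b : ℝ, 0 < L₀ → 0 < L₁ → 0 < b → ∃ c₀ C L : ℝ,
  0 < c₀ ∧ 0 < C ∧ 0 < L ∧ ∀ (n : ℕ∞) (M K : Set E3) (Φ : E2 × ℝ → E3) (ρ h' h ε : ℝ), 1 ≤ n →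
    Surf M → IsClosed M → ContDiff ℝ n Φ → 0 < ρ → 0 ≤ h' → h' < h → ε ≤ c₀ → Cov K ε →
    (∀ z ∈ ball (0 : E2) (2 * ρ), ∀ z' ∈ ball (0 : E2) (2 * ρ), ∀ t t', |t| ≤ h → |t'| ≤ h →
      ‖z - z'‖ ≤ L₀ * ‖Φ (z, t) - Φ (z', t')‖) →
    (∀ z ∈ ball (0 : E2) (2 * ρ), ∀ t, |t| ≤ h → ∀ v, ‖fderiv ℝ Φ (z, t) (v, 0)‖ ≤ L₁ * ‖v‖) →
    (∀ z ∈ ball (0 : E2) (2 * ρ), ∀ t, |t| ≤ h → Φ (z, t) ∈ M → Φ (z, t) ∉ K →
      |t| ≤ h' ∧ b ≤ |⟪nu M (Φ (z, t)), fderiv ℝ Φ (z, t) (0, 1)⟫|) →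
    ∃ (s : Finset (E2 × ℝ)) (k : ℕ) (τ : ℕ → E2 → ℝ), ∑ c ∈ s, c.2 ≤ C * ε ∧
      Sheets n M K Φ ρ h' h L s k τ

open Classical in
/-- **B5**: sheets, with the holes given explicitly in terms of the covering -/
def SheetStmt' : Prop := ∀ L₀ L₁ b : ℝ, 0 < L₀ → 0 < L₁ → 0 < b → ∃ c₀ L : ℝ,
  0 < c₀ ∧ 0 < L ∧ ∀ (n : ℕ∞) (M K : Set E3) (Φ : E2 × ℝ → E3) (ρ h' h : ℝ)
    (s₀ : Finset (E3 × ℝ)), 1 ≤ n →
    Surf M → IsClosed M → ContDiff ℝ n Φ → 0 < ρ → 0 ≤ h' → h' < h →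
    (∀ c ∈ s₀, 0 < c.2) → ∑ c ∈ s₀, √c.2 ≤ c₀ → K ⊆ ⋃ c ∈ s₀, ball c.1 c.2 →
    (∀ z ∈ ball (0 : E2) (2 * ρ), ∀ z' ∈ ball (0 : E2) (2 * ρ), ∀ t t', |t| ≤ h → |t'| ≤ h →
      ‖z - z'‖ ≤ L₀ * ‖Φ (z, t) - Φ (z', t')‖) →
    (∀ z ∈ ball (0 : E2) (2 * ρ), ∀ t, |t| ≤ h → ∀ v, ‖fderiv ℝ Φ (z, t) (v, 0)‖ ≤ L₁ * ‖v‖) →
    (∀ z ∈ ball (0 : E2) (2 * ρ), ∀ t, |t| ≤ h → Φ (z, t) ∈ M → Φ (z, t) ∉ K →
      |t| ≤ h' ∧ b ≤ |⟪nu M (Φ (z, t)), fderiv ℝ Φ (z, t) (0, 1)⟫|) →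
    ∃ (s₁ : Finset (E3 × ℝ)) (z : E3 × ℝ → E2) (k : ℕ) (τ : ℕ → E2 → ℝ), s₁ ⊆ s₀ ∧
      (∀ c ∈ s₁, z c ∈ ball (0 : E2) (2 * ρ) ∧ ∃ t, |t| ≤ h ∧ Φ (z c, t) ∈ ball c.1 c.2) ∧
      Sheets n M (⋃ c ∈ s₀, ball c.1 c.2) Φ ρ h' h L
        (s₁.image fun c => (z c, √(2 * L₀ * c.2))) k τ

/-- cut-off functions for the holes -/
def EtaStmt : Prop := ∃ C : ℝ, 0 < C ∧ ∀ s : Finset (E2 × ℝ), (∀ c ∈ s, 0 < c.2) →
  ∃ η : E2 → ℝ, ContDiff ℝ ∞ η ∧ (∀ y, 0 ≤ η y) ∧ (∀ y, η y ≤ 1) ∧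
    (∀ c ∈ s, ∀ y ∈ ball c.1 (2 * c.2), η y = 0) ∧
    (∀ y, (∀ c ∈ s, y ∉ ball c.1 (3 * c.2)) → η y = 1) ∧
    ∫⁻ y, ‖fderiv ℝ η y‖ₑ ≤ ENNReal.ofReal (C * ∑ c ∈ s, c.2)

/-- the mass over a small disc -/
def HoleMassStmt : Prop := ∀ Λ L h : ℝ, 0 < Λ → 0 < L → 0 < h → ∃ C r₀ : ℝ, 0 < C ∧ 0 < r₀ ∧
  ∀ (M : Set E3) (Φ : E2 × ℝ → E3) (D : Set E2) (z : E2) (r : ℝ), Good Λ M → 0 < r → r ≤ r₀ →
    (∀ y ∈ D, ∀ y' ∈ D, ∀ t t', |t| ≤ h → |t'| ≤ h →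
      ‖Φ (y, t) - Φ (y', t')‖ ≤ L * (‖y - y'‖ + |t - t'|)) →
    mu M (Φ '' ((D ∩ closedBall z r) ×ˢ Icc (-h) h)) ≤ ENNReal.ofReal (C * r)

/-- the geometric quantities of a graph -/
def GraphStmt : Prop := ∀ (M : Set E3) (f : Frame 2 E3) (p : E3) (u : E2 → ℝ) (z : E2), Surf M →
  (∀ᶠ y in 𝓝 z, ContDiffAt ℝ ∞ u y) → (∀ᶠ x in 𝓝 (f.gr p u z), x ∈ M ↔ f.gw p u x = 0) →
    PT M (f.gr p u z) = perp ((√(1 + ‖grad u z‖ ^ 2))⁻¹ • (f.n - f.ι (grad u z))) ∧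
    ‖velM M (f.gr p u z)‖ * √(1 + ‖grad u z‖ ^ 2) = |res (f.π p) ⟪f.n, p⟫ u z| ∧
    ‖fderiv ℝ (grad u) z‖ ^ 2 ≤ (1 + ‖grad u z‖ ^ 2) ^ 3 * Asq M (f.gr p u z)

/-! ### the limit -/

/-- **B7a**: bounded `W^{1,2}` solutions of a Beltrami inequality are continuous -/
def BeltStmt : Prop := ∀ (Ω : Set ℂ) (Y P Q : ℂ → ℂ) (k B : ℝ), IsOpen Ω → 0 ≤ k → k < 1 →
  (∀ K ⊆ Ω, IsCompact K → MemLp Y 2 (volume.restrict K)) →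
  (∀ K ⊆ Ω, IsCompact K → MemLp P 2 (volume.restrict K)) →
  (∀ K ⊆ Ω, IsCompact K → MemLp Q 2 (volume.restrict K)) →
  (∀ φ : ℂ → ℝ, ContDiff ℝ ∞ φ → HasCompactSupport φ → tsupport φ ⊆ Ω → ∀ v : ℂ,
    ∫ z, fderiv ℝ φ z v • Y z = - ∫ z, φ z • (P z * v + Q z * conj v)) →
  (∀ᵐ z, z ∈ Ω → ‖Q z‖ ≤ k * ‖P z‖ + B) →
  ∃ Y' : ℂ → ℂ, ContinuousOn Y' Ω ∧ ∀ᵐ z, z ∈ Ω → Y' z = Y z

/-- almost solutions of the shrinker equation on discs with small holes -/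
structure Approx {ι : Type} (U : Ultrafilter ι) (ρ L C : ℝ) (a : E2) (c : ℝ) (u : ι → E2 → ℝ)
    (G : ι → Set E2) (η : ι → E2 → ℝ) (v : E2 → ℝ) : Prop where
  op : ∀ᶠ i in (U : Filter ι), IsOpen (G i) ∧ G i ⊆ ball 0 ρ ∧ ContDiffOn ℝ ∞ (u i) (G i)
  lip : ∀ᶠ i in (U : Filter ι), ∀ y y', |u i y - u i y'| ≤ L * ‖y - y'‖
  eta : ∀ᶠ i in (U : Filter ι), ContDiff ℝ ∞ (η i) ∧ (∀ y, 0 ≤ η i y) ∧ (∀ y, η i y ≤ 1) ∧
    ∀ y ∈ ball (0 : E2) ρ, y ∉ G i → ∀ᶠ y' in 𝓝 y, η i y' = 0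
  hess : ∀ᶠ i in (U : Filter ι),
    ∫⁻ y in G i, ENNReal.ofReal (‖fderiv ℝ (grad (u i)) y‖ ^ 2) ≤ ENNReal.ofReal C
  small : ∀ ε : ℝ, 0 < ε → ∀ᶠ i in (U : Filter ι),
    ∫⁻ y in ball (0 : E2) ρ, ‖fderiv ℝ (η i) y‖ₑ ≤ ENNReal.ofReal ε ∧
    volume {y ∈ ball (0 : E2) ρ | η i y ≠ 1} ≤ ENNReal.ofReal ε ∧
    ∫⁻ y in G i, ENNReal.ofReal (res a c (u i) y ^ 2) ≤ ENNReal.ofReal ε
  lim : ∀ y, Tendsto (fun i => u i y) U (𝓝 (v y))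

/-- **B6, B7**: the limit is a smooth solution and the gradients converge -/
def PlaneStmt : Prop := ∀ (ι : Type) (U : Ultrafilter ι) (ρ L C : ℝ) (a : E2) (c : ℝ)
  (u : ι → E2 → ℝ) (G : ι → Set E2) (η : ι → E2 → ℝ) (v : E2 → ℝ), Approx U ρ L C a c u G η v →
    ContDiffOn ℝ ∞ v (ball 0 ρ) ∧ (∀ y ∈ ball (0 : E2) ρ, res a c v y = 0) ∧
    ∀ ε : ℝ, 0 < ε → ∀ᶠ i in (U : Filter ι),
      ∫⁻ y in G i, ‖grad (u i) y - grad v y‖ₑ ≤ ENNReal.ofReal ε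

/-- **B8**: the strong maximum principle -/
def SmpStmt : Prop := ∀ (ρ : ℝ) (a : E2) (c : ℝ) (u v : E2 → ℝ), ContDiffOn ℝ ∞ u (ball 0 ρ) →
  ContDiffOn ℝ ∞ v (ball 0 ρ) → (∀ y ∈ ball (0 : E2) ρ, res a c u y = 0) →
  (∀ y ∈ ball (0 : E2) ρ, res a c v y = 0) → (∀ y ∈ ball (0 : E2) ρ, u y ≤ v y) →
  (∃ y ∈ ball (0 : E2) ρ, u y = v y) → ∀ y ∈ ball (0 : E2) ρ, u y = v y

/-- the limit in a cylinder is a sum of ordered smooth graphs -/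
def LimitStmt : Prop := ∀ (ι : Type) (U : Ultrafilter ι) (M : ι → Set E3) (κ : Measure E3)
  (Λ : ℝ), Seq U M κ Λ → ∀ (f : Frame 2 E3) (p : E3) (ρ h' h b : ℝ), 0 < ρ → 0 < h' → h' < h →
    0 < b → (∀ ε : ℝ, 0 < ε → ∀ᶠ i in (U : Filter ι), Cov (Bad (M i) f p (2 * ρ) h' h b) ε) →
    ∃ (k : ℕ) (v : ℕ → E2 → ℝ), (∀ l < k, ContDiffOn ℝ ∞ (v l) (ball 0 ρ) ∧
      ∀ y ∈ ball (0 : E2) ρ, res (f.π p) ⟪f.n, p⟫ (v l) y = 0) ∧ (∀ l y, |v l y| ≤ h') ∧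
      (∀ y, Monotone fun l => v l y) ∧
      κ.restrict (f.cyl p ρ h) = ∑ l ∈ Finset.range k, mu (f.gr p (v l) '' ball 0 ρ)

/-! ### the results of the block -/

/-- **B-struct**: the limit is a smooth shrinker with locally constant multiplicity -/
def StructStmt : Prop := ∀ (ι : Type) (U : Ultrafilter ι) (M : ι → Set E3) (κ : Measure E3)
  (Λ : ℝ), Seq U M κ Λ → ∃ (S : Set E3) (θ : E3 → ℕ), Surf S ∧ IsClosed S ∧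
    (∀ x ∈ S, velM S x = 0) ∧ (∀ x ∈ S, 1 ≤ θ x) ∧ (∀ x ∈ S, ∀ᶠ y in 𝓝[S] x, θ y = θ x) ∧
    κ = (mu S).withDensity fun x => (θ x : ℝ≥0∞)

/-- **B-cov**: off small balls the surfaces are close to the limit `{w = 0}` in `C¹` -/
def CovStmt : Prop := ∀ (ι : Type) (U : Ultrafilter ι) (M : ι → Set E3) (κ : Measure E3)
  (Λ : ℝ), Seq U M κ Λ → ∀ w : E3 → ℝ, ContDiff ℝ 2 w → (∀ x, w x = 0 → grad w x ≠ 0) →
    κ {x | w x ≠ 0} = 0 → ∀ R δ ε : ℝ, 0 < δ → 0 < ε → ∀ᶠ i in (U : Filter ι),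
      Cov {x | x ∈ M i ∧ ‖x‖ ≤ R ∧
        (δ ≤ |w x| ∨ |⟪nu (M i) x, grad w x⟫| ≤ (1 - δ) * ‖grad w x‖)} ε

/-- **B-out**: strong compactness of the normalised heights -/
def OutStmt : Prop := ∀ (b : ℝ) (k : ℕ) (W : E3 → ℝ) (c K : ℝ) (q : ℕ), TubeD W c K →
  Surf {x | W x = 0} → SC 2 (cls b) ((k : ℝ≥0∞) • sig 2 W) W c K q

/-! ### elementary facts -/

lemma finrank_E3 : Module.finrank ℝ E3 = 2 + 1 := by simp

lemma mu_eq (M : Set E3) : mu M = (μH[2] : Measure E3).restrict M := rfl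

lemma continuousOn_abs_nu {M : Set E3} (hM : Surf M) {X : E3 → E3} (hX : ContinuousOn X M) :
    ContinuousOn (fun x => |⟪nu M x, X x⟫|) M := by
  have h1 : ContinuousOn (fun x => √(‖X x‖ ^ 2 - ‖PT M x (X x)‖ ^ 2)) M :=
    ((hX.norm.pow 2).sub ((hM.continuousOn_PT.clm_apply hX).norm.pow 2)).sqrt
  refine h1.congr fun x hx => ?_
  simp only
  rw [PT_def, norm_perp_sq (hM.norm_nu hx), sub_sub_cancel, Real.sqrt_sq_eq_abs]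

lemma exists_open_band {M : Set E3} (hM : Surf M) (e : E3) (b : ℝ) :
    ∃ O : Set E3, IsOpen O ∧ band M e b = M ∩ O := by
  obtain ⟨O, hO, h⟩ := (_root_.continuousOn_iff'.1 (continuousOn_abs_nu hM (X := fun _ => e)
    continuousOn_const)) (Iio b) isOpen_Iio
  refine ⟨O, hO, ?_⟩
  rw [inter_comm, ← h]
  ext x
  simp only [band, mem_ofPred_eq, mem_inter_iff, mem_preimage, mem_Iio]
  tauto

lemma measurableSet_band {M : Set E3} (hM : Surf M) (e : E3) (b : ℝ) :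
    MeasurableSet (band M e b) := by
  obtain ⟨O, hO, h⟩ := exists_open_band hM e b
  rw [h]
  exact hM.measurableSet.inter hO.measurableSet

lemma isClosed_bandc {M : Set E3} (hM : Surf M) (hc : IsClosed M) (e : E3) (b : ℝ) :
    IsClosed (bandc M e b) :=
  (continuousOn_abs_nu hM (X := fun _ => e) continuousOn_const).preimage_isClosed_of_isClosed hc
    isClosed_Iic

lemma band_subset_bandc {M : Set E3} {e : E3} {b : ℝ} : band M e b ⊆ bandc M e b :=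
  fun _ hx => ⟨hx.1, hx.2.le⟩

lemma bandc_subset_band {M : Set E3} {e : E3} {b b' : ℝ} (h : b < b') :
    bandc M e b ⊆ band M e b' := fun _ hx => ⟨hx.1, hx.2.trans_lt h⟩

lemma Cov.mono {K K' : Set E3} {ε ε' : ℝ} (h : Cov K ε) (hK : K' ⊆ K) (hε : ε ≤ ε') :
    Cov K' ε' := by
  obtain ⟨s, h1, h2, h3⟩ := h
  exact ⟨s, h1, h2.trans hε, hK.trans h3⟩

lemma Cov.nonneg {K : Set E3} {ε : ℝ} (h : Cov K ε) : 0 ≤ ε := by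
  obtain ⟨s, -, h2, -⟩ := h
  exact (Finset.sum_nonneg fun c _ => Real.sqrt_nonneg _).trans h2

lemma cov_empty : Cov ∅ 0 := ⟨∅, by simp, by simp, by simp⟩

lemma cov_ball (x : E3) {r : ℝ} (hr : 0 < r) : Cov (ball x r) √r :=
  ⟨{(x, r)}, by simpa using hr, by simp, by simp⟩

lemma Cov.union {K K' : Set E3} {ε ε' : ℝ} (h : Cov K ε) (h' : Cov K' ε') :
    Cov (K ∪ K') (ε + ε') := by
  classical
  obtain ⟨s, h1, h2, h3⟩ := h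
  obtain ⟨s', h1', h2', h3'⟩ := h'
  refine ⟨s ∪ s', fun c hc => ?_, ?_, ?_⟩
  · rcases Finset.mem_union.1 hc with hc | hc
    exacts [h1 c hc, h1' c hc]
  · have h4 := Finset.sum_union_inter (s₁ := s) (s₂ := s') (f := fun c : E3 × ℝ => √c.2)
    have h5 : 0 ≤ ∑ c ∈ s ∩ s', √c.2 := Finset.sum_nonneg fun c _ => Real.sqrt_nonneg _
    linarith
  · rw [Finset.set_biUnion_union]
    exact union_subset_union h3 h3'

lemma Cov.biUnion {α : Type*} (t : Finset α) {K : α → Set E3} {ε : α → ℝ}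
    (h : ∀ a ∈ t, Cov (K a) (ε a)) : Cov (⋃ a ∈ t, K a) (∑ a ∈ t, ε a) := by
  classical
  induction t using Finset.induction_on with
  | empty => simpa using cov_empty
  | insert a t ha ih =>
    rw [Finset.set_biUnion_insert, Finset.sum_insert ha]
    exact (h a (Finset.mem_insert_self a t)).union
      (ih fun b hb => h b (Finset.mem_insert_of_mem hb))

theorem sheetStmt_of (h : SheetStmt') : SheetStmt := by
  classical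
  intro L₀ L₁ b h0 h1 hb
  obtain ⟨c₀, L, hc, hL, H⟩ := h L₀ L₁ b h0 h1 hb
  refine ⟨c₀, √(2 * L₀), L, hc, Real.sqrt_pos.2 (by positivity), hL, ?_⟩
  intro n M K Φ ρ h' h ε hn hM hMc hΦ hρ hh' hh hε ⟨s₀, p1, p2, p3⟩ q1 q2 q3
  obtain ⟨s₁, z, k, τ, r1, -, r3⟩ := H n M K Φ ρ h' h s₀ hn hM hMc hΦ hρ hh' hh p1 (p2.trans hε)
    p3 q1 q2 q3
  refine ⟨_, k, τ, ?_, ⟨r3.pos, fun y hy t ht hK => r3.good y hy t ht (p3 hK), r3.fib, r3.smono,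
    r3.mono, r3.bd, r3.smooth, r3.lip⟩⟩
  calc ∑ c ∈ s₁.image (fun c : E3 × ℝ => (z c, √(2 * L₀ * c.2))), c.2
      ≤ ∑ c ∈ s₁, √(2 * L₀ * c.2) :=
        Finset.sum_image_le_of_nonneg (f := fun c : E2 × ℝ => c.2) fun c hc => by
          obtain ⟨c', -, rfl⟩ := Finset.mem_image.1 hc
          exact Real.sqrt_nonneg _
    _ ≤ ∑ c ∈ s₀, √(2 * L₀ * c.2) :=
        Finset.sum_le_sum_of_subset_of_nonneg r1 fun _ _ _ => Real.sqrt_nonneg _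
    _ = √(2 * L₀) * ∑ c ∈ s₀, √c.2 := by
        rw [Finset.mul_sum]
        exact Finset.sum_congr rfl fun c _ => Real.sqrt_mul (by positivity) _
    _ ≤ √(2 * L₀) * ε := by gcongr

lemma isOpen_GG (ρ : ℝ) (s : Finset (E2 × ℝ)) : IsOpen (GG ρ s) :=
  isOpen_ball.sdiff (isClosed_biUnion_finset fun _ _ => isClosed_closedBall)

lemma Good.finite {Λ : ℝ} {M : Set E3} (h : Good Λ M) : IsFiniteMeasureOnCompacts (mu M) :=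
  h.surf.finiteOnCompacts finrank_E3 h.closed

lemma Good.ratio_real {Λ : ℝ} {M : Set E3} (h : Good Λ M) (hΛ : 0 ≤ Λ) (x : E3) (r : ℝ)
    (hr : 0 < r) (hr1 : r ≤ 1) : (mu M).real (closedBall x r) ≤ Λ * r ^ 2 :=
  ENNReal.toReal_le_of_le_ofReal (by positivity) (h.ratio x r hr hr1)

lemma velM_eq {M : Set E3} (hM : Surf M) {x : E3} (hx : x ∈ M) :
    velM M x = Hv M x + (1 / 2 : ℝ) • (x - PT M x x) := by
  rw [velM, vel, hM.proj_tanP hx]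

lemma norm_Hv_sq_le {M : Set E3} (hM : Surf M) {x : E3} (hx : x ∈ M) :
    ‖Hv M x‖ ^ 2 ≤ 2 * ‖velM M x‖ ^ 2 + ‖x‖ ^ 2 / 2 := by
  have h1 : Hv M x = velM M x - (1 / 2 : ℝ) • (x - PT M x x) := by
    rw [velM_eq hM hx]; abel
  have h2 : ‖x - PT M x x‖ ≤ ‖x‖ := by
    rw [PT_apply, sub_sub_cancel, norm_smul, hM.norm_nu hx, mul_one]
    have := abs_real_inner_le_norm (nu M x) x
    rwa [hM.norm_nu hx, one_mul] at this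
  have h3 : ‖Hv M x‖ ≤ ‖velM M x‖ + ‖x‖ / 2 := by
    rw [h1]
    refine (norm_sub_le _ _).trans ?_
    rw [norm_smul, Real.norm_of_nonneg (by norm_num)]
    linarith
  have h4 := norm_nonneg (Hv M x)
  nlinarith [sq_nonneg (‖velM M x‖ - ‖x‖ / 2), norm_nonneg (velM M x), norm_nonneg x]

end Vale.Agent.P218N.B
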