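import Vale.Agent.P218N.B.BeltC
import Vale.Agent.P218N.B.Stmt

/-! `W^{1,2}` solutions of a Beltrami inequality have a continuous representative. -/

open MeasureTheory Set Filter Topology Metric
open scoped ENNReal NNReal ComplexConjugate ContDiff

namespace Vale.Agent.P218N.B

namespace Belt

open Vale.Agent.P247.H832.R1

variable {Ω : Set ℂ} {u p q : ℂ → ℂ}

lemma fderiv_ofReal {f : ℂ → ℝ} (hf : ContDiff ℝ ∞ f) (z v : ℂ) :
    fderiv ℝ (fun z => ((f z : ℝ) : ℂ)) z v = ((fderiv ℝ f z v : ℝ) : ℂ) := by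
  have h4 : HasFDerivAt (fun z => ((f z : ℝ) : ℂ)) (Complex.ofRealCLM.comp (fderiv ℝ f z)) z :=
    Complex.ofRealCLM.hasFDerivAt.comp z (hf.differentiable (by simp) z).hasFDerivAt
  rw [h4.fderiv]; rfl

/-- real test functions suffice -/
lemma of_real (hu : L2l Ω u) (hp : L2l Ω p) (hq : L2l Ω q)
    (h : ∀ φ : ℂ → ℝ, ContDiff ℝ ∞ φ → HasCompactSupport φ → tsupport φ ⊆ Ω →
      ∀ v : ℂ, ∫ z, fderiv ℝ φ z v • u z = - ∫ z, φ z • (p z * v + q z * conj v))
    {φ : ℂ → ℂ} (hφ : Tst φ) (hs : tsupport φ ⊆ Ω) (v : ℂ) :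
    ∫ z, fderiv ℝ φ z v * u z = - ∫ z, φ z * dd p q v z := by
  have hD : L2l Ω (dd p q v) := fun K hK hc =>
    ((hp K hK hc).mul_const v).add ((hq K hK hc).mul_const (conj v))
  have key : ∀ L : ℂ →L[ℝ] ℝ, Integrable (fun z => (L (fderiv ℝ φ z v) : ℂ) * u z) ∧
      Integrable (fun z => (L (φ z) : ℂ) * dd p q v z) ∧
      ∫ z, (L (fderiv ℝ φ z v) : ℂ) * u z = - ∫ z, (L (φ z) : ℂ) * dd p q v z := by
    intro L
    have h1 : ContDiff ℝ ∞ fun z => L (φ z) := L.contDiff.comp hφ.smooth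
    have h2 : HasCompactSupport fun z => L (φ z) := hφ.supp.comp_left (g := L) (map_zero L)
    have h3 : tsupport (fun z => L (φ z)) ⊆ Ω := by
      refine (closure_mono fun z hz h0 => ?_).trans hs
      exact hz (by simp [h0])
    have h4 : tsupport (fun z => (L (φ z) : ℂ)) ⊆ Ω := by
      refine (closure_mono fun z hz h0 => ?_).trans hs
      exact hz (by simp [h0])
    have h5 : ∀ z, fderiv ℝ (fun z => L (φ z)) z v = L (fderiv ℝ φ z v) := fun z => by
      have h6 : HasFDerivAt (fun z => L (φ z)) (L.comp (fderiv ℝ φ z)) z :=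
        L.hasFDerivAt.comp z (hφ.smooth.differentiable (by simp) z).hasFDerivAt
      rw [h6.fderiv]; rfl
    have tf := Tst.of_real h1 h2
    have h6 := int_test (tf.fderiv_apply v) ((tsupport_fd _ v).trans h4) hu
    have h7 := h _ h1 h2 h3 v
    simp only [fderiv_ofReal h1, h5, Complex.real_smul] at h6 h7
    exact ⟨h6, int_test tf h4 hD, h7⟩
  obtain ⟨a1, a2, a3⟩ := key Complex.reCLM
  obtain ⟨b1, b2, b3⟩ := key Complex.imCLM
  have e0 : ∀ w y : ℂ, w * y = (Complex.reCLM w : ℂ) * y +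
      Complex.I * ((Complex.imCLM w : ℂ) * y) := fun w y => by
    rw [Complex.reCLM_apply, Complex.imCLM_apply]
    conv_lhs => rw [← Complex.re_add_im w]
    ring
  rw [integral_congr_ae (Eventually.of_forall fun z => e0 (fderiv ℝ φ z v) (u z)),
    integral_congr_ae (Eventually.of_forall fun z => e0 (φ z) (dd p q v z)),
    integral_add a1 (b1.const_mul _), integral_add a2 (b2.const_mul _), integral_const_mul,
    integral_const_mul, a3, b3]
  ring

/-- cutting off a local `W^{1,2}` function -/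
lemma cut (hu : L2l Ω u) (hp : L2l Ω p) (hq : L2l Ω q)
    (h : ∀ φ : ℂ → ℂ, Tst φ → tsupport φ ⊆ Ω → ∀ v : ℂ,
      ∫ z, fderiv ℝ φ z v * u z = - ∫ z, φ z * dd p q v z) {η : ℂ → ℂ}
    (hη : Tst η) (hs : tsupport η ⊆ Ω) :
    W (fun z => η z * u z) (fun z => dz η z * u z + η z * p z)
      (fun z => dzb η z * u z + η z * q z) where
  hu := memLp_cut hη hs hu
  hp := (memLp_cut hη.dz ((tsupport_dz η).trans hs) hu).add (memLp_cut hη hs hp)
  hq := (memLp_cut hη.dzb ((tsupport_dzb η).trans hs) hu).add (memLp_cut hη hs hq)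
  eq := by
    intro φ hφ v
    have h1 := h _ (hφ.mul_right hη.smooth) ((tsupport_mul_subset_right).trans hs) v
    have m2 := memLp_cut (hη.fderiv_apply v) ((tsupport_fd η v).trans hs) hu
    have m3 : MemLp (fun z => η z * dd p q v z) 2 (volume : Measure ℂ) := memLp_cut hη hs
      fun K hK hc => ((hp K hK hc).mul_const v).add ((hq K hK hc).mul_const (conj v))
    have e1 : ∫ z, fderiv ℝ (fun z => φ z * η z) z v * u z =
        (∫ z, fderiv ℝ φ z v * (η z * u z)) + (∫ z, φ z * (fderiv ℝ η z v * u z)) := by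
      rw [← integral_add (int2 ((hφ.fderiv_apply v).memLp 2) (memLp_cut hη hs hu))
        (int2 (hφ.memLp 2) m2)]
      congr 1
      funext z
      rw [fderiv_mul_tst hφ hη]
      ring
    have e2 : ∫ z, φ z * dd (fun z => dz η z * u z + η z * p z)
        (fun z => dzb η z * u z + η z * q z) v z =
        (∫ z, φ z * (fderiv ℝ η z v * u z)) + (∫ z, φ z * η z * dd p q v z) := by
      simp only [mul_assoc]
      rw [← integral_add (int2 (hφ.memLp 2) m2) (int2 (hφ.memLp 2) m3)]
      congr 1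
      funext z
      rw [← dd_dz]
      simp only [dd]
      ring
    rw [e1] at h1
    rw [e2]
    linear_combination h1

end Belt

open Belt Vale.Agent.P247.H832.R1 in
theorem beltStmt : BeltStmt := by
  intro Ω Y P Q k B hΩ hk0 hk hY hP hQ hw hb
  let Y' : ℂ → ℂ := fun x => limUnder atTop fun n : ℕ => av Y ((1 / 4) ^ n) x
  have key : ∀ z0 ∈ Ω, ∃ r, 0 < r ∧ ContinuousOn Y' (ball z0 r) ∧
      ∀ᵐ z, z ∈ ball z0 r → Y' z = Y z := by
    intro z0 hz0
    obtain ⟨R, hR, hRΩ⟩ := Metric.isOpen_iff.1 hΩ z0 hz0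
    obtain ⟨η, hη, hs, h1⟩ := ball_cut z0 hR
    have w := cut hY hP hQ (fun φ hφ hs v => of_real hY hP hQ hw hφ hs v) hη (hs.trans hRΩ)
    obtain ⟨N, hN⟩ := exists_pow_lt_of_lt_one (show 0 < R / 8 by positivity)
      (show (1 / 4 : ℝ) < 1 by norm_num)
    have hsub : ∀ x ∈ ball z0 (R / 8), ∀ r ≤ (1 / 4 : ℝ) ^ N, closedBall x r ⊆ ball z0 (R / 4) :=
      fun x hx r hr => closedBall_subset_ball' (by linarith [mem_ball.1 hx])
    obtain ⟨G, hG, hc⟩ := conv (S := ball z0 (R / 8)) hk0 hk (abs_nonneg B) w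
      (show (0 : ℝ) < (1 / 4) ^ N by positivity) fun x hx => by
        filter_upwards [hb] with z h2 h3
        have h4 := hsub x hx _ le_rfl h3
        obtain ⟨e1, e2, e3⟩ := h1 z h4
        rw [e1, e2, e3, zero_mul, zero_add, zero_add, one_mul, one_mul]
        linarith [h2 (hRΩ (ball_subset_ball (by linarith) h4)), le_abs_self B]
    have hYG : ∀ x ∈ ball z0 (R / 8), Y' x = G x := by
      intro x hx
      refine Tendsto.limUnder_eq ((tendsto_add_atTop_iff_nat N).1 ((hc x hx).congr fun m => ?_))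
      rw [pow_add, mul_comm]
      refine setAverage_congr_fun measurableSet_closedBall (Eventually.of_forall fun z hz => ?_)
      rw [(h1 z (hsub x hx _ (mul_le_of_le_one_left (by positivity)
        (pow_le_one₀ (by norm_num) (by norm_num))) hz)).1, one_mul]
    refine ⟨R / 8, by positivity, hG.congr hYG, ?_⟩
    filter_upwards [IsUnifLocDoublingMeasure.ae_tendsto_average volume (li_of_memLp w.hu) 1]
      with x h2 hx
    have h3 : Tendsto (fun m : ℕ => (1 / 4 : ℝ) ^ N * (1 / 4) ^ m) atTop (𝓝[>] 0) := by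
      refine tendsto_nhdsWithin_iff.2 ⟨?_, Eventually.of_forall fun m => mem_Ioi.2 (by positivity)⟩
      simpa using (tendsto_pow_atTop_nhds_zero_of_lt_one (show (0 : ℝ) ≤ 1 / 4 by norm_num)
        (by norm_num)).const_mul ((1 / 4 : ℝ) ^ N)
    have h4 := h2 (fun _ => x) _ h3 (Eventually.of_forall fun m =>
      mem_closedBall_self (by positivity))
    rw [hYG x hx, tendsto_nhds_unique (hc x hx) h4,
      (h1 x (ball_subset_ball (by linarith) hx)).1, one_mul]
  refine ⟨Y', fun z hz => ?_, ?_⟩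
  · obtain ⟨r, hr, h1, -⟩ := key z hz
    exact (h1.continuousAt (ball_mem_nhds z hr)).continuousWithinAt
  · refine measure_null_of_locally_null _ fun z hz => ?_
    obtain ⟨r, hr, -, h1⟩ := key z (Classical.not_imp.1 hz).1
    refine ⟨_, inter_mem_nhdsWithin _ (ball_mem_nhds z hr), measure_mono_null (fun y hy => ?_) h1⟩
    exact fun h2 => (Classical.not_imp.1 hy.1).2 (h2 hy.2)

end Vale.Agent.P218N.B
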