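import Mathlib

/-! Strong `L¹` and weak `L²` limits along an ultrafilter. -/

open MeasureTheory Set Filter Topology Metric
open scoped ENNReal NNReal ContDiff

namespace Vale.Agent.P218N.B.Comp

theorem tz_iff {ι : Type} {l : Filter ι} {f : ι → ℝ≥0∞} :
    Tendsto f l (𝓝 0) ↔ ∀ ε : ℝ, 0 < ε → ∀ᶠ i in l, f i ≤ ENNReal.ofReal ε := by
  rw [ENNReal.tendsto_nhds_zero]
  refine ⟨fun h ε hε => h _ (ENNReal.ofReal_pos.2 hε), fun h ε hε => ?_⟩
  obtain ⟨r, h1, h2, h3⟩ := ENNReal.lt_iff_exists_real_btwn.1 hε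
  exact (h r (ENNReal.ofReal_pos.1 h2)).mono fun i hi => hi.trans h3.le

/-- translation estimate on a disc -/
theorem trans_le {F : ℂ → ℂ} {ρ δ : ℝ} (hF : ContDiffOn ℝ 1 F (ball 0 ρ)) {t : ℂ} (ht : ‖t‖ ≤ δ) :
    ∫⁻ x in ball 0 (ρ - δ), ‖F (x - t) - F x‖ₑ ≤
      ENNReal.ofReal δ * ∫⁻ x in ball 0 ρ, ‖fderiv ℝ F x‖ₑ := by
  set g : ℂ → ℝ≥0∞ := (ball 0 ρ).indicator fun x => ‖fderiv ℝ F x‖ₑ with hg
  have hm : Measurable g := (measurable_fderiv ℝ F).enorm.indicator measurableSet_ball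
  have h1 : ∀ x ∈ ball (0 : ℂ) (ρ - δ), ‖F (x - t) - F x‖ₑ ≤
      ∫⁻ s in Icc (0 : ℝ) 1, ENNReal.ofReal δ * g (x - s • t) := by
    intro x hx
    have h2 : ∀ s ∈ Icc (0 : ℝ) 1, x - s • t ∈ ball (0 : ℂ) ρ := fun s hs => by
      rw [mem_ball_zero_iff] at hx ⊢
      have : ‖s • t‖ ≤ δ := by
        rw [norm_smul, Real.norm_of_nonneg hs.1]
        exact (mul_le_of_le_one_left (norm_nonneg _) hs.2).trans ht
      linarith [norm_sub_le x (s • t)]
    have h3 : ContDiffOn ℝ 1 (fun s : ℝ => F (x - s • t)) (Icc 0 1) :=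
      hF.comp (by fun_prop) h2
    have h4 := enorm_sub_le_lintegral_deriv_of_contDiffOn_Icc h3 zero_le_one
    simp only [one_smul, zero_smul, sub_zero] at h4
    refine h4.trans (setLIntegral_mono' measurableSet_Icc fun s hs => ?_)
    have h5 : HasDerivAt (fun s : ℝ => x - s • t) (-t) s := by
      simpa using ((hasDerivAt_id s).smul_const t).const_sub x
    have h6 := ((hF.contDiffAt (isOpen_ball.mem_nhds (h2 s hs))).differentiableAt
      one_ne_zero).hasFDerivAt.comp_hasDerivAt s h5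
    rw [show deriv (fun s : ℝ => F (x - s • t)) s = _ from h6.deriv, hg, indicator_of_mem (h2 s hs),
      mul_comm]
    refine (ContinuousLinearMap.le_opENorm _ _).trans (mul_le_mul_right ?_ _)
    rw [enorm_neg, ← ofReal_norm]
    exact ENNReal.ofReal_le_ofReal ht
  refine (setLIntegral_mono' measurableSet_ball h1).trans ((setLIntegral_le_lintegral _ _).trans ?_)
  rw [lintegral_lintegral_swap (Measurable.aemeasurable (by fun_prop))]
  simp only [lintegral_const_mul' _ _ ENNReal.ofReal_ne_top, lintegral_sub_right_eq_self g]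
  rw [lintegral_const, hg, lintegral_indicator measurableSet_ball]
  simp

theorem exists_ker {δ : ℝ} (hδ : 0 < δ) : ∃ (k : ℂ → ℝ) (L : ℝ≥0), LipschitzWith L k ∧
    (∀ t, 0 ≤ k t) ∧ Integrable k ∧ ∫ t, k t = 1 ∧ ∀ t, k t ≠ 0 → ‖t‖ ≤ δ := by
  let φ : ContDiffBump (0 : ℂ) := ⟨δ / 2, δ, half_pos hδ, half_lt_self hδ⟩
  obtain ⟨L, hL⟩ := ContDiff.lipschitzWith_of_hasCompactSupport
    (φ.hasCompactSupport_normed (μ := volume)) (φ.contDiff_normed (n := 1)) (by simp)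
  refine ⟨φ.normed volume, L, hL, φ.nonneg_normed, φ.integrable_normed, φ.integral_normed,
    fun t ht => ?_⟩
  have : t ∈ Function.support (φ.normed volume) := ht
  rw [φ.support_normed_eq, mem_ball_zero_iff] at this
  exact this.le

/-- the mollification -/
noncomputable def mol (k : ℂ → ℝ) (F : ℂ → ℂ) (x : ℂ) : ℂ := ∫ t, k t • F (x - t)

section mol

variable {k : ℂ → ℝ} {F : ℂ → ℂ} {L : ℝ≥0} {B : ℝ}

theorem int_mol (hk : Integrable k) (hm : Measurable F) (hB : ∀ z, ‖F z‖ ≤ B) (x : ℂ) :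
    Integrable fun t => k t • F (x - t) :=
  hk.smul_bdd B (Measurable.aestronglyMeasurable (by fun_prop)) (Eventually.of_forall fun _ => hB _)

theorem norm_mol_le (h0 : ∀ t, 0 ≤ k t) (hk : Integrable k) (h1 : ∫ t, k t = 1)
    (hB : ∀ z, ‖F z‖ ≤ B) (x : ℂ) : ‖mol k F x‖ ≤ B := by
  have := norm_integral_le_of_norm_le (f := fun t => k t • F (x - t)) (hk.mul_const B)
    (Eventually.of_forall fun t => by
      rw [norm_smul, Real.norm_of_nonneg (h0 t)]
      exact mul_le_mul_of_nonneg_left (hB _) (h0 t))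
  rwa [integral_mul_const, h1, one_mul] at this

theorem mol_lip (hL : LipschitzWith L k) (hk : Integrable k) (hm : Measurable F)
    (hB : ∀ z, ‖F z‖ ≤ B) (hF : Integrable F) (x x' : ℂ) :
    ‖mol k F x - mol k F x'‖ ≤ L * ‖x - x'‖ * ∫ z, ‖F z‖ := by
  have e : ∀ x, mol k F x = ∫ y, k (x - y) • F y := fun x => by
    rw [mol, ← integral_sub_left_eq_self _ _ x]
    simp
  have hi : ∀ x, Integrable fun y => k (x - y) • F y := fun x => by
    simpa using (int_mol hk hm hB x).comp_sub_left x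
  rw [e, e, ← integral_sub (hi x) (hi x'), ← integral_const_mul]
  refine norm_integral_le_of_norm_le (hF.norm.const_mul _) (Eventually.of_forall fun y => ?_)
  rw [← sub_smul, norm_smul]
  refine mul_le_mul_of_nonneg_right ?_ (norm_nonneg _)
  simpa using hL.norm_sub_le (x - y) (x' - y)

theorem mol_approx {ρ δ : ℝ} (hc : Continuous k) (h0 : ∀ t, 0 ≤ k t) (hk : Integrable k)
    (h1 : ∫ t, k t = 1) (hs : ∀ t, k t ≠ 0 → ‖t‖ ≤ δ) (hm : Measurable F) (hB : ∀ z, ‖F z‖ ≤ B)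
    (hF : ContDiffOn ℝ 1 F (ball 0 ρ)) :
    ∫⁻ x in ball 0 (ρ - δ), ‖mol k F x - F x‖ₑ ≤
      ENNReal.ofReal δ * ∫⁻ x in ball 0 ρ, ‖fderiv ℝ F x‖ₑ := by
  have h2 : ∀ x, ‖mol k F x - F x‖ₑ ≤ ∫⁻ t, ‖k t‖ₑ * ‖F (x - t) - F x‖ₑ := fun x => by
    have : mol k F x - F x = ∫ t, k t • (F (x - t) - F x) := by
      simp only [smul_sub]
      rw [integral_sub (int_mol hk hm hB x) (hk.smul_const _), integral_smul_const, h1, one_smul,
        mol]
    rw [this]
    simpa only [enorm_smul] using enorm_integral_le_lintegral_enorm fun t => k t • (F (x - t) - F x)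
  have hkm := hc.measurable
  refine (lintegral_mono h2).trans ?_
  rw [lintegral_lintegral_swap (Measurable.aemeasurable (by fun_prop))]
  refine (lintegral_mono (g := fun t => ‖k t‖ₑ *
    (ENNReal.ofReal δ * ∫⁻ x in ball 0 ρ, ‖fderiv ℝ F x‖ₑ)) fun t => ?_).trans ?_
  · rw [lintegral_const_mul' _ _ enorm_ne_top]
    by_cases ht : k t = 0
    · simp [ht]
    · exact mul_le_mul_right (trans_le hF (hs t ht)) _
  · rw [lintegral_mul_const _ (by fun_prop), ← ofReal_integral_norm_eq_lintegral_enorm hk]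
    simp only [Real.norm_of_nonneg (h0 _), h1, ENNReal.ofReal_one, one_mul, le_refl]

end mol

/-- bounded and uniformly Lipschitz functions are uniformly Cauchy along an ultrafilter -/
theorem unif_cauchy {ι : Type} (U : Ultrafilter ι) {g : ι → ℂ → ℂ} {B L : ℝ}
    (hB : ∀ i x, ‖g i x‖ ≤ B) (hL : ∀ i x x', ‖g i x - g i x'‖ ≤ L * ‖x - x'‖) {K : Set ℂ}
    (hK : IsCompact K) {δ : ℝ} (hδ : 0 < δ) :
    ∀ᶠ p in (U : Filter ι) ×ˢ (U : Filter ι), ∀ x ∈ K, ‖g p.1 x - g p.2 x‖ ≤ δ := by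
  have h := hK.mem_prod_nhdsSet_of_forall (l := (U : Filter ι) ×ˢ (U : Filter ι))
    (s := {q | ‖g q.1.1 q.2 - g q.1.2 q.2‖ ≤ δ}) fun y _ => by
      obtain ⟨l, -, hl⟩ := (isCompact_closedBall (0 : ℂ) B).ultrafilter_le_nhds'
        (U.map fun i => g i y) (mem_map.2 (Eventually.of_forall fun i =>
          mem_closedBall_zero_iff.2 (hB i y)))
      have h1 : ∀ᶠ i in (U : Filter ι), ‖g i y - l‖ < δ / 4 := by
        simpa only [dist_eq_norm] using Metric.tendsto_nhds.1 hl (δ / 4) (by positivity)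
      have h2 : ∀ᶠ x in 𝓝 y, L * ‖x - y‖ < δ / 4 :=
        (Continuous.tendsto' (f := fun x => L * ‖x - y‖) (by fun_prop) y 0 (by simp)).eventually
          (gt_mem_nhds (by positivity))
      filter_upwards [(h1.prod_mk h1).prod_mk h2] with q ⟨⟨a, b⟩, c⟩
      have e : g q.1.1 q.2 - g q.1.2 q.2 = (g q.1.1 q.2 - g q.1.1 y) + (g q.1.1 y - l) -
        (g q.1.2 y - l) - (g q.1.2 q.2 - g q.1.2 y) := by ring
      rw [e]
      refine (norm_sub_le _ _).trans ((add_le_add ((norm_sub_le _ _).trans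
        (add_le_add (norm_add_le _ _) le_rfl)) le_rfl).trans ?_)
      linarith [hL q.1.1 q.2 y, hL q.1.2 q.2 y]
  exact (Eventually.curry h).mono fun p hp => hp.self_of_nhdsSet

theorem tendsto_annulus (ρ : ℝ) :
    Tendsto (fun δ : ℝ => volume (ball (0 : ℂ) ρ \ ball 0 (ρ - δ))) (𝓝[>] 0) (𝓝 0) := by
  have h1 : Tendsto (fun δ : ℝ => volume (ball (0 : ℂ) ρ) - volume (ball (0 : ℂ) (ρ - δ))) (𝓝 0)
      (𝓝 (volume (ball (0 : ℂ) ρ) - volume (ball (0 : ℂ) ρ))) := by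
    refine ENNReal.Tendsto.sub tendsto_const_nhds ?_ (Or.inl measure_ball_lt_top.ne)
    simp only [Complex.volume_ball]
    refine ENNReal.Tendsto.mul_const (ENNReal.Tendsto.pow (ENNReal.tendsto_ofReal ?_))
      (Or.inr ENNReal.coe_ne_top)
    exact Continuous.tendsto' (by fun_prop) _ _ (sub_zero ρ)
  rw [tsub_self] at h1
  refine (h1.mono_left nhdsWithin_le_nhds).congr' ?_
  filter_upwards [self_mem_nhdsWithin] with δ hδ
  exact (measure_sdiff (ball_subset_ball (sub_le_self _ (le_of_lt hδ)))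
    measurableSet_ball.nullMeasurableSet measure_ball_lt_top.ne).symm

theorem cauchy_L1 {ι : Type} (U : Ultrafilter ι) {F : ι → ℂ → ℂ} {ρ B : ℝ} {C : ℝ≥0∞}
    (hC : C ≠ ⊤) (hm : ∀ i, Measurable (F i)) (hF : ∀ i, ContDiffOn ℝ 1 (F i) (ball 0 ρ))
    (hB : ∀ i z, ‖F i z‖ ≤ B) (h0 : ∀ i, ∀ z ∉ ball (0 : ℂ) ρ, F i z = 0)
    (hD : ∀ i, ∫⁻ x in ball 0 ρ, ‖fderiv ℝ (F i) x‖ₑ ≤ C) :
    Tendsto (fun p : ι × ι => ∫⁻ x in ball 0 ρ, ‖F p.1 x - F p.2 x‖ₑ)
      ((U : Filter ι) ×ˢ (U : Filter ι)) (𝓝 0) := by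
  set V := volume (ball (0 : ℂ) ρ) with hV
  have hV' : V ≠ ⊤ := measure_ball_lt_top.ne
  have he : Tendsto (fun δ : ℝ => ENNReal.ofReal δ * C + (ENNReal.ofReal δ * V +
      ENNReal.ofReal δ * C) + ENNReal.ofReal (B + B) * volume (ball (0 : ℂ) ρ \ ball 0 (ρ - δ)))
      (𝓝[>] 0) (𝓝 0) := by
    have h1 : Tendsto (fun δ : ℝ => ENNReal.ofReal δ) (𝓝[>] 0) (𝓝 0) := by
      simpa using (ENNReal.tendsto_ofReal (tendsto_id (x := 𝓝 (0 : ℝ)))).mono_left
        (nhdsWithin_le_nhds (s := Ioi 0))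
    have h2 := ENNReal.Tendsto.mul_const h1 (Or.inr hC)
    simpa using (h2.add ((ENNReal.Tendsto.mul_const h1 (Or.inr hV')).add h2)).add
      (ENNReal.Tendsto.const_mul (a := ENNReal.ofReal (B + B)) (tendsto_annulus ρ)
        (Or.inr ENNReal.ofReal_ne_top))
  refine ENNReal.tendsto_nhds_zero.2 fun ε hε => ?_
  obtain ⟨δ, h1, hδ⟩ := ((ENNReal.tendsto_nhds_zero.1 he ε hε).and self_mem_nhdsWithin).exists
  obtain ⟨k, L, k1, k2, k3, k4, k5⟩ := exists_ker (mem_Ioi.1 hδ)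
  have hi : ∀ i, Integrable (F i) := fun i =>
    (integrableOn_iff_integrable_of_support_subset (s := ball 0 ρ) fun z hz => by
      by_contra h; exact hz (h0 i z h)).1
      (Measure.integrableOn_of_bounded hV' (hm i).aestronglyMeasurable
        (Eventually.of_forall (hB i)))
  have hn : ∀ i, ∫ z, ‖F i z‖ ≤ B * V.toReal := fun i => by
    rw [← setIntegral_eq_integral_of_forall_compl_eq_zero (s := ball 0 ρ)
      fun z hz => by rw [h0 i z hz, norm_zero]]
    exact (Real.le_norm_self _).trans (norm_setIntegral_le_of_norm_le_const measure_ball_lt_top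
      fun z _ => by rw [norm_norm]; exact hB i z)
  have hl : ∀ i x x', ‖mol k (F i) x - mol k (F i) x'‖ ≤ L * (B * V.toReal) * ‖x - x'‖ :=
    fun i x x' => (mol_lip k1 k3 (hm i) (hB i) (hi i) x x').trans (by
      rw [mul_right_comm]
      exact mul_le_mul_of_nonneg_right (mul_le_mul_of_nonneg_left (hn i) L.2) (norm_nonneg _))
  have hc : ∀ i, Continuous (mol k (F i)) := fun i =>
    (LipschitzWith.of_dist_le' (K := L * (B * V.toReal)) fun x x' => by
      simpa only [dist_eq_norm] using hl i x x').continuous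
  filter_upwards [unif_cauchy U (fun i => norm_mol_le k2 k3 k4 (hB i)) hl
    (isCompact_closedBall 0 ρ) (mem_Ioi.1 hδ)] with p hp
  refine le_trans ?_ h1
  have hs : ball (0 : ℂ) (ρ - δ) ⊆ ball 0 ρ := ball_subset_ball (sub_le_self _ (le_of_lt hδ))
  have ha := fun i => (mol_approx k1.continuous k2 k3 k4 k5 (hm i) (hB i) (hF i)).trans
    (mul_le_mul_right (hD i) _)
  rw [← union_sdiff_cancel hs]
  refine (lintegral_union_le _ _ _).trans (add_le_add ?_ ?_)
  · refine (setLIntegral_mono' (g := fun x => ‖mol k (F p.1) x - F p.1 x‖ₑ +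
      (ENNReal.ofReal δ + ‖mol k (F p.2) x - F p.2 x‖ₑ)) measurableSet_ball fun x hx => ?_).trans ?_
    · have e : F p.1 x - F p.2 x = -(mol k (F p.1) x - F p.1 x) +
        ((mol k (F p.1) x - mol k (F p.2) x) + (mol k (F p.2) x - F p.2 x)) := by ring
      rw [e]
      refine (enorm_add_le _ _).trans (add_le_add (enorm_neg _).le
        ((enorm_add_le _ _).trans (add_le_add ?_ le_rfl)))
      rw [← ofReal_norm]
      exact ENNReal.ofReal_le_ofReal (hp x (ball_subset_closedBall (hs hx)))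
    · rw [lintegral_add_left ((hc _).measurable.fun_sub (hm _)).enorm,
        lintegral_add_left measurable_const, setLIntegral_const]
      exact add_le_add (ha _) (add_le_add (mul_le_mul_right (measure_mono hs) _) (ha _))
  · rw [union_sdiff_cancel hs, ← setLIntegral_const]
    refine lintegral_mono fun x => ?_
    rw [← ofReal_norm]
    exact ENNReal.ofReal_le_ofReal ((norm_sub_le _ _).trans (add_le_add (hB _ _) (hB _ _)))

/-- **strong limit** -/
theorem exists_L1 {ι : Type} (U : Ultrafilter ι) {F : ι → ℂ → ℂ} {ρ B : ℝ} {C : ℝ≥0∞}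
    (hC : C ≠ ⊤) (hB0 : 0 ≤ B)
    (h : ∀ᶠ i in (U : Filter ι), Measurable (F i) ∧ ContDiffOn ℝ 1 (F i) (ball 0 ρ) ∧
      (∀ z, ‖F i z‖ ≤ B) ∧ (∀ z ∉ ball (0 : ℂ) ρ, F i z = 0) ∧
      ∫⁻ x in ball 0 ρ, ‖fderiv ℝ (F i) x‖ₑ ≤ C) :
    ∃ Y : ℂ → ℂ, StronglyMeasurable Y ∧ (∀ z, ‖Y z‖ ≤ B) ∧
      Tendsto (fun i => ∫⁻ x in ball 0 ρ, ‖F i x - Y x‖ₑ) U (𝓝 0) := by
  classical
  set P : (ℂ → ℂ) → Prop := fun f => Measurable f ∧ ContDiffOn ℝ 1 f (ball 0 ρ) ∧
    (∀ z, ‖f z‖ ≤ B) ∧ (∀ z ∉ ball (0 : ℂ) ρ, f z = 0) ∧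
    ∫⁻ x in ball 0 ρ, ‖fderiv ℝ f x‖ₑ ≤ C
  let F' : ι → ℂ → ℂ := fun i => if P (F i) then F i else fun _ => 0
  have hP : ∀ i, P (F' i) := fun i => by
    by_cases hi : P (F i)
    · simpa only [F', if_pos hi] using hi
    · simp only [F', if_neg hi]
      exact ⟨measurable_const, contDiffOn_const, by simpa using hB0, by simp, by simp⟩
  have hi : ∀ i, Integrable (F' i) (volume.restrict (ball 0 ρ)) := fun i =>
    Measure.integrableOn_of_bounded measure_ball_lt_top.ne (hP i).1.aestronglyMeasurable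
      (Eventually.of_forall (hP i).2.2.1)
  have h1 := cauchy_L1 U hC (fun i => (hP i).1) (fun i => (hP i).2.1) (fun i => (hP i).2.2.1)
    (fun i => (hP i).2.2.2.1) fun i => (hP i).2.2.2.2
  have h2 : Cauchy (map (fun i => (hi i).toL1) U) := by
    refine cauchy_map_iff'.2 (uniformity_basis_edist.tendsto_right_iff.2 fun ε hε => ?_)
    filter_upwards [h1.eventually (gt_mem_nhds hε)] with p hp
    rw [Integrable.edist_toL1_toL1]
    simpa only [edist_eq_enorm_sub] using hp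
  obtain ⟨f, hf⟩ := CompleteSpace.complete h2
  have h3 : Tendsto (fun i => ∫⁻ x in ball 0 ρ, ‖F' i x - f x‖ₑ) U (𝓝 0) := by
    have := tendsto_iff_edist_tendsto_0.1 (show Tendsto (fun i => (hi i).toL1) U (𝓝 f) from hf)
    refine this.congr fun i => ?_
    rw [← Integrable.toL1_coeFn f (L1.integrable_coeFn f), Integrable.edist_toL1_toL1,
      Integrable.toL1_coeFn]
    simp only [edist_eq_enorm_sub]
  have hf0 := Lp.stronglyMeasurable f
  have h4 : ∀ᵐ x ∂volume.restrict (ball (0 : ℂ) ρ), ‖f x‖ ≤ B := by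
    have h5 : ∫⁻ x in ball (0 : ℂ) ρ, ENNReal.ofReal (‖f x‖ - B) = 0 :=
      le_zero_iff.1 (ge_of_tendsto' h3 fun i => lintegral_mono fun x => by
        rw [← ofReal_norm]
        refine ENNReal.ofReal_le_ofReal ?_
        linarith [(hP i).2.2.1 x, norm_sub_norm_le (f x) (F' i x), norm_sub_rev (f x) (F' i x)])
    filter_upwards [(lintegral_eq_zero_iff
      (hf0.measurable.norm.sub_const B).ennreal_ofReal).1 h5] with x hx
    simpa using hx
  refine ⟨{x | ‖f x‖ ≤ B}.indicator f,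
    hf0.indicator (measurableSet_le hf0.measurable.norm measurable_const), fun z => ?_,
    h3.congr' ?_⟩
  · by_cases hz : z ∈ {x | ‖f x‖ ≤ B}
    · rwa [indicator_of_mem hz]
    · rwa [indicator_of_notMem hz, norm_zero]
  · filter_upwards [h] with i hi
    refine lintegral_congr_ae ?_
    filter_upwards [h4] with x hx
    simp only [F', if_pos (show P (F i) from hi)]
    rw [indicator_of_mem (show x ∈ {x | ‖f x‖ ≤ B} from hx)]

/-- **weak limit** -/
theorem exists_weak {ι : Type} (U : Ultrafilter ι) {μ : Measure ℂ} {h : ι → ℂ → ℂ} {C : ℝ≥0∞}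
    (hC : C ≠ ⊤) (hh : ∀ᶠ i in (U : Filter ι), MemLp (h i) 2 μ ∧ eLpNorm (h i) 2 μ ≤ C) :
    ∃ D : ℂ → ℂ, MemLp D 2 μ ∧ ∀ g, MemLp g 2 μ →
      Tendsto (fun i => ∫ z, g z * h i z ∂μ) U (𝓝 (∫ z, g z * D z ∂μ)) := by
  classical
  let x : ι → Lp ℂ 2 μ := fun i => if H : MemLp (h i) 2 μ then H.toLp _ else 0
  obtain ⟨ψ, -, hψ⟩ := (WeakDual.isCompact_closedBall (0 : StrongDual ℂ (Lp ℂ 2 μ))
    C.toReal).ultrafilter_le_nhds' (U.map fun i => StrongDual.toWeakDual (innerSL ℂ (x i))) (by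
      change ∀ᶠ i in (U : Filter ι), _
      filter_upwards [hh] with i hi
      change innerSL ℂ (x i) ∈ closedBall 0 C.toReal
      rw [mem_closedBall_zero_iff, innerSL_apply_norm]
      simp only [x, dif_pos hi.1, Lp.norm_toLp]
      exact ENNReal.toReal_mono hC hi.2)
  let x₀ := (InnerProductSpace.toDual ℂ (Lp ℂ 2 μ)).symm (WeakDual.toStrongDual ψ)
  refine ⟨x₀, Lp.memLp x₀, fun g hg => ?_⟩
  let y : Lp ℂ 2 μ := hg.star.toLp _
  have h1 : Tendsto (fun i => inner ℂ (x i) y) U (𝓝 (inner ℂ x₀ y)) := by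
    rw [InnerProductSpace.toDual_symm_apply]
    exact ((WeakDual.eval_continuous y).tendsto ψ).comp hψ
  have h2 : ∀ w : Lp ℂ 2 μ, (starRingEnd ℂ) (inner ℂ w y) = ∫ z, g z * w z ∂μ := fun w => by
    rw [inner_conj_symm, L2.inner_def]
    refine integral_congr_ae ?_
    filter_upwards [hg.star.coeFn_toLp] with z hz
    simp only [y, hz, RCLike.inner_apply, Pi.star_apply, RCLike.star_def, RCLike.conj_conj]
    ring
  have h3 := (Complex.continuous_conj.tendsto _).comp h1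
  rw [h2] at h3
  refine h3.congr' ?_
  filter_upwards [hh] with i hi
  rw [Function.comp_apply, h2]
  refine integral_congr_ae ?_
  simp only [x, dif_pos hi.1]
  filter_upwards [hi.1.coeFn_toLp] with z hz
  rw [hz]

/-- **weak limit** of operator valued functions -/
theorem exists_weak' {ι : Type} (U : Ultrafilter ι) {μ : Measure ℂ} {h : ι → ℂ → ℂ →L[ℝ] ℂ}
    {C : ℝ≥0∞} (hC : C ≠ ⊤)
    (hh : ∀ᶠ i in (U : Filter ι), MemLp (h i) 2 μ ∧ eLpNorm (h i) 2 μ ≤ C) :
    ∃ D : ℂ → ℂ →L[ℝ] ℂ, MemLp D 2 μ ∧ ∀ v g, MemLp g 2 μ →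
      Tendsto (fun i => ∫ z, g z * h i z v ∂μ) U (𝓝 (∫ z, g z * D z v ∂μ)) := by
  have hv : ∀ {f : ℂ → ℂ →L[ℝ] ℂ}, MemLp f 2 μ → ∀ v, MemLp (fun z => f z v) 2 μ := fun hf v =>
    (ContinuousLinearMap.apply ℝ ℂ v).comp_memLp' hf
  have key : ∀ v : ℂ, ‖v‖ = 1 → ∃ D : ℂ → ℂ, MemLp D 2 μ ∧ ∀ g, MemLp g 2 μ →
      Tendsto (fun i => ∫ z, g z * h i z v ∂μ) U (𝓝 (∫ z, g z * D z ∂μ)) := fun v e =>
    exists_weak U hC (hh.mono fun i hi => ⟨hv hi.1 v, le_trans (eLpNorm_mono fun z => by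
      simpa [e] using (h i z).le_opNorm v) hi.2⟩)
  obtain ⟨D1, a1, b1⟩ := key 1 norm_one
  obtain ⟨D2, a2, b2⟩ := key Complex.I Complex.norm_I
  have sp : ∀ {f : ℂ → ℂ →L[ℝ] ℂ}, MemLp f 2 μ → ∀ (v : ℂ) {g : ℂ → ℂ}, MemLp g 2 μ →
      ∫ z, g z * f z v ∂μ = v.re * ∫ z, g z * f z 1 ∂μ + v.im * ∫ z, g z * f z Complex.I ∂μ := by
    intro f hf v g hg
    have hi : ∀ w, Integrable (fun z => g z * f z w) μ := fun w => hg.integrable_mul (hv hf w)
    rw [← integral_const_mul, ← integral_const_mul, ← integral_add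
      ((hi _).const_mul _) ((hi _).const_mul _)]
    refine integral_congr_ae (Eventually.of_forall fun z => ?_)
    have : v = v.re • (1 : ℂ) + v.im • Complex.I := by simp
    beta_reduce
    conv_lhs => rw [this, map_add, map_smul, map_smul]
    simp only [Complex.real_smul]
    ring
  have hD : MemLp (fun z => Complex.reCLM.smulRight (D1 z) + Complex.imCLM.smulRight (D2 z)) 2 μ :=
    ((ContinuousLinearMap.smulRightL ℝ ℂ ℂ Complex.reCLM).comp_memLp' a1).add
      ((ContinuousLinearMap.smulRightL ℝ ℂ ℂ Complex.imCLM).comp_memLp' a2)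
  refine ⟨_, hD, fun v g hg => ?_⟩
  rw [sp hD v hg]
  refine Tendsto.congr' (hh.mono fun i hi => (sp hi.1 v hg).symm) ?_
  simpa using ((b1 g hg).const_mul (v.re : ℂ)).add ((b2 g hg).const_mul (v.im : ℂ))

end Vale.Agent.P218N.B.Comp
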