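import Vale.Agent.P218N.B.Stmt2
import Vale.Agent.P218N.B.CompA

/-! Compactness of bounded `W^{1,2}` functions on discs with small holes. -/

open MeasureTheory Set Filter Topology Metric
open scoped ENNReal NNReal ContDiff

namespace Vale.Agent.P218N.B

namespace Comp

/-- the hypotheses on one index -/
structure Gd (ρ B C : ℝ) (Y : ℂ → ℂ) (G : Set ℂ) (η : ℂ → ℝ) : Prop where
  B0 : 0 ≤ B
  op : IsOpen G
  sub : G ⊆ ball 0 ρ
  cd : ContDiffOn ℝ ∞ Y G
  bd : ∀ z ∈ G, ‖Y z‖ ≤ B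
  ce : ContDiff ℝ ∞ η
  e0 : ∀ z, 0 ≤ η z
  e1 : ∀ z, η z ≤ 1
  ez : ∀ z ∈ ball (0 : ℂ) ρ, z ∉ G → ∀ᶠ z' in 𝓝 z, η z' = 0
  en : ∫⁻ z in G, ENNReal.ofReal (‖fderiv ℝ Y z‖ ^ 2) ≤ ENNReal.ofReal C

/-- the cut off function -/
noncomputable def cf (Y : ℂ → ℂ) (G : Set ℂ) (η : ℂ → ℝ) : ℂ → ℂ := G.indicator fun z => η z • Y z

/-- the derivative extended by zero -/
noncomputable def dz (Y : ℂ → ℂ) (G : Set ℂ) : ℂ → ℂ →L[ℝ] ℂ := G.indicator (fderiv ℝ Y)

theorem le_sq_add {a l : ℝ} (hl : 0 < l) : a ≤ l * a ^ 2 + l⁻¹ := by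
  have h : l * a ^ 2 + l⁻¹ - 2 * a = l⁻¹ * (l * a - 1) ^ 2 := by field_simp; ring
  have h1 : 0 ≤ l⁻¹ * (l * a - 1) ^ 2 := by positivity
  have h2 : 0 ≤ l * a ^ 2 + l⁻¹ := by positivity
  linarith

namespace Gd

variable {ρ B C : ℝ} {Y : ℂ → ℂ} {G : Set ℂ} {η : ℂ → ℝ} (h : Gd ρ B C Y G η)
include h

theorem eq_in {z : ℂ} (hz : z ∈ G) : cf Y G η =ᶠ[𝓝 z] fun z => η z • Y z :=
  (show ∀ᶠ w in 𝓝 z, w ∈ G from h.op.mem_nhds hz).mono fun _ hw => indicator_of_mem hw _

theorem eq_out {z : ℂ} (h1 : z ∈ ball (0 : ℂ) ρ) (hz : z ∉ G) : cf Y G η =ᶠ[𝓝 z] fun _ => 0 :=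
  (h.ez z h1 hz).mono fun w hw => indicator_apply_eq_zero.2 fun _ => by rw [hw, zero_smul]

theorem cdAt {z : ℂ} (hz : z ∈ G) : ContDiffAt ℝ 1 Y z :=
  (h.cd.contDiffAt (h.op.mem_nhds hz)).of_le (by exact_mod_cast le_top)

theorem cf_cd : ContDiffOn ℝ 1 (cf Y G η) (ball 0 ρ) := fun z h1 => by
  refine ContDiffAt.contDiffWithinAt ?_
  by_cases hz : z ∈ G
  · exact ((h.ce.contDiffAt.of_le (by exact_mod_cast le_top)).smul (h.cdAt hz)).congr_of_eventuallyEq
      (h.eq_in hz)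
  · exact contDiffAt_const.congr_of_eventuallyEq (h.eq_out h1 hz)

theorem cf_zero (z : ℂ) (hz : z ∉ ball (0 : ℂ) ρ) : cf Y G η z = 0 :=
  indicator_of_notMem (fun h1 => hz (h.sub h1)) _

theorem cf_meas : Measurable (cf Y G η) := by
  classical
  exact (h.ce.continuous.continuousOn.smul h.cd.continuousOn).measurable_piecewise
    continuousOn_const h.op.measurableSet

theorem cf_bd (z : ℂ) : ‖cf Y G η z‖ ≤ B := by
  by_cases hz : z ∈ G
  · rw [cf, indicator_of_mem hz, norm_smul, Real.norm_of_nonneg (h.e0 z)]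
    exact (mul_le_of_le_one_left (norm_nonneg _) (h.e1 z)).trans (h.bd z hz)
  · rw [cf, indicator_of_notMem hz, norm_zero]; exact h.B0

theorem dz_meas : Measurable (dz Y G) := (measurable_fderiv ℝ Y).indicator h.op.measurableSet

theorem dz_sq : ∫⁻ z in ball 0 ρ, ENNReal.ofReal (‖dz Y G z‖ ^ 2) ≤ ENNReal.ofReal C := by
  refine (setLIntegral_le_lintegral _ _).trans (le_trans (le_of_eq ?_) h.en)
  rw [← lintegral_indicator h.op.measurableSet]
  refine lintegral_congr fun z => ?_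
  by_cases hz : z ∈ G <;> simp [dz, hz]

theorem dz_L2 : MemLp (dz Y G) 2 (volume.restrict (ball 0 ρ)) ∧
    eLpNorm (dz Y G) 2 (volume.restrict (ball 0 ρ)) ≤ ENNReal.ofReal C ^ (1 / 2 : ℝ) := by
  have h1 : eLpNorm (dz Y G) 2 (volume.restrict (ball 0 ρ)) ≤ ENNReal.ofReal C ^ (1 / 2 : ℝ) := by
    rw [eLpNorm_eq_lintegral_rpow_enorm_toReal two_ne_zero ENNReal.ofNat_ne_top,
      ENNReal.toReal_ofNat]
    refine ENNReal.rpow_le_rpow (le_trans (le_of_eq (lintegral_congr fun z => ?_)) h.dz_sq)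
      (by norm_num)
    rw [ENNReal.ofReal_pow (norm_nonneg _), ofReal_norm, ENNReal.rpow_two]
  exact ⟨⟨h.dz_meas.aestronglyMeasurable, h1.trans_lt
    (ENNReal.rpow_lt_top_of_nonneg (by norm_num) ENNReal.ofReal_ne_top)⟩, h1⟩

theorem meas_ne : MeasurableSet {z ∈ ball (0 : ℂ) ρ | η z ≠ 1} :=
  measurableSet_ball.inter (isOpen_ne_fun h.ce.continuous continuous_const).measurableSet

theorem err_pt {l : ℝ} (hl : 0 < l) {z : ℂ} (h1 : z ∈ ball (0 : ℂ) ρ) :
    ‖fderiv ℝ (cf Y G η) z - dz Y G z‖ ≤ l * ‖dz Y G z‖ ^ 2 +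
      ({z ∈ ball (0 : ℂ) ρ | η z ≠ 1}.indicator (fun _ => l⁻¹) z + B * ‖fderiv ℝ η z‖) := by
  have p1 : 0 ≤ {z ∈ ball (0 : ℂ) ρ | η z ≠ 1}.indicator (fun _ => l⁻¹) z :=
    indicator_nonneg (fun _ _ => by positivity) z
  have p2 := h.B0
  by_cases hz : z ∈ G
  · have h2 := ((h.ce.differentiable (by simp)) z).hasFDerivAt.smul
      ((h.cdAt hz).differentiableAt one_ne_zero).hasFDerivAt
    rw [(h.eq_in hz).fderiv_eq, show fderiv ℝ (fun z => η z • Y z) z = _ from h2.fderiv, dz,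
      indicator_of_mem hz, add_sub_right_comm, ← add_assoc]
    refine (norm_add_le _ _).trans (add_le_add ?_ ?_)
    · by_cases e : η z = 1
      · rw [e, one_smul, sub_self, norm_zero]; positivity
      · rw [indicator_of_mem (show z ∈ {z ∈ ball (0 : ℂ) ρ | η z ≠ 1} from ⟨h1, e⟩)]
        refine le_trans ?_ (le_sq_add hl)
        rw [← one_smul ℝ (fderiv ℝ Y z), smul_smul, mul_one, ← sub_smul, one_smul, norm_smul]
        refine mul_le_of_le_one_left (norm_nonneg _) (abs_le.2 ⟨?_, ?_⟩) <;>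
          linarith [h.e0 z, h.e1 z]
    · rw [ContinuousLinearMap.norm_smulRight_apply, mul_comm]
      exact mul_le_mul_of_nonneg_right (h.bd z hz) (norm_nonneg _)
  · rw [(h.eq_out h1 hz).fderiv_eq, fderiv_fun_const, dz, indicator_of_notMem hz]
    simp only [Pi.zero_apply, sub_self, norm_zero]
    positivity

theorem err {l : ℝ} (hl : 0 < l) :
    ∫⁻ z in ball 0 ρ, ‖fderiv ℝ (cf Y G η) z - dz Y G z‖ₑ ≤ ENNReal.ofReal l * ENNReal.ofReal C +
      (ENNReal.ofReal l⁻¹ * volume {z ∈ ball (0 : ℂ) ρ | η z ≠ 1} +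
        ENNReal.ofReal B * ∫⁻ z in ball 0 ρ, ‖fderiv ℝ η z‖ₑ) := by
  refine (setLIntegral_mono' (g := fun z => ENNReal.ofReal l * ENNReal.ofReal (‖dz Y G z‖ ^ 2) +
    ({z ∈ ball (0 : ℂ) ρ | η z ≠ 1}.indicator (fun _ => ENNReal.ofReal l⁻¹) z +
      ENNReal.ofReal B * ‖fderiv ℝ η z‖ₑ)) measurableSet_ball fun z hz => ?_).trans ?_
  · rw [← ofReal_norm, ← ofReal_norm, ← ENNReal.ofReal_mul hl.le, ← ENNReal.ofReal_mul h.B0]
    refine (ENNReal.ofReal_le_ofReal (h.err_pt hl hz)).trans (ENNReal.ofReal_add_le.trans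
      (add_le_add le_rfl (ENNReal.ofReal_add_le.trans (add_le_add (le_of_eq ?_) le_rfl))))
    by_cases e : z ∈ {z ∈ ball (0 : ℂ) ρ | η z ≠ 1}
    · rw [indicator_of_mem e, indicator_of_mem e]
    · rw [indicator_of_notMem e, indicator_of_notMem e, ENNReal.ofReal_zero]
  · have := h.dz_meas
    rw [lintegral_add_left (by fun_prop),
      lintegral_add_left (measurable_const.indicator h.meas_ne),
      lintegral_const_mul' _ _ ENNReal.ofReal_ne_top, lintegral_const_mul' _ _ ENNReal.ofReal_ne_top,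
      lintegral_indicator_const h.meas_ne]
    exact add_le_add (mul_le_mul_right h.dz_sq _)
      (add_le_add (mul_le_mul_right (Measure.restrict_apply_le _ _) _) le_rfl)

theorem dz_L1 : ∫⁻ z in ball 0 ρ, ‖dz Y G z‖ₑ ≤ volume (ball (0 : ℂ) ρ) + ENNReal.ofReal C := by
  refine (lintegral_mono (g := fun z => 1 + ENNReal.ofReal (‖dz Y G z‖ ^ 2)) fun z => ?_).trans ?_
  · beta_reduce
    rw [← ofReal_norm, ← ENNReal.ofReal_one, ← ENNReal.ofReal_add zero_le_one (sq_nonneg _)]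
    exact ENNReal.ofReal_le_ofReal (by nlinarith [sq_nonneg (‖dz Y G z‖ - 1), norm_nonneg (dz Y G z)])
  · rw [lintegral_add_left measurable_const, setLIntegral_one]
    exact add_le_add le_rfl h.dz_sq

theorem D_le : ∫⁻ z in ball 0 ρ, ‖fderiv ℝ (cf Y G η) z‖ₑ ≤
    (volume (ball (0 : ℂ) ρ) + ENNReal.ofReal C) +
      ∫⁻ z in ball 0 ρ, ‖fderiv ℝ (cf Y G η) z - dz Y G z‖ₑ := by
  refine le_trans ?_ (add_le_add h.dz_L1 le_rfl)
  rw [← lintegral_add_left h.dz_meas.enorm]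
  refine lintegral_mono fun z => ?_
  simpa using enorm_add_le (dz Y G z) (fderiv ℝ (cf Y G η) z - dz Y G z)

theorem Y_le (Y₀ : ℂ → ℂ) : ∫⁻ z in G, ‖Y z - Y₀ z‖ₑ ≤
    ENNReal.ofReal B * volume {z ∈ ball (0 : ℂ) ρ | η z ≠ 1} +
      ∫⁻ z in ball 0 ρ, ‖cf Y G η z - Y₀ z‖ₑ := by
  refine (setLIntegral_mono' (g := fun z =>
    {z ∈ ball (0 : ℂ) ρ | η z ≠ 1}.indicator (fun _ => ENNReal.ofReal B) z +
      ‖cf Y G η z - Y₀ z‖ₑ) h.op.measurableSet fun z hz => ?_).trans ?_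
  · rw [← sub_add_sub_cancel (Y z) (cf Y G η z)]
    refine (enorm_add_le _ _).trans (add_le_add ?_ le_rfl)
    rw [cf, indicator_of_mem hz]
    by_cases e : η z = 1
    · simp [e]
    · rw [indicator_of_mem (show z ∈ {z ∈ ball (0 : ℂ) ρ | η z ≠ 1} from ⟨h.sub hz, e⟩),
        ← ofReal_norm]
      refine ENNReal.ofReal_le_ofReal (le_trans ?_ (h.bd z hz))
      rw [← one_smul ℝ (Y z), smul_smul, mul_one, ← sub_smul, one_smul, norm_smul]
      refine mul_le_of_le_one_left (norm_nonneg _) (abs_le.2 ⟨?_, ?_⟩) <;>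
        linarith [h.e0 z, h.e1 z]
  · rw [lintegral_add_left (measurable_const.indicator h.meas_ne),
      lintegral_indicator_const h.meas_ne]
    exact add_le_add (mul_le_mul_right (Measure.restrict_apply_le _ _) _)
      (lintegral_mono_set h.sub)

theorem int_dz (g : ℂ → ℂ) (v : ℂ) :
    ∫ z in ball 0 ρ, g z * dz Y G z v = ∫ z in G, g z * fderiv ℝ Y z v := by
  rw [← inter_eq_self_of_subset_right h.sub, ← setIntegral_indicator h.op.measurableSet,
    inter_eq_self_of_subset_right h.sub]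
  refine integral_congr_ae (Eventually.of_forall fun z => ?_)
  by_cases hz : z ∈ G <;> simp [dz, hz]

end Gd

theorem tendsto_smul {ι : Type} {l : Filter ι} {μ : Measure ℂ} {a : ℂ → ℝ} {M : ℝ}
    (ha : Continuous a) (hM : ∀ z, ‖a z‖ ≤ M) {f f' : ι → ℂ → ℂ}
    (hi : ∀ᶠ i in l, Integrable (f i) μ ∧ Integrable (f' i) μ)
    (h : Tendsto (fun i => ∫⁻ z, ‖f i z - f' i z‖ₑ ∂μ) l (𝓝 0)) :
    Tendsto (fun i => ∫ z, a z • f i z ∂μ - ∫ z, a z • f' i z ∂μ) l (𝓝 0) := by
  have h1 := ENNReal.Tendsto.const_mul (a := ENNReal.ofReal M) h (Or.inr ENNReal.ofReal_ne_top)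
  rw [mul_zero] at h1
  refine tendsto_zero_iff_enorm_tendsto_zero.2 (tendsto_of_tendsto_of_tendsto_of_le_of_le'
    tendsto_const_nhds h1 (Eventually.of_forall fun _ => zero_le) (hi.mono fun i hi => ?_))
  have hb : ∀ {f : ℂ → ℂ}, Integrable f μ → Integrable (fun z => a z • f z) μ := fun hf =>
    hf.bdd_smul M ha.aestronglyMeasurable (Eventually.of_forall hM)
  rw [← integral_sub (hb hi.1) (hb hi.2), ← lintegral_const_mul' _ _ ENNReal.ofReal_ne_top]
  refine (enorm_integral_le_lintegral_enorm _).trans (lintegral_mono fun z => ?_)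
  rw [← smul_sub, enorm_smul, ← ofReal_norm (a z)]
  exact mul_le_mul_left (ENNReal.ofReal_le_ofReal (hM z)) _

theorem ibp {F : ℂ → ℂ} {ρ : ℝ} (hF : ContDiffOn ℝ 1 F (ball 0 ρ)) {φ : ℂ → ℝ}
    (h1 : ContDiff ℝ ∞ φ) (h2 : HasCompactSupport φ) (h3 : tsupport φ ⊆ ball 0 ρ) (v : ℂ) :
    ∫ z in ball 0 ρ, φ z • fderiv ℝ F z v = -∫ z in ball 0 ρ, fderiv ℝ φ z v • F z := by
  have key : ∀ {a : ℂ → ℝ} {f : ℂ → ℂ}, Continuous a → Function.support a ⊆ tsupport φ →
      ContinuousOn f (ball 0 ρ) → Integrable fun z => a z • f z := fun {a f} ha hs hf =>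
    (integrableOn_iff_integrable_of_support_subset (s := tsupport φ)
      ((Function.support_smul_subset_left a f).trans hs)).1
      ((ha.continuousOn.smul (hf.mono h3)).integrableOn_compact h2)
  have hs : Function.support (fun z => fderiv ℝ φ z v) ⊆ tsupport φ := fun z hz =>
    support_fderiv_subset ℝ (fun e => hz (by simp only [e]; rfl))
  rw [setIntegral_eq_integral_of_forall_compl_eq_zero fun z hz => by
      rw [image_eq_zero_of_notMem_tsupport fun e => hz (h3 e), zero_smul],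
    setIntegral_eq_integral_of_forall_compl_eq_zero fun z hz => by
      rw [Function.notMem_support.1 fun e => hz (h3 (hs e)), zero_smul]]
  exact integral_smul_fderiv_eq_neg_fderiv_smul_of_integrable
    (key ((h1.continuous_fderiv (by simp)).clm_apply continuous_const) hs hF.continuousOn)
    (key h1.continuous (subset_tsupport φ)
      ((hF.continuousOn_fderiv_of_isOpen isOpen_ball le_rfl).clm_apply continuousOn_const))
    (key h1.continuous (subset_tsupport φ) hF.continuousOn)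
    (fun z _ => h1.differentiable (by simp) z)
    fun z hz => (hF.contDiffAt (isOpen_ball.mem_nhds (h3 hz))).differentiableAt one_ne_zero

end Comp

open Vale.Agent.P218N.B.Comp in
theorem compStmt : CompStmt := by
  intro ι U ρ B C Y G η hB h1 h2 h3 h4
  have hg : ∀ᶠ i in (U : Filter ι), Gd ρ B C (Y i) (G i) (η i) := by
    filter_upwards [h1, h2, h3] with i a b c
      using ⟨hB, a.1, a.2.1, a.2.2.1, a.2.2.2, b.1, b.2.1, b.2.2.1, b.2.2.2, c⟩
  have ta := tz_iff.2 fun ε hε => (h4 ε hε).mono fun i hi => hi.1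
  have tb := tz_iff.2 fun ε hε => (h4 ε hε).mono fun i hi => hi.2
  have hV : volume (ball (0 : ℂ) ρ) ≠ ⊤ := measure_ball_lt_top.ne
  have := isFiniteMeasure_restrict.2 hV
  have te : Tendsto (fun i => ∫⁻ z in ball 0 ρ,
      ‖fderiv ℝ (cf (Y i) (G i) (η i)) z - dz (Y i) (G i) z‖ₑ) U (𝓝 0) := by
    refine ENNReal.tendsto_nhds_zero.2 fun ε hε => ?_
    have h5 : Tendsto (fun l : ℝ => ENNReal.ofReal l * ENNReal.ofReal C) (𝓝[>] 0) (𝓝 0) := by
      simpa using ENNReal.Tendsto.mul_const (b := ENNReal.ofReal C)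
        ((ENNReal.tendsto_ofReal (tendsto_id (x := 𝓝 (0 : ℝ)))).mono_left
          (nhdsWithin_le_nhds (s := Ioi 0))) (Or.inr ENNReal.ofReal_ne_top)
    have hε2 := ENNReal.half_pos hε.ne'
    obtain ⟨l, h6, hl⟩ := ((ENNReal.tendsto_nhds_zero.1 h5 _ hε2).and self_mem_nhdsWithin).exists
    have h7 := (ENNReal.Tendsto.const_mul (a := ENNReal.ofReal l⁻¹) tb
      (Or.inr ENNReal.ofReal_ne_top)).add
      (ENNReal.Tendsto.const_mul (a := ENNReal.ofReal B) ta (Or.inr ENNReal.ofReal_ne_top))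
    rw [mul_zero, mul_zero, add_zero] at h7
    filter_upwards [hg, ENNReal.tendsto_nhds_zero.1 h7 _ hε2] with i a b
    exact (a.err hl).trans ((add_le_add h6 b).trans_eq (ENNReal.add_halves ε))
  have hD : ∀ᶠ i in (U : Filter ι), ∫⁻ z in ball 0 ρ, ‖fderiv ℝ (cf (Y i) (G i) (η i)) z‖ₑ ≤
      volume (ball (0 : ℂ) ρ) + ENNReal.ofReal C + 1 := by
    filter_upwards [hg, ENNReal.tendsto_nhds_zero.1 te 1 one_pos] with i a b
      using a.D_le.trans (add_le_add le_rfl b)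
  have hfin : volume (ball (0 : ℂ) ρ) + ENNReal.ofReal C + 1 ≠ ⊤ := by finiteness
  obtain ⟨Y₀, y1, y2, y3⟩ := exists_L1 U hfin hB (F := fun i => cf (Y i) (G i) (η i))
    (by filter_upwards [hg, hD] with i a b using ⟨a.cf_meas, a.cf_cd, a.cf_bd, a.cf_zero, b⟩)
  obtain ⟨D, d1, d2⟩ := exists_weak' U (h := fun i => dz (Y i) (G i))
    (ENNReal.rpow_lt_top_of_nonneg (by norm_num) ENNReal.ofReal_ne_top).ne
    (hg.mono fun i a => a.dz_L2)
  refine ⟨Y₀, D, y1, y2, d1, tz_iff.1 ?_, fun v g hg' => (d2 v g hg').congr'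
    (hg.mono fun i a => a.int_dz g v), fun φ p1 p2 p3 v => ?_⟩
  · have h5 := (ENNReal.Tendsto.const_mul (a := ENNReal.ofReal B) tb
      (Or.inr ENNReal.ofReal_ne_top)).add y3
    rw [mul_zero, add_zero] at h5
    exact tendsto_of_tendsto_of_tendsto_of_le_of_le' tendsto_const_nhds h5
      (Eventually.of_forall fun _ => zero_le) (hg.mono fun i a => a.Y_le Y₀)
  have c1 : Continuous fun z => fderiv ℝ φ z v :=
    (p1.continuous_fderiv (by simp)).clm_apply continuous_const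
  obtain ⟨M, hM⟩ := p1.continuous.bounded_above_of_compact_support p2
  obtain ⟨M', hM'⟩ := c1.bounded_above_of_compact_support (p2.fderiv_apply ℝ v)
  have t1 := tendsto_smul c1 hM' (f' := fun _ => Y₀) (hg.mono fun i a =>
    ⟨Measure.integrableOn_of_bounded hV a.cf_meas.aestronglyMeasurable
      (Eventually.of_forall a.cf_bd), Measure.integrableOn_of_bounded hV y1.aestronglyMeasurable
      (Eventually.of_forall y2)⟩) y3
  have t2 := tendsto_smul (l := U) (μ := volume.restrict (ball 0 ρ)) p1.continuous hM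
    (f := fun i z => fderiv ℝ (cf (Y i) (G i) (η i)) z v) (f' := fun i z => dz (Y i) (G i) z v)
    (by
      filter_upwards [hg, hD] with i a b
      exact ⟨Integrable.apply_continuousLinearMap
        ⟨(measurable_fderiv ℝ _).aestronglyMeasurable, b.trans_lt hfin.lt_top⟩ v,
        (a.dz_L2.1.integrable one_le_two).apply_continuousLinearMap v⟩)
    (by
      have h5 := ENNReal.Tendsto.mul_const (b := ‖v‖ₑ) te (Or.inr enorm_ne_top)
      rw [zero_mul] at h5
      refine tendsto_of_tendsto_of_tendsto_of_le_of_le tendsto_const_nhds h5 (fun _ => zero_le)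
        fun i => ?_
      beta_reduce
      rw [← lintegral_mul_const' _ _ enorm_ne_top]
      exact lintegral_mono fun z => ContinuousLinearMap.le_opENorm
        (fderiv ℝ (cf (Y i) (G i) (η i)) z - dz (Y i) (G i) z) v)
  have t3 := d2 v (fun z => (φ z : ℂ)) (MemLp.of_bound
    (Complex.continuous_ofReal.comp p1.continuous).aestronglyMeasurable M
    (Eventually.of_forall fun z => by simpa using hM z))
  simp only [← Complex.real_smul] at t3
  have t4 := (t1.add t2).add t3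
  have t5 : ∫ z in ball 0 ρ, φ z • D z v = -∫ z in ball 0 ρ, fderiv ℝ φ z v • Y₀ z := by
    rw [zero_add, zero_add] at t4
    refine tendsto_nhds_unique t4 (tendsto_const_nhds.congr' (hg.mono fun i a => ?_))
    beta_reduce
    rw [ibp a.cf_cd p1 p2 p3 v]
    ring
  rw [setIntegral_eq_integral_of_forall_compl_eq_zero fun z hz => by
      rw [image_eq_zero_of_notMem_tsupport fun e => hz (p3 e), zero_smul],
    setIntegral_eq_integral_of_forall_compl_eq_zero fun z hz => by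
      rw [Function.notMem_support.1 fun e => hz (p3 (support_fderiv_subset ℝ e)),
        zero_apply, zero_smul]] at t5
  rw [t5, neg_neg]

end Vale.Agent.P218N.B
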