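import Vale.Agent.P218N.B.Cap
import Vale.Agent.P218N.B.Stmt

/-! The band lemma: the cap lemma averaged over the centre of the cap. -/

open MeasureTheory Set Filter Topology Metric
open scoped ENNReal NNReal RealInnerProductSpace

namespace Vale.Agent.P218N.B

open Vale.Agent.P218.H313 Vale.Agent.P218N.H

set_option linter.unusedSectionVars false
set_option linter.unusedVariables false

variable {M : Set E3} {ζ : E3 → ℝ}

lemma near_sign {n m : E3} (hn : ‖n‖ = 1) (hm : ‖m‖ = 1) :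
    ‖m - n‖ ≤ 2 * ‖perp n m‖ ∨ ‖m - -n‖ ≤ 2 * ‖perp n m‖ := by
  have h1 := norm_perp_sq hn m
  have h2 := abs_le.1 (abs_real_inner_le_norm n m)
  rw [hm] at h1
  rw [hn, hm] at h2
  rcases le_total 0 ⟪n, m⟫ with h | h
  · refine Or.inl (le_of_sq_le_sq ?_ (by positivity))
    rw [norm_sub_sq_real, hn, hm, real_inner_comm, mul_pow, h1]
    nlinarith
  · refine Or.inr (le_of_sq_le_sq ?_ (by positivity))
    rw [sub_neg_eq_add, norm_add_sq_real, hn, hm, real_inner_comm, mul_pow, h1]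
    nlinarith

lemma abs_inner_le_add {e : E3} (he : ‖e‖ = 1) (n m : E3) : |⟪n, e⟫| ≤ |⟪m, e⟫| + ‖m - n‖ := by
  have h1 := abs_real_inner_le_norm (m - n) e
  rw [he, mul_one, inner_sub_left] at h1
  have h2 := abs_sub_abs_le_abs_sub ⟪n, e⟫ ⟪m, e⟫
  rw [abs_sub_comm] at h2
  linarith

lemma abs_inner_le_perp {n m e : E3} (hn : ‖n‖ = 1) (hm : ‖m‖ = 1) (he : ‖e‖ = 1) :
    |⟪n, e⟫| ≤ |⟪m, e⟫| + 2 * ‖perp n m‖ := by
  rcases near_sign hn hm with h | h
  · linarith [abs_inner_le_add he n m]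
  · have := abs_inner_le_add he (-n) m
    rw [inner_neg_left, abs_neg] at this
    linarith

lemma norm_unit {m : E3} (h : |‖m‖ - 1| < 1) :
    ‖‖m‖⁻¹ • m‖ = 1 ∧ ‖‖m‖⁻¹ • m - m‖ = |‖m‖ - 1| := by
  have h0 : 0 < ‖m‖ := by linarith [(abs_lt.1 h).1]
  refine ⟨by rw [norm_smul, norm_inv, norm_norm, inv_mul_cancel₀ h0.ne'], ?_⟩
  have : ‖m‖⁻¹ • m - m = (‖m‖⁻¹ - 1) • m := by rw [sub_smul, one_smul]
  rw [this, norm_smul, Real.norm_eq_abs, ← abs_norm m, abs_norm m, ← abs_of_pos h0, ← abs_mul,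
    abs_of_pos h0, sub_mul, inv_mul_cancel₀ h0.ne', one_mul, abs_sub_comm]

lemma Sf.swap (h : Sf M) {T : Set (E3 × (E3 →L[ℝ] E3))} (hT : MeasurableSet T) {f : E3 → ℝ≥0∞}
    (hf : AEMeasurable f (ar M)) :
    ∫⁻ m, ∫⁻ x in {x | (m, PT M x) ∈ T}, f x ∂ar M =
      ∫⁻ x, (volume : Measure E3) {m | (m, PT M x) ∈ T} * f x ∂ar M := by
  have hfin := h.mc.fin
  have hP := h.aemeas h.surf.continuousOn_PT
  have h1 : AEMeasurable (Function.uncurry fun (m x : E3) => T.indicator 1 (m, PT M x) * f x)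
      ((volume : Measure E3).prod (ar M)) :=
    ((measurable_one.indicator hT).comp_aemeasurable
      (measurable_fst.aemeasurable.prodMk hP.comp_snd)).mul hf.comp_snd
  have h2 := lintegral_lintegral_swap h1
  calc _ = ∫⁻ m, ∫⁻ x, T.indicator 1 (m, PT M x) * f x ∂ar M := by
        refine lintegral_congr fun m => ?_
        have h3 : NullMeasurableSet {x | (m, PT M x) ∈ T} (ar M) :=
          (aemeasurable_const.prodMk hP).nullMeasurableSet_preimage hT
        rw [← lintegral_indicator₀ h3]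
        refine lintegral_congr fun x => ?_
        by_cases hx : (m, PT M x) ∈ T <;> simp [indicator, hx]
    _ = _ := by
        rw [h2]
        refine lintegral_congr fun x => ?_
        have h3 : MeasurableSet {m | (m, PT M x) ∈ T} := measurable_prodMk_right hT
        have h4 : Measurable fun m : E3 => T.indicator (fun _ => (1 : ℝ≥0∞)) (m, PT M x) :=
          (measurable_one.indicator hT).comp measurable_prodMk_right
        rw [← lintegral_indicator_one h3]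
        exact lintegral_mul_const _ h4

/-- the energy threshold -/
noncomputable def cS : ℝ := cD / 230400

lemma cS_pos : 0 < cS := div_pos cD_pos (by norm_num)

/-- the centres of the caps -/
def cen (e : E3) (δ c : ℝ) : Set E3 := {m | |‖m‖ - 1| < δ ∧ |⟪‖m‖⁻¹ • m, e⟫| ≤ c}

lemma meas_unit : Measurable fun m : E3 => ‖m‖⁻¹ • m := measurable_norm.inv.smul measurable_id

lemma measurableSet_cen (e : E3) (δ c : ℝ) : MeasurableSet (cen e δ c) := by
  have h1 : Continuous fun m : E3 => |‖m‖ - 1| := by fun_prop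
  have h2 : Continuous fun n : E3 => |⟪n, e⟫| := by fun_prop
  exact (measurableSet_lt h1.measurable measurable_const).inter
    (measurableSet_le (h2.measurable.comp meas_unit) measurable_const)

lemma meas_unit' : Measurable fun q : E3 × (E3 →L[ℝ] E3) => ‖q.2 (‖q.1‖⁻¹ • q.1)‖ := by
  have h1 : Continuous fun q : E3 × (E3 →L[ℝ] E3) => ‖q.2 q.1‖ := by fun_prop
  have h2 : Measurable fun q : E3 × (E3 →L[ℝ] E3) => (‖q.1‖⁻¹ • q.1, q.2) :=
    (meas_unit.comp measurable_fst).prodMk measurable_snd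
  have h3 := h1.measurable.comp h2
  simp only [Function.comp_def] at h3
  exact h3

lemma Sf.swap' (h : Sf M) {D : Set E3} (hD : MeasurableSet D) {S : Set ℝ} (hS : MeasurableSet S)
    {f : E3 → ℝ} (hf : ContinuousOn f M) :
    ∫⁻ m, ∫⁻ x in {x | m ∈ D ∧ ‖PT M x (‖m‖⁻¹ • m)‖ ∈ S}, ENNReal.ofReal (f x) ∂ar M =
      ∫⁻ x, (volume : Measure E3) {m | m ∈ D ∧ ‖PT M x (‖m‖⁻¹ • m)‖ ∈ S} * ENNReal.ofReal (f x)
        ∂ar M := by
  have h1 := (measurable_fst (β := E3 →L[ℝ] E3) hD).inter (meas_unit' hS)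
  have h2 := h.swap h1 (h.aemeas hf).ennreal_ofReal
  simpa only [mem_inter_iff, mem_preimage] using h2

lemma ball_sub_cen {n e : E3} (hn : ‖n‖ = 1) (he : ‖e‖ = 1) {δ b c : ℝ} (hδ : δ ≤ 1)
    (hb : |⟪n, e⟫| ≤ b) (hc : b + δ ≤ c) :
    ball n (δ / 2) ⊆ {m | m ∈ cen e δ c ∧ ‖perp n (‖m‖⁻¹ • m)‖ ≤ δ} := by
  intro m hm
  rw [mem_ball, dist_eq_norm] at hm
  have h0 := norm_nonneg (m - n)
  have h1 : |‖m‖ - 1| < δ / 2 := by rw [← hn]; exact (abs_norm_sub_norm_le _ _).trans_lt hm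
  obtain ⟨h2, h3⟩ := norm_unit (h1.trans_le (by linarith))
  have h4 : ‖‖m‖⁻¹ • m - n‖ ≤ δ := by
    linarith [norm_sub_le_norm_sub_add_norm_sub (‖m‖⁻¹ • m) m n]
  have h5 := abs_inner_le_add he (‖m‖⁻¹ • m) n
  rw [norm_sub_rev] at h5
  refine ⟨⟨by linarith, by linarith⟩, le_trans ?_ h4⟩
  have h8 := norm_perp_apply_le hn (‖m‖⁻¹ • m - n)
  rwa [map_sub, perp_self hn, sub_zero] at h8

lemma cen_sub_ball {n e : E3} (hn : ‖n‖ = 1) {δ c : ℝ} (hδ : δ ≤ 1) :
    {m | m ∈ cen e δ c ∧ ‖perp n (‖m‖⁻¹ • m)‖ < 4 * δ} ⊆ ball n (10 * δ) ∪ ball (-n) (10 * δ) := by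
  rintro m ⟨hm, h2⟩
  obtain ⟨h3, h4⟩ := norm_unit (hm.1.trans_le hδ)
  have h5 := hm.1
  have h0 := abs_nonneg (‖m‖ - 1)
  rw [norm_sub_rev] at h4
  refine (near_sign hn h3).imp (fun h6 => ?_) fun h6 => ?_
  · rw [mem_ball, dist_eq_norm]
    linarith [norm_sub_le_norm_sub_add_norm_sub m (‖m‖⁻¹ • m) n]
  · rw [mem_ball, dist_eq_norm]
    linarith [norm_sub_le_norm_sub_add_norm_sub m (‖m‖⁻¹ • m) (-n)]

lemma vol_ball (n : E3) (δ : ℝ) :
    (volume : Measure E3) (ball n (10 * δ)) = 8000 * (volume : Measure E3) (ball 0 (δ / 2)) := by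
  rw [show 10 * δ = 20 * (δ / 2) by ring, Measure.addHaar_ball_mul_of_pos _ _ (by norm_num), fr3]
  norm_num

/-- **the band lemma** -/
theorem Sf.band (h : Sf M) (hζ : Tst M ζ) {e : E3} (he : ‖e‖ = 1) {b η : ℝ} (hη : 0 < η)
    (hη1 : η ≤ 1) (hs : En M (tsupport ζ ∩ band M e (b + η)) ≤ ENNReal.ofReal (cS * η ^ 2)) :
    ∫⁻ x in bandc M e b, ENNReal.ofReal (ζ x ^ 2 * Asq M x) ∂ar M ≤
      300000 * ∫⁻ x in band M e (b + η), ENNReal.ofReal (ζ x ^ 2 * ‖Hv M x‖ ^ 2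
        + η * bdT M ζ x) ∂ar M := by
  obtain ⟨δ, hδ⟩ : ∃ δ : ℝ, δ = η / 40 := ⟨_, rfl⟩
  have hδ0 : 0 < δ := by rw [hδ]; positivity
  have hδ1 : δ ≤ 1 := by linarith
  obtain ⟨D, hD⟩ : ∃ D, D = cen e δ (b + η / 2) := ⟨_, rfl⟩
  have hDm : MeasurableSet D := hD ▸ measurableSet_cen _ _ _
  have hc := (hζ.cd.continuous.pow 2).continuousOn (s := M)
  have e1 := h.swap' hDm (measurableSet_Iic (a := δ)) (f := fun x => ζ x ^ 2 * Asq M x)
    (hc.mul h.surf.continuousOn_Asq)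
  have e2 := h.swap' hDm (measurableSet_Iio (a := 4 * δ))
    (f := fun x => 10 * (ζ x ^ 2 * ‖Hv M x‖ ^ 2) + 648 * δ * bdT M ζ x)
    ((continuousOn_const.mul (hc.mul (h.surf.continuousOn_Hv.norm.pow 2))).add
      (continuousOn_const.mul (h.continuousOn_bdT hζ.cd)))
  simp only [mem_Iic, mem_Iio] at e1 e2
  have hin : ∀ m ∈ D, ∀ x ∈ M, ‖PT M x (‖m‖⁻¹ • m)‖ < 4 * δ → x ∈ B.band M e (b + η) := by
    intro m hm x hx h1
    rw [hD] at hm
    have h2 := abs_inner_le_perp (h.surf.norm_nu hx) (norm_unit (hm.1.trans_le hδ1)).1 he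
    rw [← PT_def] at h2
    exact ⟨hx, by linarith [hm.2]⟩
  have e3 : ∀ m : E3, ∫⁻ x in {x | m ∈ D ∧ ‖PT M x (‖m‖⁻¹ • m)‖ ≤ δ},
      ENNReal.ofReal (ζ x ^ 2 * Asq M x) ∂ar M ≤
      ∫⁻ x in {x | m ∈ D ∧ ‖PT M x (‖m‖⁻¹ • m)‖ < 4 * δ},
        ENNReal.ofReal (10 * (ζ x ^ 2 * ‖Hv M x‖ ^ 2) + 648 * δ * bdT M ζ x) ∂ar M := by
    intro m
    by_cases hm : m ∈ D
    · simp only [hm, true_and]
      refine h.cap hζ (norm_unit ((hD ▸ hm).1.trans_le hδ1)).1 hδ0 (by linarith)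
        (le_trans (lintegral_mono_set' (h.ae_mem.mono fun x hx hx' => ?_)) (hs.trans (le_of_eq ?_)))
      · exact ⟨hx'.1, hin m hm x hx (lt_of_le_of_lt hx'.2 (by linarith))⟩
      · rw [cS, hδ]; congr 1; ring
    · simp [hm]
  have e4 := e1.ge.trans ((lintegral_mono e3).trans e2.le)
  have hv0 : (volume : Measure E3) (ball 0 (δ / 2)) ≠ 0 := (measure_ball_pos _ _ (by positivity)).ne'
  have hv1 : (volume : Measure E3) (ball 0 (δ / 2)) ≠ ∞ := measure_ball_lt_top.ne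
  refine (ENNReal.mul_le_mul_iff_right hv0 hv1).1 (le_trans ?_ (e4.trans ?_))
  · have hm : MeasurableSet (bandc M e b) := by
      obtain ⟨O, hO, h1⟩ := continuousOn_iff_isClosed.1
        (continuousOn_abs_nu h.surf (X := fun _ => e) continuousOn_const) (Iic b) isClosed_Iic
      have h2 : bandc M e b = O ∩ M := by rw [← h1]; ext x; exact and_comm
      rw [h2]
      exact hO.measurableSet.inter h.surf.measurableSet
    rw [← lintegral_const_mul' _ _ hv1, ← lintegral_indicator hm]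
    refine lintegral_mono fun x => indicator_apply_le' (fun hx => ?_) fun _ => zero_le
    refine mul_le_mul_left ?_ _
    rw [← Measure.addHaar_ball_center _ (nu M x), hD]
    exact measure_mono (ball_sub_cen (h.surf.norm_nu hx.1) he hδ1 hx.2 (by linarith))
  · rw [← lintegral_const_mul' _ _ (by simp), ← lintegral_const_mul' _ _ hv1,
      ← lintegral_indicator (measurableSet_band h.surf e _)]
    refine lintegral_mono_ae (h.ae_mem.mono fun x hx => ?_)
    by_cases hx' : x ∈ B.band M e (b + η)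
    · rw [indicator_of_mem hx', hD]
      have h2 := (measure_mono (μ := (volume : Measure E3))
        (cen_sub_ball (e := e) (c := b + η / 2) (h.surf.norm_nu hx) hδ1)).trans
        (measure_union_le _ _)
      rw [vol_ball, vol_ball, ← add_mul, mul_comm (8000 + 8000 : ℝ≥0∞)] at h2
      refine (mul_le_mul_left h2 _).trans ?_
      rw [mul_assoc]
      refine mul_le_mul_right ?_ _
      have h3 := bdT_nonneg M ζ x
      have h4 : 0 ≤ ζ x ^ 2 * ‖Hv M x‖ ^ 2 := by positivity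
      have h5 : ((8000 : ℝ≥0∞) + 8000) = ENNReal.ofReal 16000 := by norm_num
      have h6 : (300000 : ℝ≥0∞) = ENNReal.ofReal 300000 := by norm_num
      rw [h5, h6, ← ENNReal.ofReal_mul (by norm_num), ← ENNReal.ofReal_mul (by norm_num)]
      refine ENNReal.ofReal_le_ofReal ?_
      rw [hδ]
      nlinarith [mul_nonneg hη.le h3]
    · have h1 : {m | m ∈ D ∧ ‖PT M x (‖m‖⁻¹ • m)‖ < 4 * δ} = ∅ :=
        eq_empty_of_forall_notMem fun m hm => hx' (hin m hm.1 x hx hm.2)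
      rw [h1, measure_empty, zero_mul]
      exact zero_le

lemma sf_of_closed (hM : Surf M) (hc : IsClosed M) : Sf M := ⟨hM, hM.mc finrank_E3 hc⟩

lemma tst_of_closed (hc : IsClosed M) (h1 : ContDiff ℝ 1 ζ) (h2 : HasCompactSupport ζ) :
    Tst M ζ := ⟨h1, h2, h2.isCompact.inter_right hc⟩

lemma band_mono {e : E3} {b b' : ℝ} (h : b ≤ b') : band M e b ⊆ band M e b' :=
  fun _ hx => ⟨hx.1, hx.2.trans_le h⟩

lemma bdT_le (hM : Surf M) {x : E3} (hx : x ∈ M) :
    bdT M ζ x ≤ |ζ x| * ‖fderiv ℝ ζ x‖ * √(Asq M x) := by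
  unfold bdT
  gcongr
  rw [← norm_grad]
  exact hM.norm_PT_apply_le hx _

theorem bandStmt : BandStmt := by
  intro b b' hb hbb
  have hη : 0 < min (b' - b) 1 := lt_min (sub_pos.2 hbb) one_pos
  have h1 : b + min (b' - b) 1 ≤ b' := by linarith [min_le_left (b' - b) 1]
  refine ⟨cS * min (b' - b) 1 ^ 2, 300000, mul_pos cS_pos (pow_pos hη 2), by norm_num, ?_⟩
  intro M e ζ hM hc he hζ hζc hE
  refine ((sf_of_closed hM hc).band (tst_of_closed hc hζ hζc) he hη (min_le_right _ _)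
    ((lintegral_mono_set (inter_subset_inter_right _ (band_mono h1))).trans hE)).trans ?_
  rw [ENNReal.ofReal_ofNat]
  refine mul_le_mul_right (le_trans ?_ (lintegral_mono_set (band_mono h1))) _
  refine setLIntegral_mono' (measurableSet_band hM e _) fun x hx => ENNReal.ofReal_le_ofReal ?_
  have h2 := mul_le_of_le_one_left (bdT_nonneg M ζ x) (min_le_right (b' - b) 1)
  linarith [bdT_le (ζ := ζ) hM hx.1]

end Vale.Agent.P218N.B
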