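import Vale.Agent.P218N.B.Small
import Vale.Agent.P218N.B.Band

/-! Off small balls the surfaces are `C¹` close to the limit. -/

open MeasureTheory Set Filter Topology Metric
open scoped ENNReal NNReal RealInnerProductSpace ContDiff

namespace Vale.Agent.P218N.B

open Vale.Agent.P218.H313 Vale.Agent.P218N.H Vale.Agent.P218N.G
open Vale.Agent.P218.H552 (MC)
open Vale.Agent.P214 (proj)

set_option linter.unusedSectionVars false
set_option linter.unusedVariables false

variable {ι : Type} {U : Ultrafilter ι} {M : ι → Set E3} {κ : Measure E3} {Λ : ℝ}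

lemma Seq.Hn_bd (h : Seq U M κ Λ) (R : ℝ) : ∃ C : ℝ, 0 < C ∧
    ∀ᶠ i in (U : Filter ι), Hn (M i) (ball 0 R) ≤ ENNReal.ofReal C := by
  obtain ⟨C, hC, H⟩ := h.mass_bd R
  refine ⟨2 * 1 + R ^ 2 / 2 * C, by positivity, ?_⟩
  filter_upwards [h.good, H, h.vel R 1 one_pos] with i k1 k2 k3
  exact Hn_le k1.surf measurableSet_ball subset_rfl zero_le_one hC.le k3
    ((measure_mono ball_subset_closedBall).trans k2)

lemma Seq.lint_small (h : Seq U M κ Λ) {ψ : E3 → ℝ} (hψ : Continuous ψ) (hc : HasCompactSupport ψ)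
    (h0 : ∀ x, 0 ≤ ψ x) (hκ : ∀ᵐ x ∂κ, ψ x = 0) {τ : ℝ} (hτ : 0 < τ) :
    ∀ᶠ i in (U : Filter ι), ∫⁻ x, ENNReal.ofReal (ψ x) ∂(mu (M i)) ≤ ENNReal.ofReal τ := by
  have h1 := h.lim ψ hψ hc
  rw [integral_congr_ae hκ, integral_zero] at h1
  filter_upwards [h.good, h1.eventually (gt_mem_nhds hτ)] with i k1 k2
  have := k1.finite
  rw [← ofReal_integral_eq_lintegral_ofReal (hψ.integrable_of_hasCompactSupport hc)
    (Eventually.of_forall h0)]
  exact ENNReal.ofReal_le_ofReal k2.le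

/-- the tilt excess estimate -/
lemma tilt_le {M : Set E3} (hM : Surf M) (hc : IsClosed M) {w φ : E3 → ℝ} (hw : ContDiff ℝ 2 w)
    (hφ : ContDiff ℝ 1 φ) (hφc : HasCompactSupport φ) (h0 : ∀ x, 0 ≤ φ x) {s : ℝ} (hs : 0 < s) :
    ∫⁻ x, ENNReal.ofReal (φ x * ‖gradM M w x‖ ^ 2) ∂(mu M) ≤
      ∫⁻ x, ENNReal.ofReal (|w x| * (φ x * (3 * ‖fderiv ℝ (grad w) x‖) + ‖fderiv ℝ φ x‖ * ‖grad w x‖
        + φ x * (|w x| * ‖grad w x‖ ^ 2 / s))) ∂(mu M)
      + ∫⁻ x, ENNReal.ofReal (s * (φ x * ‖Hv M x‖ ^ 2)) ∂(mu M) := by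
  have hw1 : ContDiff ℝ 1 w := hw.of_le (by norm_num)
  have hg := contDiff_grad_one hw
  have hD : Continuous (fderiv ℝ (grad w)) := hg.continuous_fderiv one_ne_zero
  have hDφ : Continuous (fderiv ℝ φ) := hφ.continuous_fderiv one_ne_zero
  have hgc := hg.continuous
  have hwc := hw.continuous
  have hφc' := hφ.continuous
  set X : E3 → E3 := fun x => (φ x * w x) • grad w x with hX
  have hXc : ContDiff ℝ 1 X := (hφ.mul hw1).smul hg
  have hK : IsCompact (tsupport φ ∩ M) := hφc.isCompact.inter_right hc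
  have hX0 : ∀ x ∈ M, x ∉ tsupport φ ∩ M → X x = 0 := fun x hx hx' => by
    simp [hX, image_eq_zero_of_notMem_tsupport fun h => hx' ⟨h, hx⟩]
  have h1 := hM.integral_div finrank_E3 (fun x _ => hXc.contDiffAt) hK inter_subset_right hX0
  have h2 : ContinuousOn (fun x => divM M X x + ⟪X x, Hv M x⟫) M :=
    (hM.continuousOn_divM hXc).add (hXc.continuous.continuousOn.inner hM.continuousOn_Hv)
  have h3 : Integrable (fun x => divM M X x + ⟪X x, Hv M x⟫) (mu M) :=
    hM.integrableOn finrank_E3 hK inter_subset_right (h2.mono inter_subset_right) fun x hx hx' => by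
      rw [hM.divM_eq_zero' hK.isClosed hx hx' (hXc.differentiable one_ne_zero x) hX0, hX0 x hx hx']
      simp
  have hψ : Continuous fun x => |w x| * (φ x * (3 * ‖fderiv ℝ (grad w) x‖)
      + ‖fderiv ℝ φ x‖ * ‖grad w x‖ + φ x * (|w x| * ‖grad w x‖ ^ 2 / s)) := by fun_prop
  have hψ' : AEMeasurable (fun x => s * (φ x * ‖Hv M x‖ ^ 2)) (mu M) := ((hφc'.continuousOn.mul
    (hM.continuousOn_Hv.norm.pow 2)).aemeasurable hM.measurableSet).const_mul s
  refine le_trans (lint_le_of_div (D := fun x => -(divM M X x + ⟪X x, Hv M x⟫)) h3.neg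
    (by rw [integral_neg, h1, neg_zero]) (hψ.aemeasurable.fun_add hψ') ?_)
    (lint_le_add hψ.aemeasurable (Eventually.of_forall fun _ => le_rfl))
  filter_upwards [ae_mem_mu hM] with x hx
  have k0 := h0 x
  refine ⟨by positivity, by positivity, ?_⟩
  have dφ := hφ.differentiable one_ne_zero x
  have dw := hw1.differentiable one_ne_zero x
  have k1 : divM M X x = φ x * w x * divM M (grad w) x + φ x * ‖gradM M w x‖ ^ 2
      + w x * ⟪gradM M φ x, grad w x⟫ := by
    rw [hX, hM.divM_smul hx (dφ.fun_mul dw) (hg.differentiable one_ne_zero x), gradM, grad_mul dφ dw,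
      map_add, map_smul, map_smul, inner_add_left, real_inner_smul_left, real_inner_smul_left]
    have : ⟪PT M x (grad w x), grad w x⟫ = ‖gradM M w x‖ ^ 2 := by
      rw [gradM, ← real_inner_self_eq_norm_sq, PT_symm M x _ (PT M x _), hM.PT_PT hx, PT_symm]
    rw [this, show gradM M φ x = PT M x (grad φ x) from rfl]; ring
  have k2 : |divM M (grad w) x| ≤ 3 * ‖fderiv ℝ (grad w) x‖ := by
    refine (abs_tr_le _).trans ?_
    rw [finrank_E3]
    push_cast
    have := (ContinuousLinearMap.opNorm_comp_le (PT M x) (fderiv ℝ (grad w) x)).trans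
      (mul_le_of_le_one_left (norm_nonneg _) (hM.norm_PT_le hx))
    linarith
  have k3 : |⟪gradM M φ x, grad w x⟫| ≤ ‖fderiv ℝ φ x‖ * ‖grad w x‖ :=
    (abs_real_inner_le_norm _ _).trans
      (mul_le_mul_of_nonneg_right (norm_gradM_le_fderiv hM hx φ) (norm_nonneg _))
  have k4 : |⟪X x, Hv M x⟫| ≤ φ x * (|w x| * ‖grad w x‖ * ‖Hv M x‖) := by
    refine (abs_real_inner_le_norm _ _).trans (le_of_eq ?_)
    rw [hX, norm_smul, Real.norm_eq_abs, abs_mul, abs_of_nonneg k0]; ring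
  have k5 : |w x| * ‖grad w x‖ * ‖Hv M x‖ ≤ |w x| * (|w x| * ‖grad w x‖ ^ 2 / s)
      + s * ‖Hv M x‖ ^ 2 := by
    rw [← mul_div_assoc, div_add' _ _ _ hs.ne', le_div_iff₀ hs]
    nlinarith [sq_nonneg (|w x| * ‖grad w x‖ - s * ‖Hv M x‖), sq_nonneg (|w x| * ‖grad w x‖),
      sq_nonneg (s * ‖Hv M x‖)]
  have k6 : |φ x * w x * divM M (grad w) x| ≤ |w x| * (φ x * (3 * ‖fderiv ℝ (grad w) x‖)) := by
    rw [abs_mul, abs_mul, abs_of_nonneg k0]
    nlinarith [mul_le_mul_of_nonneg_left k2 (mul_nonneg k0 (abs_nonneg (w x)))]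
  have k7 : |w x * ⟪gradM M φ x, grad w x⟫| ≤ |w x| * (‖fderiv ℝ φ x‖ * ‖grad w x‖) := by
    rw [abs_mul]; gcongr
  have k8 := mul_le_mul_of_nonneg_left k5 k0
  nlinarith [neg_abs_le (φ x * w x * divM M (grad w) x), neg_abs_le ⟪X x, Hv M x⟫,
    neg_abs_le (w x * ⟪gradM M φ x, grad w x⟫)]

/-- the tilt excess tends to zero -/
theorem Seq.tilt (h : Seq U M κ Λ) {w : E3 → ℝ} (hw : ContDiff ℝ 2 w) (hκ : κ {x | w x ≠ 0} = 0)
    (R : ℝ) {τ : ℝ} (hτ : 0 < τ) : ∀ᶠ i in (U : Filter ι),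
      ∫⁻ x in ball 0 R, ENNReal.ofReal (‖gradM (M i) w x‖ ^ 2) ∂(mu (M i)) ≤ ENNReal.ofReal τ := by
  obtain ⟨φ, D, h1, h2, h3, h4, h5, h6, -⟩ := exists_cutoff (isCompact_closedBall (0 : E3) R)
    (isOpen_ball (x := (0 : E3)) (ε := R + 1)) (closedBall_subset_ball (lt_add_one R))
  obtain ⟨C, hC, HC⟩ := h.Hn_bd (R + 1)
  have hs : 0 < τ / 2 / C := by positivity
  have hg := contDiff_grad_one hw
  have hD : Continuous (fderiv ℝ (grad w)) := hg.continuous_fderiv one_ne_zero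
  have hDφ : Continuous (fderiv ℝ φ) := h1.continuous_fderiv (by simp)
  have hgc := hg.continuous
  have hwc := hw.continuous
  have hφc' := h1.continuous
  have h7 := h.lint_small (ψ := fun x => |w x| * (φ x * (3 * ‖fderiv ℝ (grad w) x‖)
      + ‖fderiv ℝ φ x‖ * ‖grad w x‖ + φ x * (|w x| * ‖grad w x‖ ^ 2 / (τ / 2 / C)))) (by fun_prop)
    (HasCompactSupport.intro h2.isCompact fun x hx => by
      simp [image_eq_zero_of_notMem_tsupport hx,
        image_eq_zero_of_notMem_tsupport fun h => hx (tsupport_fderiv_subset ℝ h)])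
    (fun x => by have := h4 x; positivity)
    (by filter_upwards [(measure_eq_zero_iff_ae_notMem.1 hκ)] with x hx
        simp [not_not.1 hx]) (half_pos hτ)
  filter_upwards [h.good, h7, HC] with i k1 k2 k3
  calc _ ≤ ∫⁻ x, ENNReal.ofReal (φ x * ‖gradM (M i) w x‖ ^ 2) ∂(mu (M i)) := by
        refine le_trans (lintegral_mono_ae ?_) (setLIntegral_le_lintegral (ball 0 R) _)
        filter_upwards [ae_restrict_mem measurableSet_ball] with x hx
        rw [(h6 x (ball_subset_closedBall hx)).self_of_nhds, one_mul]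
    _ ≤ _ := tilt_le k1.surf k1.closed hw (contDiff_one' h1) h2 h4 hs
    _ ≤ ENNReal.ofReal (τ / 2 + τ / 2 / C * C) := by
        refine ofReal_add_le' (by positivity) (by positivity) k2 ?_
        rw [lint_const_mul _ hs.le]
        refine ofReal_mul_le hs.le (le_trans ?_ k3)
        rw [Hn, ← lintegral_indicator measurableSet_ball]
        refine lintegral_mono fun x => ?_
        by_cases hx : x ∈ ball (0 : E3) (R + 1)
        · rw [indicator_of_mem hx]
          exact ENNReal.ofReal_le_ofReal (mul_le_of_le_one_left (sq_nonneg _) (h5 x))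
        · simp [image_eq_zero_of_notMem_tsupport fun h => hx (h3 h)]
    _ = _ := by congr 1; field_simp; ring

/-- near a point of the limit the steep points have small content -/
lemma Seq.small_near (h : Seq U M κ Λ) {w : E3 → ℝ} (hw : ContDiff ℝ 2 w)
    (hκ : κ {x | w x ≠ 0} = 0) {p : E3} (hp : grad w p ≠ 0) {δ : ℝ} (hδ : 0 < δ) (hδ1 : δ ≤ 1) :
    ∃ r : ℝ, 0 < r ∧ Small U fun i => {x | x ∈ M i ∧ x ∈ ball p r ∧
      |⟪nu (M i) x, grad w x⟫| ≤ (1 - δ) * ‖grad w x‖} := by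
  obtain ⟨r₁, hr₁, H⟩ := h.small_band bandStmt (b := 1 - 3 * δ / 4) (b' := 1 - δ / 2)
    (by linarith) (by linarith) p
  have hgc := (contDiff_grad_one hw).continuous
  have hg0 : 0 < ‖grad w p‖ := norm_pos_iff.2 hp
  have h1 : ContinuousAt (nuW w) p :=
    (hgc.continuousAt.norm.inv₀ hg0.ne').smul hgc.continuousAt
  obtain ⟨r₂, hr₂, H₂⟩ := Metric.eventually_nhds_iff_ball.1
    ((h1.eventually (closedBall_mem_nhds _ (show 0 < δ / 4 by positivity))).and
      (hgc.continuousAt.norm.eventually (lt_mem_nhds (half_lt_self hg0))))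
  have h2 : ∀ (ν x : E3), ‖ν‖ = 1 → x ∈ ball p r₂ →
      |(|⟪ν, nuW w x⟫| - |⟪ν, nuW w p⟫|)| ≤ δ / 4 := by
    intro ν x hν hx
    refine (abs_abs_sub_abs_le_abs_sub _ _).trans ?_
    rw [← inner_sub_right]
    refine (abs_real_inner_le_norm _ _).trans ?_
    rw [hν, one_mul, ← dist_eq_norm]
    exact (H₂ x hx).1
  have h3 : ∀ (ν x : E3), |⟪ν, grad w x⟫| = |⟪ν, nuW w x⟫| * ‖grad w x‖ := by
    intro ν x
    conv_lhs => rw [grad_eq_smul_nuW w x]
    rw [real_inner_smul_right, abs_mul, abs_norm, mul_comm]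
  set r := min r₁ (r₂ / 2) with hr
  have hr0 : 0 < r := by positivity
  have hrr : 2 * r ≤ r₂ := by linarith [min_le_right r₁ (r₂ / 2)]
  set c := (‖grad w p‖ / 2) ^ 2 * (δ / 4) with hc
  have hc0 : 0 < c := by positivity
  refine ⟨r, hr0, (H (nuW w p) r (norm_nuW hp) hr0 (min_le_left _ _) fun t τ ht hτ => ?_).mono
    (h.good.mono fun i hi x hx => ?_)⟩
  · filter_upwards [h.good, h.tilt hw hκ (2 * r + ‖p‖) (mul_pos hc0 hτ)] with i k1 k2
    have k3 : MeasurableSet ((ball p (2 * r) \ closedBall p t) ∩ band (M i) (nuW w p) (1 - δ / 2)) :=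
      (measurableSet_ball.diff measurableSet_closedBall).inter (measurableSet_band k1.surf _ _)
    have k4 : ENNReal.ofReal c * mu (M i) ((ball p (2 * r) \ closedBall p t)
        ∩ band (M i) (nuW w p) (1 - δ / 2)) ≤ ENNReal.ofReal c * ENNReal.ofReal τ := by
      rw [← setLIntegral_const, ← ENNReal.ofReal_mul hc0.le]
      refine le_trans (setLIntegral_mono' k3 fun x hx => ENNReal.ofReal_le_ofReal ?_)
        ((lintegral_mono_set fun x hx => ball_subset_ball' (by simp) hx.1.1).trans k2)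
      have k5 := ball_subset_ball hrr hx.1.1
      have k6 := k1.surf.norm_nu hx.2.1
      have k7 : |⟪nu (M i) x, nuW w x⟫| ≤ 1 - δ / 4 := by
        linarith [(abs_le.1 (h2 _ x k6 k5)).2, hx.2.2]
      have k8 : |⟪nu (M i) x, nuW w x⟫| ^ 2 ≤ 1 - δ / 4 := by
        nlinarith [abs_nonneg ⟪nu (M i) x, nuW w x⟫]
      have k9 : (‖grad w p‖ / 2) ^ 2 ≤ ‖grad w x‖ ^ 2 := by gcongr; exact (H₂ x k5).2.le
      rw [gradM, PT_def, norm_perp_sq k6, ← sq_abs ⟪nu (M i) x, grad w x⟫, h3, mul_pow, hc]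
      nlinarith [mul_le_mul_of_nonneg_right k8 (sq_nonneg ‖grad w x‖)]
    exact (ENNReal.mul_le_mul_iff_right (by simpa using hc0) ENNReal.ofReal_ne_top).1 k4
  · obtain ⟨k1, k2, k3⟩ := hx
    have k5 : x ∈ ball p r₂ := ball_subset_ball (by linarith) k2
    have k6 : 0 < ‖grad w x‖ := lt_trans (half_pos hg0) (H₂ x k5).2
    rw [h3] at k3
    have k7 := le_of_mul_le_mul_right k3 k6
    exact ⟨ball_subset_closedBall k2, k1,
      by linarith [(abs_le.1 (h2 _ x (hi.surf.norm_nu k1) k5)).1]⟩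

theorem covStmt : CovStmt := by
  intro ι U M κ Λ h w hw hg hκ R δ ε hδ hε
  set δ' := min δ 1 with hδ'
  have hwc := hw.continuous
  have hZ : IsCompact (closedBall (0 : E3) R ∩ {x | w x = 0}) :=
    (isCompact_closedBall _ _).inter_right (isClosed_eq hwc continuous_const)
  have h1 := fun p (hp : p ∈ closedBall (0 : E3) R ∩ {x | w x = 0}) =>
    h.small_near hw hκ (hg p hp.2) (δ := δ') (by positivity) (min_le_right _ _)
  choose! r hr H using h1
  obtain ⟨t, ht, htc⟩ := hZ.elim_nhds_subcover (fun p => ball p (r p))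
    fun p hp => ball_mem_nhds p (hr p hp)
  have hO : IsOpen (⋃ p ∈ t, ball p (r p)) := isOpen_biUnion fun _ _ => isOpen_ball
  have hO' : IsOpen {x | w x ≠ 0} := isOpen_ne_fun hwc continuous_const
  have S1 := Small.biUnion t fun p hp => H p (ht p hp)
  have S2 := h.small_lid ((isCompact_closedBall (0 : E3) R).diff hO) hO'
    (fun x hx h0 => hx.2 (htc ⟨hx.1, h0⟩)) hκ
  have S3 := h.small_lid ((isCompact_closedBall (0 : E3) R).inter_right
    (isClosed_le (continuous_const (y := δ)) hwc.abs)) hO'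
    (fun x hx h0 => by
      have := hx.2
      simp only [mem_ofPred_eq, h0, abs_zero] at this
      linarith) hκ
  refine (S1.union (S2.union S3)).mono (Eventually.of_forall fun i x hx => ?_) ε hε
  obtain ⟨k1, k2, k3⟩ := hx
  have k4 := mem_closedBall_zero_iff.2 k2
  rcases k3 with k3 | k3
  · exact Or.inr (Or.inr ⟨k1, k4, k3⟩)
  · by_cases k5 : x ∈ ⋃ p ∈ t, ball p (r p)
    · obtain ⟨p, hp, k6⟩ := mem_iUnion₂.1 k5
      refine Or.inl (mem_biUnion hp ⟨k1, k6, k3.trans ?_⟩)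
      gcongr
      exact min_le_left _ _
    · exact Or.inr (Or.inl ⟨k1, k4, k5⟩)

end Vale.Agent.P218N.B
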