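import Vale.Agent.P218N.B.DG1

/-! De Giorgi iteration, part 2: the iteration. -/

open MeasureTheory Set Filter Topology Metric
open scoped ENNReal NNReal RealInnerProductSpace

namespace Vale.Agent.P218N.B

open Vale.Agent.P218.H313 Vale.Agent.P218N.H

set_option linter.unusedSectionVars false
set_option linter.unusedVariables false

variable {M : Set E3} {Λ : ℝ}

/-- the sets of the iteration -/
def AA (M : Set E3) (p e : E3) (s r b η q : ℝ) : Set E3 :=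
  An p (s * (2 - q)) (r / 2 + r * q / 4) ∩ band M e (b + η * q)

lemma dg_real_E {c d η q q₀ r s Λ ε : ℝ} (hc : c = 1 / (512 * 300000)) (hd : 0 < d) (hd1 : d ≤ 1)
    (hη : 0 < η) (hq₀ : 0 < q₀) (hq : q₀ ≤ q) (hr : 0 < r) (hs : 0 < s) (hΛ : 0 < Λ) (hε : 0 < ε)
    (h1 : √ε * √Λ ≤ c * d ^ 2 * η * q₀ ^ 2) :
    300000 * ((c * d) ^ 2 * η ^ 2 * q ^ 2 + c * d ^ 2 * η ^ 2 * q₀ ^ 2
      + η * q / 2 * (8 / (r * q / 8)) * (d * η * q * (c * d * r * q))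
      + η * q / 2 * (8 / (s * q / 2)) * (√ε * (√Λ * (2 * s)))) ≤ (d * η * (q / 2)) ^ 2 := by
  have hq' : 0 < q := hq₀.trans_le hq
  have e1 : η * q / 2 * (8 / (r * q / 8)) * (d * η * q * (c * d * r * q)) =
      32 * c * (d * η * q) ^ 2 := by field_simp; ring
  have e2 : η * q / 2 * (8 / (s * q / 2)) * (√ε * (√Λ * (2 * s))) = 16 * η * (√ε * √Λ) := by
    field_simp; ring
  have e3 : d ^ 2 * η ^ 2 * q₀ ^ 2 ≤ (d * η * q) ^ 2 := by
    rw [mul_pow, mul_pow]; gcongr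
  have e4 : 16 * η * (√ε * √Λ) ≤ 16 * η * (c * d ^ 2 * η * q₀ ^ 2) := by gcongr
  have e5 : 0 ≤ (d * η * q) ^ 2 := sq_nonneg _
  rw [e1, e2]
  subst hc
  nlinarith

lemma dg_real_m {c d η q q₀ r s Λ K : ℝ} (hc0 : 0 < c) (hc : c ≤ 1 / 64) (hd : 0 < d)
    (hη : 0 < η) (hq₀ : 0 < q₀) (hq : q₀ ≤ q) (hr : 0 < r) (hs : 0 < s) (hΛ : 0 < Λ) (hK : 0 < K)
    (h1 : 152 * K * d ≤ 1) (h2 : 512 * K * Λ * s ≤ c * d * r * q₀ ^ 2) :
    K * (8 / (η * q / 2) * (d * η * q * (c * d * r * q)) +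
      (8 / (r * q / 8) * (c * d * r * q) ^ 2 + 2 * d * (c * d * r * q))
      + 8 / (s * q / 2) * (Λ * (2 * s) ^ 2)) * (c * d * r * q) ≤ (c * d * r * (q / 2)) ^ 2 := by
  have hq' : 0 < q := hq₀.trans_le hq
  have e1 : 8 / (η * q / 2) * (d * η * q * (c * d * r * q)) = 16 * d * (c * d * r * q) := by
    field_simp; ring
  have e2 : 8 / (r * q / 8) * (c * d * r * q) ^ 2 = 64 * c * d * (c * d * r * q) := by
    field_simp; ring
  have e3 : K * (8 / (s * q / 2) * (Λ * (2 * s) ^ 2)) ≤ c * d * r * q / 8 := by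
    rw [show K * (8 / (s * q / 2) * (Λ * (2 * s) ^ 2)) = 512 * K * Λ * s / (8 * q) by
      field_simp; ring, div_le_iff₀ (by positivity)]
    refine h2.trans ?_
    rw [show c * d * r * q / 8 * (8 * q) = c * d * r * q ^ 2 by ring]
    gcongr
  have e0 : 0 < c * d * r * q := by positivity
  rw [e1, e2, show (c * d * r * (q / 2)) ^ 2 = c * d * r * q / 4 * (c * d * r * q) by ring]
  refine mul_le_mul_of_nonneg_right ?_ e0.le
  generalize c * d * r * q = X at e0 e3 ⊢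
  have e4 : 64 * c * d * X ≤ d * X := by
    have : 0 < d * X := by positivity
    nlinarith
  have e5 : K * (19 * d * X) ≤ X / 8 := by nlinarith
  have e6 : K * (16 * d * X + (64 * c * d * X + 2 * d * X)) ≤ K * (19 * d * X) := by
    gcongr; linarith
  linarith

lemma Hn_le_dg (hM : Surf M) {A B : Set E3} (hAB : A ⊆ B) {l σ m : ℝ} (hl : 0 ≤ l) (hσ : 0 ≤ σ)
    (hm0 : 0 ≤ m) (hm : mu M A ≤ ENNReal.ofReal m)
    (h : ∫⁻ x in B, ENNReal.ofReal (‖Hv M x‖ ^ 2 - l) ∂mu M ≤ ENNReal.ofReal σ) :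
    Hn M A ≤ ENNReal.ofReal (l * m + σ) := by
  refine (lint_le_add (g := fun _ => l) (h := fun x => ‖Hv M x‖ ^ 2 - l) aemeasurable_const
    (Eventually.of_forall fun _ => by linarith)).trans ?_
  exact ofReal_add_le' (by positivity) hσ (by rw [setLIntegral_const]; exact ofReal_mul_le hl hm)
    ((lintegral_mono_set hAB).trans h)

lemma An_mono {p : E3} {t R t' R' : ℝ} (ht : t' ≤ t) (hR : R ≤ R') : An p t R ⊆ An p t' R' :=
  fun x hx => ⟨ht.trans hx.1, hx.2.trans hR⟩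

lemma An_subset_ball {p : E3} {t R t' r : ℝ} (ht : t' < t) (hR : R < r) :
    An p t R ⊆ ball p r \ closedBall p t' := fun x hx =>
  ⟨mem_ball_iff_norm.2 (hx.2.trans_lt hR), fun h =>
    absurd (mem_closedBall_iff_norm.1 h) (not_le.2 (ht.trans_le hx.1))⟩

lemma dg_facts {c d s r η q q₀ S O : ℝ} (hc0 : 0 < c) (hc1 : c ≤ 1 / 64) (hd : 0 < d) (hd1 : d ≤ 1)
    (hd2 : 4 * d ^ 2 ≤ S) (hd4 : 2 * d ^ 2 ≤ O) (hη : 0 < η) (hη1 : η ≤ 1) (hq₀ : 0 < q₀)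
    (hq : q₀ ≤ q) (hq1 : q ≤ 1) (hr : 0 < r) (hr1 : r ≤ 1) (hs : 0 < s) :
    2 * (c * d * r * q) ^ 2 ≤ O ∧ (d * η * q) ^ 2 ≤ S * (η * q / 2) ^ 2 ∧ η * q / 2 ≤ 1 ∧
    r / 2 + r * q / 4 < r ∧
    (c * d) ^ 2 * η ^ 2 / r ^ 2 * (c * d * r * q) ^ 2 ≤ (c * d) ^ 2 * η ^ 2 * q ^ 2 ∧
    (c * d) ^ 2 * η ^ 2 * q ^ 2 + c * d ^ 2 * η ^ 2 * q₀ ^ 2 ≤ (2 * d) ^ 2 ∧
    s * (2 - q) < s * (2 - q / 2) ∧ r / 2 + r * (q / 2) / 4 < r / 2 + r * q / 4 ∧
    s ≤ s * (2 - q) ∧ s * (2 - q / 2) ≤ 2 * s := by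
  have hq' : 0 < q := hq₀.trans_le hq
  have hX : 0 < c * d * r * q := by positivity
  have hηq : η * q ≤ 1 := mul_le_one₀ hη1 hq'.le hq1
  have hrq : r * q ≤ r := mul_le_of_le_one_right hr.le hq1
  have hsq : s * q ≤ s := mul_le_of_le_one_right hs.le hq1
  have hsq0 : 0 < s * q := by positivity
  have hrq0 : 0 < r * q := by positivity
  refine ⟨?_, ?_, by linarith, by linarith, ?_, ?_, by linarith, by linarith, by linarith,
    by linarith⟩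
  · have h1 : c * (r * q) ≤ 1 := mul_le_one₀ (by linarith) hrq0.le (hrq.trans hr1)
    have h2 : c * d * r * q ≤ d := by
      rw [show c * d * r * q = c * (r * q) * d by ring]; exact mul_le_of_le_one_left hd.le h1
    linarith [pow_le_pow_left₀ hX.le h2 2]
  · linarith [mul_le_mul_of_nonneg_right hd2 (sq_nonneg (η * q / 2))]
  · rw [show (c * d) ^ 2 * η ^ 2 / r ^ 2 * (c * d * r * q) ^ 2 =
      (c * d) ^ 2 * ((c * d) ^ 2 * η ^ 2 * q ^ 2) by field_simp]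
    exact mul_le_of_le_one_left (by positivity)
      (pow_le_one₀ (by positivity) (mul_le_one₀ (by linarith) hd.le hd1))
  · have k1 : (c * (η * q)) ^ 2 ≤ 1 :=
      pow_le_one₀ (by positivity) (mul_le_one₀ (by linarith) (by positivity) hηq)
    have k2 : c * (η * q₀) ^ 2 ≤ 1 := mul_le_one₀ (by linarith) (by positivity)
      (pow_le_one₀ (by positivity) (mul_le_one₀ hη1 hq₀.le (hq.trans hq1)))
    linarith [mul_le_mul_of_nonneg_left k1 (sq_nonneg d), mul_le_mul_of_nonneg_left k2 (sq_nonneg d),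
      sq_nonneg d]

theorem dg_step (hΛ : 0 < Λ) (hM : Good Λ M) {p e : E3} (he : ‖e‖ = 1)
    {c d s r b η q q₀ ε : ℝ} (hc : c = 1 / (512 * 300000)) (hd : 0 < d) (hd1 : d ≤ 1)
    (hd2 : 4 * d ^ 2 ≤ cS) (hd3 : 152 * (cM * Λ) * d ≤ 1) (hd4 : 2 * d ^ 2 ≤ om 2)
    (hb : 0 ≤ b) (hη : 0 < η) (hη1 : η ≤ 1) (hq₀ : 0 < q₀) (hq : q₀ ≤ q) (hq1 : q ≤ 1)
    (hr : 0 < r) (hr1 : r ≤ 1) (hs : 0 < s) (hs1 : 2 * s ≤ 1)
    (hs2 : 512 * (cM * Λ) * Λ * s ≤ c * d * r * q₀ ^ 2) (hε : 0 < ε)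
    (hε1 : √ε * √Λ ≤ c * d ^ 2 * η * q₀ ^ 2) (hE' : En M (An p s (2 * s)) ≤ ENNReal.ofReal ε)
    (hH : ∫⁻ x in ball p r, ENNReal.ofReal (‖Hv M x‖ ^ 2 - (c * d) ^ 2 * η ^ 2 / r ^ 2) ∂mu M
      ≤ ENNReal.ofReal (c * d ^ 2 * η ^ 2 * q₀ ^ 2))
    (hm : mu M (AA M p e s r b η q) ≤ ENNReal.ofReal ((c * d * r * q) ^ 2))
    (hE : En M (AA M p e s r b η q) ≤ ENNReal.ofReal ((d * η * q) ^ 2)) :
    mu M (AA M p e s r b η (q / 2)) ≤ ENNReal.ofReal ((c * d * r * (q / 2)) ^ 2) ∧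
      En M (AA M p e s r b η (q / 2)) ≤ ENNReal.ofReal ((d * η * (q / 2)) ^ 2) := by
  have hq' : 0 < q := hq₀.trans_le hq
  have hc0 : 0 < c := by rw [hc]; norm_num
  have hc1 : c ≤ 1 / 64 := by rw [hc]; norm_num
  obtain ⟨f1, f2, f3, f4, f5, f6, ht, hR, f7, f8⟩ :=
    dg_facts hc0 hc1 hd hd1 hd2 hd4 hη hη1 hq₀ hq hq1 hr hr1 hs
  have p1 : 0 < c * d * r * q := by positivity
  have p2 : 0 < d * η * q := by positivity
  have p3 : 0 < 2 * d := by positivity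
  have p4 : 0 < 2 * s := by positivity
  have p5 : 0 < η * q / 2 := by positivity
  have p6 : 0 ≤ r / 2 + r * (q / 2) / 4 := by positivity
  have p7 : 0 ≤ c * d ^ 2 * η ^ 2 * q₀ ^ 2 := by positivity
  have p8 : 0 ≤ Λ * (2 * s) ^ 2 := by positivity
  have hA : AA M p e s r b η q = An p (s * (2 - q)) (r / 2 + r * q / 4) ∩
      band M e (b + η * (q / 2) + η * q / 2) := by
    rw [AA]; congr 2; ring
  have hAb : AA M p e s r b η q ⊆ ball p r := fun x hx => mem_ball_iff_norm.2 (hx.1.2.trans_lt f4)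
  have hH2 := (Hn_le_dg hM.surf hAb (by positivity) p7 (sq_nonneg _) hm hH).trans
    (ENNReal.ofReal_le_ofReal (add_le_add f5 le_rfl))
  have hH3 := hH2.trans (ENNReal.ofReal_le_ofReal f6)
  have hin : An p (s * (2 - q)) (s * (2 - q / 2)) ⊆ An p s (2 * s) := An_mono f7 f8
  have hm' : mu M (An p (s * (2 - q)) (s * (2 - q / 2))) ≤ ENNReal.ofReal (Λ * (2 * s) ^ 2) :=
    (measure_mono (hin.trans (An_subset _ _ _))).trans (hM.ratio p _ p4 hs1)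
  have d1 : r / 2 + r * q / 4 - (r / 2 + r * (q / 2) / 4) = r * q / 8 := by ring
  have d2 : s * (2 - q / 2) - s * (2 - q) = s * q / 2 := by ring
  rw [hA] at hm hE hH2 hH3
  constructor
  · have k := step_m hΛ hM he (hs.le.trans f7) ht p6 hR (by positivity) p5 (pow_pos p1 2)
      (pow_pos p2 2) (pow_pos p3 2) p8 hm hE hH3 hm' f1
    rw [d1, d2, Real.sqrt_sq p1.le, Real.sqrt_sq p2.le, Real.sqrt_sq p3.le] at k
    exact k.trans (ENNReal.ofReal_le_ofReal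
      (dg_real_m hc0 hc1 hd hη hq₀ hq hr hs hΛ (mul_pos cM_pos hΛ) hd3 hs2))
  · have k := step_E hM he (hs.le.trans f7) ht p6 hR p5 f3 (sq_nonneg _) (pow_pos p2 2)
      (by positivity) p8 hε hm hE hH2 hm' ((En_mono hin).trans hE') f2
    rw [d1, d2, Real.sqrt_sq p1.le, Real.sqrt_sq p2.le, Real.sqrt_mul hΛ.le,
      Real.sqrt_sq p4.le] at k
    exact k.trans (ENNReal.ofReal_le_ofReal (dg_real_E hc hd hd1 hη hq₀ hq hr hs hΛ hε hε1))

/-- an annulus with small energy -/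
lemma exists_ann_small {p : E3} {s₀ ε r : ℝ} (hs : 0 < s₀) (hsr : 2 * s₀ < r) (hε : 0 < ε) {J : ℕ}
    (hJ : 1 ≤ J * ε) (h : En M (ball p r \ closedBall p (s₀ * (1 / 4) ^ J)) ≤ 1) :
    ∃ s, s₀ * (1 / 4) ^ J < s ∧ s ≤ s₀ ∧ En M (An p s (2 * s)) ≤ ENNReal.ofReal ε := by
  have hJ0 : J ≠ 0 := by rintro rfl; norm_num at hJ
  have k1 : ∀ j < J, s₀ * (1 / 4 : ℝ) ^ J < s₀ * (1 / 4) ^ j := fun j hj =>
    mul_lt_mul_of_pos_left (pow_lt_pow_right_of_lt_one₀ (by norm_num) (by norm_num) hj) hs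
  have k2 : ∀ j, s₀ * (1 / 4 : ℝ) ^ j ≤ s₀ := fun j =>
    mul_le_of_le_one_right hs.le (pow_le_one₀ (by norm_num) (by norm_num))
  have k3 : ∀ i j, i < j → Disjoint (An p (s₀ * (1 / 4) ^ i) (2 * (s₀ * (1 / 4) ^ i)))
      (An p (s₀ * (1 / 4) ^ j) (2 * (s₀ * (1 / 4) ^ j))) := by
    intro i j hij
    refine Set.disjoint_left.2 fun x h1 h2 => ?_
    have k4 : (1 / 4 : ℝ) ^ j ≤ (1 / 4) ^ (i + 1) :=
      pow_le_pow_of_le_one (by norm_num) (by norm_num) hij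
    have k5 : 0 < s₀ * (1 / 4 : ℝ) ^ i := by positivity
    rw [pow_succ] at k4
    nlinarith [h1.1, h2.2]
  obtain ⟨j, hj, hle⟩ := ENNReal.exists_le_of_sum_le (s := Finset.range J)
    (f := fun j => En M (An p (s₀ * (1 / 4) ^ j) (2 * (s₀ * (1 / 4) ^ j))))
    (g := fun _ => ENNReal.ofReal ε) (Finset.nonempty_range_iff.2 hJ0) (by
      simp only [En]
      rw [← lintegral_biUnion_finset (fun i _ j _ hij => (lt_or_gt_of_ne hij).elim (k3 i j)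
        fun h => (k3 j i h).symm) fun j _ => (isClosed_An _ _ _).measurableSet]
      refine (lintegral_mono_set (iUnion₂_subset fun j hj => An_subset_ball
        (k1 j (Finset.mem_range.1 hj)) (by linarith [k2 j]))).trans (h.trans ?_)
      rw [Finset.sum_const, Finset.card_range, nsmul_eq_mul, ← ENNReal.ofReal_natCast,
        ← ENNReal.ofReal_mul (Nat.cast_nonneg _)]
      exact ENNReal.one_le_ofReal.2 hJ)
  exact ⟨_, k1 j (Finset.mem_range.1 hj), k2 j, hle⟩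

theorem dgStmt : DGStmt := by
  intro Λ hΛ
  have hom := om_pos 2
  have hK := mul_pos cM_pos hΛ
  have hS := cS_pos
  obtain ⟨c, hc⟩ : ∃ c : ℝ, c = 1 / (512 * 300000) := ⟨_, rfl⟩
  have hc0 : 0 < c := by rw [hc]; norm_num
  have hc1 : c ≤ 1 := by rw [hc]; norm_num
  obtain ⟨d, hd, hd1, hd2, hd3, hd4⟩ : ∃ d : ℝ, 0 < d ∧ d ≤ 1 ∧ 4 * d ^ 2 ≤ cS ∧
      152 * (cM * Λ) * d ≤ 1 ∧ 2 * d ^ 2 ≤ om 2 := by
    have h1 : ∀ᶠ d : ℝ in 𝓝 0, d ≤ 1 ∧ 4 * d ^ 2 ≤ cS ∧ 152 * (cM * Λ) * d ≤ 1 ∧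
        2 * d ^ 2 ≤ om 2 := by
      refine (eventually_le_nhds one_pos).and (Eventually.and ?_ (Eventually.and ?_ ?_))
      · exact (Continuous.tendsto' (by fun_prop) 0 0 (by simp)).eventually_le_const hS
      · exact (Continuous.tendsto' (by fun_prop) 0 0 (by simp)).eventually_le_const one_pos
      · exact (Continuous.tendsto' (by fun_prop) 0 0 (by simp)).eventually_le_const hom
    obtain ⟨d, h2, h3⟩ := ((h1.filter_mono nhdsWithin_le_nhds).and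
      (self_mem_nhdsWithin (s := Ioi (0 : ℝ)))).exists
    exact ⟨d, h3, h2⟩
  refine ⟨(c * d) ^ 2, by positivity, fun b b' hb hbb hb1 τ t r hτ ht hr hr1 => ?_⟩
  obtain ⟨η, hη⟩ : ∃ η, η = b' - b := ⟨_, rfl⟩
  have hη0 : 0 < η := by linarith
  have hη1 : η ≤ 1 := by linarith
  rw [← hη]
  obtain ⟨N, hN⟩ := exists_pow_lt_of_lt_one hτ (show (1 / 2 : ℝ) < 1 by norm_num)
  obtain ⟨q₀, hq₀⟩ : ∃ q₀ : ℝ, q₀ = (1 / 2) ^ N := ⟨_, rfl⟩
  have hq0 : 0 < q₀ := by rw [hq₀]; positivity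
  have hq1 : q₀ ≤ 1 := by rw [hq₀]; exact pow_le_one₀ (by norm_num) (by norm_num)
  obtain ⟨ε, hε⟩ : ∃ ε : ℝ, ε = (c * d ^ 2 * η * q₀ ^ 2) ^ 2 / Λ := ⟨_, rfl⟩
  have hε0 : 0 < ε := by rw [hε]; positivity
  have hε1 : √ε * √Λ ≤ c * d ^ 2 * η * q₀ ^ 2 := by
    rw [← Real.sqrt_mul hε0.le, hε, div_mul_cancel₀ _ hΛ.ne', Real.sqrt_sq (by positivity)]
  obtain ⟨J, hJ⟩ := exists_nat_ge (1 / ε)
  obtain ⟨s₀, hs₀⟩ : ∃ s₀ : ℝ,
    s₀ = min (min (t / 2) (r / 4)) (c * d * r * q₀ ^ 2 / (512 * (cM * Λ) * Λ)) := ⟨_, rfl⟩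
  have hs0 : 0 < s₀ := by rw [hs₀]; positivity
  have hs1 : s₀ ≤ t / 2 := hs₀ ▸ (min_le_left _ _).trans (min_le_left _ _)
  have hs2 : s₀ ≤ r / 4 := hs₀ ▸ (min_le_left _ _).trans (min_le_right _ _)
  have hs3 : s₀ ≤ c * d * r * q₀ ^ 2 / (512 * (cM * Λ) * Λ) := hs₀ ▸ min_le_right _ _
  refine ⟨s₀ * (1 / 4) ^ J, c * d ^ 2 * η ^ 2 * q₀ ^ 2, by positivity, by positivity, ?_⟩
  intro M p e hM he h1 h2 h3
  have hcd : c * d ≤ 1 := mul_le_one₀ hc1 hd.le hd1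
  obtain ⟨s, k1, k2, k3⟩ := exists_ann_small (M := M) (p := p) hs0 (by linarith : 2 * s₀ < r) hε0
    ((div_le_iff₀ hε0).1 hJ) (h2.trans (ENNReal.ofReal_le_one.2
      (mul_le_one₀ (pow_le_one₀ (by positivity) hcd) (by positivity) (pow_le_one₀ hη0.le hη1))))
  have hs : 0 < s := lt_trans (by positivity) k1
  have key : ∀ i ≤ N, mu M (AA M p e s r b η ((1 / 2) ^ i)) ≤
      ENNReal.ofReal ((c * d * r * (1 / 2) ^ i) ^ 2) ∧
      En M (AA M p e s r b η ((1 / 2) ^ i)) ≤ ENNReal.ofReal ((d * η * (1 / 2) ^ i) ^ 2) := by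
    intro i
    induction i with
    | zero =>
      intro _
      have k4 : An p (s * (2 - 1)) (r / 2 + r * 1 / 4) ⊆ ball p r \ closedBall p (s₀ * (1 / 4) ^ J) :=
        An_subset_ball (by linarith) (by linarith)
      rw [pow_zero, mul_one, mul_one, mul_pow, mul_pow d]
      refine ⟨le_trans (measure_mono (inter_subset_inter (k4.trans sdiff_subset)
        (band_mono (by linarith)))) h1, (En_mono (inter_subset_left.trans k4)).trans
        (h2.trans (ENNReal.ofReal_le_ofReal ?_))⟩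
      gcongr
      exact mul_le_of_le_one_left hd.le hc1
    | succ i ih =>
      intro hi
      obtain ⟨k4, k5⟩ := ih (by omega)
      rw [pow_succ, mul_one_div]
      refine dg_step hΛ hM he hc hd hd1 hd2 hd3 hd4 hb hη0 hη1 hq0 ?_
        (pow_le_one₀ (by norm_num) (by norm_num)) hr hr1 hs (by linarith) ?_ hε0 hε1 k3 h3 k4 k5
      · rw [hq₀]; exact pow_le_pow_of_le_one (by norm_num) (by norm_num) (by omega)
      · rw [mul_comm _ s]; exact (le_div_iff₀ (by positivity)).1 (k2.trans hs3)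
  have k4 := (key N le_rfl).1
  rw [← hq₀] at k4 hN
  have k5 : (ball p (r / 2) \ closedBall p t) ∩ band M e b ⊆ AA M p e s r b η q₀ := by
    intro x hx
    have k6 := hx.1.2
    have k7 := mem_ball_iff_norm.1 hx.1.1
    rw [mem_closedBall_iff_norm, not_le] at k6
    exact ⟨⟨by linarith [mul_pos hs hq0], by linarith [mul_pos hr hq0]⟩,
      band_mono (by linarith [mul_pos hη0 hq0]) hx.2⟩
  refine (measure_mono k5).trans (k4.trans (ENNReal.ofReal_le_ofReal ?_))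
  have k6 : c * d * r * q₀ ≤ q₀ := mul_le_of_le_one_left hq0.le (mul_le_one₀ hcd hr.le hr1)
  exact (pow_le_pow_left₀ (by positivity) k6 2).trans
    ((pow_le_of_le_one hq0.le hq1 two_ne_zero).trans hN.le)

end Vale.Agent.P218N.B
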