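import Vale.Agent.P218N.B.Stmt

/-! Block B: cut-off functions for the holes. -/

open MeasureTheory Set Filter Topology Metric
open scoped ENNReal NNReal RealInnerProductSpace ContDiff

namespace Vale.Agent.P218N.B

open Vale.Agent.P218.H313 Vale.Agent.P218N.H

/-- the cut-off function for one hole -/
theorem exists_eta_one : ∃ C : ℝ, 0 < C ∧ ∀ (c : E2) (r : ℝ), 0 < r →
    ∃ η : E2 → ℝ, ContDiff ℝ ∞ η ∧ (∀ y, 0 ≤ η y) ∧ (∀ y, η y ≤ 1) ∧
      (∀ y ∈ ball c (2 * r), η y = 0) ∧ (∀ y, y ∉ ball c (3 * r) → η y = 1) ∧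
      ∫⁻ y, ‖fderiv ℝ η y‖ₑ ≤ ENNReal.ofReal (C * r) := by
  let b : ContDiffBump (0 : E2) := ⟨2, 3, by norm_num, by norm_num⟩
  have hb : ContDiff ℝ ∞ b := b.contDiff
  obtain ⟨K, hK⟩ := (b.hasCompactSupport.fderiv ℝ).exists_bound_of_continuous
    (hb.continuous_fderiv (by simp))
  have hK0 : 0 ≤ K := (norm_nonneg _).trans (hK 0)
  refine ⟨9 * Real.pi * (K + 1), by positivity, fun c r hr => ?_⟩
  have hn : ∀ y : E2, ‖r⁻¹ • (y - c)‖ = ‖y - c‖ / r := fun y => by
    rw [norm_smul, Real.norm_of_nonneg (inv_nonneg.2 hr.le), div_eq_inv_mul]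
  refine ⟨fun y => 1 - b (r⁻¹ • (y - c)), contDiff_const.sub (hb.comp (by fun_prop)),
    fun y => sub_nonneg.2 b.le_one, fun y => sub_le_self _ b.nonneg, fun y hy => ?_,
    fun y hy => ?_, ?_⟩
  · rw [mem_ball, dist_eq_norm] at hy
    refine sub_eq_zero.2 (b.one_of_mem_closedBall ?_).symm
    rw [mem_closedBall_zero_iff, hn, div_le_iff₀ hr]
    exact hy.le
  · rw [mem_ball, dist_eq_norm, not_lt] at hy
    refine sub_eq_self.2 (b.zero_of_le_dist ?_)
    rw [dist_zero_right, hn, le_div_iff₀ hr]
    exact hy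
  · have hd : ∀ y, ‖fderiv ℝ (fun y => 1 - b (r⁻¹ • (y - c))) y‖ ≤
        ‖fderiv ℝ b (r⁻¹ • (y - c))‖ * r⁻¹ := by
      intro y
      have h1 : HasFDerivAt (fun y : E2 => r⁻¹ • (y - c)) (r⁻¹ • ContinuousLinearMap.id ℝ E2) y :=
        ((hasFDerivAt_id y).sub_const c).const_smul r⁻¹
      have h2 := (((hb.differentiable (by simp) _).hasFDerivAt.comp y h1).const_sub 1).fderiv
      have h3 : fderiv ℝ (fun y => 1 - b (r⁻¹ • (y - c))) y = _ := h2
      rw [h3, norm_neg]
      refine (ContinuousLinearMap.opNorm_comp_le _ _).trans ?_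
      rw [norm_smul, Real.norm_of_nonneg (inv_nonneg.2 hr.le), ContinuousLinearMap.norm_id,
        mul_one]
    calc ∫⁻ y, ‖fderiv ℝ (fun y => 1 - b (r⁻¹ • (y - c))) y‖ₑ
        ≤ ∫⁻ y, (closedBall c (3 * r)).indicator (fun _ => ENNReal.ofReal ((K + 1) * r⁻¹)) y := by
          refine lintegral_mono fun y => ?_
          rw [← ofReal_norm]
          by_cases hy : y ∈ closedBall c (3 * r)
          · rw [indicator_of_mem hy]
            refine ENNReal.ofReal_le_ofReal ((hd y).trans ?_)
            have := hK (r⁻¹ • (y - c))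
            gcongr
            linarith
          · have h1 : r⁻¹ • (y - c) ∉ tsupport (fderiv ℝ b) := by
              intro h
              have h2 := tsupport_fderiv_subset ℝ h
              rw [b.tsupport_eq, mem_closedBall_zero_iff, hn, div_le_iff₀ hr] at h2
              exact hy (by rwa [mem_closedBall, dist_eq_norm])
            have h2 := hd y
            rw [image_eq_zero_of_notMem_tsupport h1, norm_zero, zero_mul] at h2
            rw [ENNReal.ofReal_of_nonpos h2]
            exact zero_le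
      _ = ENNReal.ofReal (9 * Real.pi * (K + 1) * r) := by
          rw [lintegral_indicator measurableSet_closedBall, setLIntegral_const,
            EuclideanSpace.volume_closedBall_fin_two, ← ENNReal.ofReal_pow (by positivity),
            ← ENNReal.ofReal_mul (by positivity), ← ENNReal.ofReal_mul (by positivity)]
          congr 1
          field_simp
          norm_num

theorem etaStmt : EtaStmt := by
  classical
  obtain ⟨C, hC, h⟩ := exists_eta_one
  refine ⟨C, hC, fun s => ?_⟩
  induction s using Finset.induction_on with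
  | empty =>
    intro _
    exact ⟨fun _ => 1, contDiff_const, fun _ => zero_le_one, fun _ => le_rfl, by simp,
      fun _ _ => rfl, by simp [← ofReal_norm]⟩
  | insert c s hc ih =>
    intro hs
    have hr := hs c (Finset.mem_insert_self c s)
    have hs' : ∀ c' ∈ s, 0 < c'.2 := fun c' h' => hs c' (Finset.mem_insert_of_mem h')
    obtain ⟨η, a1, a2, a3, a4, a5, a6⟩ := ih hs'
    obtain ⟨ζ, b1, b2, b3, b4, b5, b6⟩ := h c.1 c.2 hr
    refine ⟨fun y => ζ y * η y, b1.mul a1, fun y => mul_nonneg (b2 y) (a2 y),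
      fun y => mul_le_one₀ (b3 y) (a2 y) (a3 y), fun c' hc' y hy => ?_, fun y hy => ?_, ?_⟩
    · rcases Finset.mem_insert.1 hc' with rfl | hc'
      · simp only [b4 y hy, zero_mul]
      · simp only [a4 c' hc' y hy, mul_zero]
    · simp only [b5 y (hy c (Finset.mem_insert_self c s)),
        a5 y fun c' h' => hy c' (Finset.mem_insert_of_mem h'), mul_one]
    · have hd : ∀ y, ‖fderiv ℝ (fun y => ζ y * η y) y‖ₑ ≤ ‖fderiv ℝ ζ y‖ₑ + ‖fderiv ℝ η y‖ₑ := by
        intro y
        rw [fderiv_fun_mul (b1.differentiable (by simp) y) (a1.differentiable (by simp) y),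
          ← ofReal_norm, ← ofReal_norm, ← ofReal_norm,
          ← ENNReal.ofReal_add (norm_nonneg _) (norm_nonneg _)]
        refine ENNReal.ofReal_le_ofReal ((norm_add_le _ _).trans ?_)
        rw [norm_smul, norm_smul, Real.norm_of_nonneg (b2 y), Real.norm_of_nonneg (a2 y), add_comm]
        exact add_le_add (mul_le_of_le_one_left (norm_nonneg _) (a3 y))
          (mul_le_of_le_one_left (norm_nonneg _) (b3 y))
      have hm : Measurable fun y => ‖fderiv ℝ ζ y‖ₑ :=
        (b1.continuous_fderiv (by simp)).enorm.measurable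
      refine (lintegral_mono hd).trans ?_
      rw [lintegral_add_left hm, Finset.sum_insert hc, mul_add, ENNReal.ofReal_add (by positivity)
        (mul_nonneg hC.le (Finset.sum_nonneg fun c' h' => (hs' c' h').le))]
      exact add_le_add b6 a6

end Vale.Agent.P218N.B
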