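import Vale.Agent.P218N.B.Stmt

/-! Block B: tangent plane, shrinker quantity and second fundamental form of a graph. -/

open MeasureTheory Set Filter Topology Metric
open scoped ENNReal NNReal RealInnerProductSpace ContDiff

namespace Vale.Agent.P218N.B

open Vale.Agent.P218.H313 Vale.Agent.P218N.H

namespace Gr

variable (f : Frame 2 E3) (p : E3) {u : E2 → ℝ}

theorem tr_neg (A : E3 →L[ℝ] E3) : tr (-A) = -tr A := (trL E3).map_neg A

theorem grad_gw (hu : ContDiff ℝ ∞ u) (z : E2) :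
    grad (f.gw p u) (f.gr p u z) = f.n - f.ι (grad u z) := by
  rw [f.grad_gw p (hu.differentiable (by simp) _), f.π_gr]

theorem hess_gw (hu : ContDiff ℝ ∞ u) (z : E2) :
    fderiv ℝ (grad (f.gw p u)) (f.gr p u z) = -f.ι.comp ((fderiv ℝ (grad u) z).comp f.π) := by
  have h1 : grad (f.gw p u) = fun x => f.n - f.ι (grad u (f.π (x - p))) :=
    funext fun x => f.grad_gw p (hu.differentiable (by simp) _)
  have h2 : HasFDerivAt (fun x : E3 => f.π (x - p)) f.π (f.gr p u z) := by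
    have := f.π.hasFDerivAt.comp (f.gr p u z) ((hasFDerivAt_id (f.gr p u z)).sub_const p)
    rwa [ContinuousLinearMap.comp_id] at this
  have h3 : HasFDerivAt (grad u) (fderiv ℝ (grad u) z) (f.π (f.gr p u z - p)) := by
    rw [f.π_gr]
    exact ((contDiff_grad_top hu).differentiable (by simp) z).hasFDerivAt
  rw [h1]
  have h4 := HasFDerivAt.comp (f := fun x : E3 => f.π (x - p)) (f.gr p u z) h3 h2
  exact ((f.ι.hasFDerivAt.comp _ h4).const_sub f.n).fderiv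

theorem nuW_gw (hu : ContDiff ℝ ∞ u) (z : E2) : nuW (f.gw p u) (f.gr p u z) =
    (√(1 + ‖grad u z‖ ^ 2))⁻¹ • (f.n - f.ι (grad u z)) := by
  rw [nuW, grad_gw f p hu, f.norm_N]

theorem tr_AW_gw (hu : ContDiff ℝ ∞ u) (z : E2) :
    tr (AW (f.gw p u) (f.gr p u z)) = -((√(1 + ‖grad u z‖ ^ 2))⁻¹ * mc u z) := by
  have hne : grad (f.gw p u) (f.gr p u z) ≠ 0 := by rw [grad_gw f p hu]; exact f.N_ne _
  have h1 : tr (f.ι.comp ((fderiv ℝ (grad u) z).comp f.π)) = tr (fderiv ℝ (grad u) z) := by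
    rw [Frame.tr_comm']
    congr 1
    ext v
    simp only [ContinuousLinearMap.comp_apply, f.π_ι]
  have h2 : f.π (f.n - f.ι (grad u z)) = -grad u z := by rw [map_sub, f.π_n, f.π_ι, zero_sub]
  have h3 : √(1 + ‖grad u z‖ ^ 2) ^ 2 = 1 + ‖grad u z‖ ^ 2 := Real.sq_sqrt (by positivity)
  have h4 : √(1 + ‖grad u z‖ ^ 2) ≠ 0 := by positivity
  rw [AW, tr_smul, tr_comm, ContinuousLinearMap.comp_assoc, PW, perp_comp_perp (norm_nuW hne),
    tr_comm, tr_perp_comp, hess_gw f p hu, nuW_gw f p hu, grad_gw f p hu, f.norm_N, tr_neg, h1]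
  simp only [neg_apply, ContinuousLinearMap.comp_apply, map_smul, h2, map_neg,
    neg_neg, real_inner_smul_left, real_inner_smul_right]
  rw [real_inner_comm, f.adj, h2, inner_neg_right, mc]
  generalize √(1 + ‖grad u z‖ ^ 2) = W at h3 h4
  rw [← h3]
  field_simp
  ring

theorem inner_AW_gw (hu : ContDiff ℝ ∞ u) (z v v' : E2) :
    ⟪AW (f.gw p u) (f.gr p u z) (f.dgr u z v), f.dgr u z v'⟫ =
      -((√(1 + ‖grad u z‖ ^ 2))⁻¹ * ⟪fderiv ℝ (grad u) z v, v'⟫) := by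
  have h1 : ∀ a, PW (f.gw p u) (f.gr p u z) (f.dgr u z a) = f.dgr u z a := by
    intro a
    refine PW_of_inner ?_
    rw [grad_gw f p hu, f.dgr_apply, inner_sub_left, inner_add_right, inner_add_right,
      real_inner_smul_right, real_inner_smul_right, f.inner_n_ι, f.inner_nn, f.inner_ι,
      f.inner_ι_n]
    ring
  have h2 : ∀ a b, ⟪PW (f.gw p u) (f.gr p u z) a, b⟫ = ⟪a, PW (f.gw p u) (f.gr p u z) b⟫ :=
    inner_perp_left _
  rw [AW, smul_apply, real_inner_smul_left, ContinuousLinearMap.comp_apply,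
    ContinuousLinearMap.comp_apply, h2, h1, h1, hess_gw f p hu, grad_gw f p hu, f.norm_N]
  simp only [neg_apply, ContinuousLinearMap.comp_apply, inner_neg_left,
    f.π_dgr, f.adj, mul_neg]

theorem norm_dgr_le (u : E2 → ℝ) (z v : E2) : ‖f.dgr u z v‖ ≤ √(1 + ‖grad u z‖ ^ 2) * ‖v‖ := by
  refine le_of_sq_le_sq ?_ (by positivity)
  rw [f.dgr_apply, f.norm_sq, mul_pow, Real.sq_sqrt (by positivity), ← sq_abs ⟪grad u z, v⟫]
  have h1 : |⟪grad u z, v⟫| ^ 2 ≤ (‖grad u z‖ * ‖v‖) ^ 2 :=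
    pow_le_pow_left₀ (abs_nonneg _) (abs_real_inner_le_norm _ _) 2
  nlinarith

theorem norm_hess_le (hu : ContDiff ℝ ∞ u) (z : E2) : ‖fderiv ℝ (grad u) z‖ ≤
    √(1 + ‖grad u z‖ ^ 2) ^ 3 * ‖AW (f.gw p u) (f.gr p u z)‖ := by
  set W := √(1 + ‖grad u z‖ ^ 2) with hW
  have hW0 : 0 < W := by positivity
  refine ContinuousLinearMap.opNorm_le_bound _ (by positivity) fun v => ?_
  set a := fderiv ℝ (grad u) z v with ha
  have h1 := inner_AW_gw f p hu z v a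
  rw [← ha, real_inner_self_eq_norm_sq, ← hW] at h1
  have h2 : ‖a‖ ^ 2 = W * |⟪AW (f.gw p u) (f.gr p u z) (f.dgr u z v), f.dgr u z a⟫| := by
    rw [h1, abs_neg, abs_of_nonneg (by positivity)]
    field_simp
  have h3 : |⟪AW (f.gw p u) (f.gr p u z) (f.dgr u z v), f.dgr u z a⟫| ≤
      ‖AW (f.gw p u) (f.gr p u z)‖ * (W * ‖v‖) * (W * ‖a‖) := by
    refine (abs_real_inner_le_norm _ _).trans ?_
    refine mul_le_mul ((ContinuousLinearMap.le_opNorm _ _).trans ?_) (norm_dgr_le f u z a)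
      (norm_nonneg _) (by positivity)
    exact mul_le_mul_of_nonneg_left (norm_dgr_le f u z v) (norm_nonneg _)
  rcases (norm_nonneg a).eq_or_lt with h0 | h0
  · rw [← h0]
    positivity
  · refine le_of_mul_le_mul_right ?_ h0
    calc ‖a‖ * ‖a‖ = W * |⟪AW (f.gw p u) (f.gr p u z) (f.dgr u z v), f.dgr u z a⟫| := by
          rw [← h2, sq]
      _ ≤ W * (‖AW (f.gw p u) (f.gr p u z)‖ * (W * ‖v‖) * (W * ‖a‖)) := by gcongr
      _ = W ^ 3 * ‖AW (f.gw p u) (f.gr p u z)‖ * ‖v‖ * ‖a‖ := by ring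

/-- the statement for a globally smooth function -/
theorem main {M : Set E3} (hM : Surf M) (hu : ContDiff ℝ ∞ u) (z : E2)
    (h : ∀ᶠ x in 𝓝 (f.gr p u z), x ∈ M ↔ f.gw p u x = 0) :
    PT M (f.gr p u z) = perp ((√(1 + ‖grad u z‖ ^ 2))⁻¹ • (f.n - f.ι (grad u z))) ∧
    ‖velM M (f.gr p u z)‖ * √(1 + ‖grad u z‖ ^ 2) = |res (f.π p) ⟪f.n, p⟫ u z| ∧
    ‖fderiv ℝ (grad u) z‖ ^ 2 ≤ (1 + ‖grad u z‖ ^ 2) ^ 3 * Asq M (f.gr p u z) := by
  obtain ⟨U, h1, h2, h3⟩ := _root_.mem_nhds_iff.1 h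
  have hL : LocDef M U (f.gw p u) := ⟨h2, f.contDiff_gw p hu, fun x _ => by
    rw [f.grad_gw p (hu.differentiable (by simp) _)]; exact f.N_ne _, fun x hx => h1 hx⟩
  have hx : f.gr p u z ∈ M := (h1 h3).2 (f.gw_gr p u z)
  have hW0 : 0 < √(1 + ‖grad u z‖ ^ 2) := by positivity
  have hn := hL.norm_nuW h3
  refine ⟨by rw [hL.PT_eq h3 hx, PW, nuW_gw f p hu], ?_, ?_⟩
  · have h4 : ⟪nuW (f.gw p u) (f.gr p u z), f.gr p u z⟫ = (√(1 + ‖grad u z‖ ^ 2))⁻¹ *
        (⟪f.n, p⟫ + u z - ⟪f.π p + z, grad u z⟫) := by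
      rw [nuW_gw f p hu, real_inner_smul_left, Frame.gr]
      simp only [inner_sub_left, inner_add_right, real_inner_smul_right, map_smul,
        f.inner_n_ι, f.inner_nn, f.adj, f.π_ι, f.π_n, inner_zero_right,
        real_inner_comm (grad u z)]
      ring
    have h5 : velM M (f.gr p u z) = ((√(1 + ‖grad u z‖ ^ 2))⁻¹ * res (f.π p) ⟪f.n, p⟫ u z) •
        nuW (f.gw p u) (f.gr p u z) := by
      rw [velM_eq hM hx, hL.Hv_eq h3 hx, hL.PT_eq h3 hx, PW, perp_apply, sub_sub_cancel, h4,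
        tr_AW_gw f p hu, smul_smul, ← add_smul, res]
      congr 1
      ring
    rw [h5, norm_smul, hn, mul_one, Real.norm_eq_abs, abs_mul, abs_of_pos (inv_pos.2 hW0)]
    field_simp
  · have h4 := hM.norm_sff_sq_le hx
    rw [hL.norm_sff_eq h3 hx] at h4
    calc ‖fderiv ℝ (grad u) z‖ ^ 2
        ≤ (√(1 + ‖grad u z‖ ^ 2) ^ 3 * ‖AW (f.gw p u) (f.gr p u z)‖) ^ 2 :=
          pow_le_pow_left₀ (norm_nonneg _) (norm_hess_le f p hu z) 2
      _ = (√(1 + ‖grad u z‖ ^ 2) ^ 2) ^ 3 * ‖AW (f.gw p u) (f.gr p u z)‖ ^ 2 := by ring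
      _ ≤ (1 + ‖grad u z‖ ^ 2) ^ 3 * Asq M (f.gr p u z) := by
          rw [Real.sq_sqrt (by positivity)]
          gcongr

end Gr

theorem graphStmt : GraphStmt := by
  intro M f p u z hM hu h
  obtain ⟨v, hv, he⟩ := exists_global (k := ⊤) hu
  have h1 : f.gr p u z = f.gr p v z := by rw [Frame.gr, Frame.gr, he.self_of_nhds]
  have h2 : grad u =ᶠ[𝓝 z] grad v := he.eventually_nhds.mono fun y hy => (grad_congr hy).symm
  have h3 : ∀ᶠ x in 𝓝 (f.gr p v z), f.gw p u x = f.gw p v x := by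
    have h4 : ContinuousAt (fun x : E3 => f.π (x - p)) (f.gr p v z) := by fun_prop
    have h5 : ∀ᶠ y in 𝓝 (f.π (f.gr p v z - p)), v y = u y := by rw [f.π_gr]; exact he
    filter_upwards [h4.eventually h5] with x hx
    rw [Frame.gw, Frame.gw, hx]
  have h4 : res (f.π p) ⟪f.n, p⟫ u z = res (f.π p) ⟪f.n, p⟫ v z := by
    rw [res, res, mc, mc, h2.fderiv_eq, h2.self_of_nhds, he.self_of_nhds]
  rw [h1] at h
  rw [h1, h4, h2.fderiv_eq, h2.self_of_nhds]
  refine Gr.main f p hM hv z ?_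
  filter_upwards [h, h3] with x hx hx'
  rw [hx, hx']

end Vale.Agent.P218N.B
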