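import Vale.Agent.P218N.B.Small

/-! Every point has a cylinder in which the bad points have small content. -/

open MeasureTheory Set Filter Topology Metric
open scoped ENNReal NNReal RealInnerProductSpace ContDiff

namespace Vale.Agent.P218N.B

open Vale.Agent.P218.H313 Vale.Agent.P218N.H Vale.Agent.P218N.G
open Vale.Agent.P218.H552 (MC)
open Vale.Agent.P214 (proj)

set_option linter.unusedSectionVars false
set_option linter.unusedVariables false

variable {ι : Type} {U : Ultrafilter ι} {M : ι → Set E3} {κ : Measure E3} {Λ : ℝ}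

lemma norm_Hv_le {M : Set E3} (hM : Surf M) {x : E3} (hx : x ∈ M) :
    ‖Hv M x‖ ≤ ‖velM M x‖ + ‖x‖ / 2 := by
  have h1 : Hv M x = velM M x - (1 / 2 : ℝ) • (x - PT M x x) := by
    rw [velM_eq hM hx]; abel
  have h2 : ‖x - PT M x x‖ ≤ ‖x‖ := by
    rw [PT_apply, sub_sub_cancel, norm_smul, hM.norm_nu hx, mul_one]
    have := abs_real_inner_le_norm (nu M x) x
    rwa [hM.norm_nu hx, one_mul] at this
  rw [h1]
  refine (norm_sub_le _ _).trans ?_
  rw [norm_smul, Real.norm_of_nonneg (by norm_num)]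
  linarith

/-- lower area bound at points where the maximal function of the velocity is at most one -/
lemma lower_area {M : Set E3} (hΛ : 0 < Λ) (hM : Good Λ M) {R s : ℝ} {y : E3} (hy : y ∈ M)
    (hR : ‖y‖ ≤ R) (hs : 0 < s) (hs1 : s ≤ 1)
    (h : ∀ t, 0 < t → t ≤ 1 → ∫ z in closedBall y t, ‖velM M z‖ ∂(mu M) ≤ 1 * t ^ 2) :
    om 2 ≤ (mu M).real (closedBall y s) / s ^ 2 + (1 + (R + 1) / 2 * Λ) * s := by
  have hfin := hM.finite
  have hR0 : 0 ≤ R := (norm_nonneg y).trans hR
  have hv : ContinuousOn (fun z => ‖velM M z‖) M := hM.surf.continuousOn_vel.norm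
  have h1 := om_mul_le hM.slice (h := fun _ => 1) contDiff_const (fun _ => zero_le_one)
    (densStmt M hM.surf hM.closed y hy) (lam := 1 + (R + 1) / 2 * Λ) hs (fun t ht hts => by
      have k1 : ∫ z in closedBall y t, err (tanP M) (Hv M) (fun _ => 1) z ∂(mu M)
          ≤ ∫ z in closedBall y t, (‖velM M z‖ + (R + 1) / 2) ∂(mu M) := by
        refine integral_mono_ae (hM.slice.err_integrableOn contDiff_const (isCompact_closedBall y t))
          (integrableOn_mu hM.surf hM.closed (hv.add continuousOn_const) (isCompact_closedBall y t)) ?_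
        filter_upwards [ae_restrict_of_ae (ae_mem_mu hM.surf),
          ae_restrict_mem measurableSet_closedBall] with z hz hz'
        have k2 : ‖z‖ ≤ R + 1 := by
          have := norm_le_norm_add_norm_sub' z y
          rw [mem_closedBall, dist_eq_norm] at hz'
          linarith
        have k3 : grad (fun _ : E3 => (1 : ℝ)) z = 0 := by simp [grad]
        have k4 := norm_Hv_le hM.surf hz
        simp only [err, k3, map_zero, norm_zero, zero_add, one_mul]
        linarith
      rw [integral_add (integrableOn_mu hM.surf hM.closed hv (isCompact_closedBall y t))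
        (integrableOn_mu hM.surf hM.closed continuousOn_const (isCompact_closedBall y t)),
        setIntegral_const, smul_eq_mul] at k1
      have k2 := hM.ratio_real hΛ.le y t ht (hts.trans hs1)
      have k3 := h t ht (hts.trans hs1)
      nlinarith [mul_le_mul_of_nonneg_right k2 (show 0 ≤ (R + 1) / 2 by positivity)])
  have h2 := JJ_le (m := 2) (μ := mu M) (h := fun _ => 1) continuous_const (fun _ => zero_le_one)
    (x := y) hs
  rw [setIntegral_const, smul_eq_mul, mul_one] at h2
  linarith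

/-- clearing out for the limit measure -/
theorem Seq.clear (h : Seq U M κ Λ) (R : ℝ) (hR : 0 ≤ R) : ∃ s₀ : ℝ, 0 < s₀ ∧ s₀ ≤ 1 ∧
    ∀ (x : E3) (s : ℝ), ‖x‖ ≤ R → 0 < s → s ≤ s₀ →
      κ (ball x (3 * s)) ≤ ENNReal.ofReal (om 2 / 4 * s ^ 2) → κ (closedBall x (s / 2)) = 0 := by
  have hom := om_pos 2
  have hΛ := h.pos
  set lam := 1 + (R + 1 + 1) / 2 * Λ with hlam
  have hl0 : 0 < lam := by positivity
  refine ⟨min 1 (om 2 / 4 / lam), by positivity, min_le_left _ _, fun x s hx hs hs₀ hκ => ?_⟩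
  have hs1 : s ≤ 1 := hs₀.trans (min_le_left _ _)
  have hs2 : lam * s ≤ om 2 / 4 := by
    have := hs₀.trans (min_le_right _ _)
    rwa [le_div_iff₀ hl0, mul_comm] at this
  obtain ⟨C, hC, HC⟩ := h.mass_bd (R + 1 + 1)
  set c := (Vale.Agent.P214.BES.nB E3 : ℝ) * Λ with hc
  have hc0 : 0 ≤ c := by positivity
  refine le_antisymm (ENNReal.le_of_forall_pos_le_add fun a ha _ => ?_) zero_le
  rw [zero_add, ← ENNReal.ofReal_coe_nnreal]
  have ha' : (0 : ℝ) < a := ha
  refine h.le_mass (isCompact_closedBall x (s / 2)) isOpen_ball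
    (closedBall_subset_ball (half_lt_self hs)) ha'.le ?_
  set G := (a : ℝ) / (c + 1) with hG
  have hG0 : 0 < G := by positivity
  filter_upwards [h.good, HC, h.vel (R + 3) (G ^ 2 / C) (by positivity),
    h.mass_le (isCompact_closedBall x (2 * s)) isOpen_ball
      (closedBall_subset_ball (by linarith : 2 * s < 3 * s)) (by positivity)
      (b := om 2 / 2 * s ^ 2) (by nlinarith [sq_pos_of_pos hs]) hκ] with i k1 k2 k3 k4
  have hfin := k1.finite
  have hv : ContinuousOn (fun z => ‖velM (M i) z‖) (M i) := k1.surf.continuousOn_vel.norm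
  have k5 : ∫ z in closedBall 0 (R + 1 + 1), ‖velM (M i) z‖ ∂(mu (M i)) ≤ G := by
    refine integral_le_of_lintegral k1.surf k1.closed hv (fun _ _ => norm_nonneg _)
      (isCompact_closedBall _ _) hG0.le ?_
    have k6 := lint_sqrt_le (μ := (mu (M i)).restrict (closedBall 0 (R + 1 + 1)))
      (f := fun z => ‖velM (M i) z‖ ^ 2) (a := G ^ 2 / C) (b := C) (by positivity) hC.le
      ((Vn_mono (closedBall_subset_ball (by linarith))).trans k3) (by simpa using k2)
    rw [← Real.sqrt_mul (by positivity), div_mul_cancel₀ _ hC.ne', Real.sqrt_sq hG0.le] at k6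
    simpa only [Real.sqrt_sq (norm_nonneg _)] using k6
  have k6 := bad_set (m := 2) (μ := mu (M i)) (lam := 1) (R := R + 1) (r₁ := 1) hΛ one_pos le_rfl
    (k1.ratio_real hΛ.le) (fun _ => norm_nonneg _)
    (integrableOn_mu k1.surf k1.closed hv (isCompact_closedBall _ _)) k5 (ball x s ∩ M i)
    (fun y hy => ?_)
  · have k7 : mu (M i) (ball x s) = mu (M i) (ball x s ∩ M i) := by
      rw [Measure.restrict_apply measurableSet_ball,
        Measure.restrict_apply (measurableSet_ball.inter k1.surf.measurableSet), inter_assoc,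
        inter_self]
    rw [k7]
    refine k6.trans (ENNReal.ofReal_le_ofReal ?_)
    rw [div_one, ← hc, hG, ← mul_div_assoc, div_le_iff₀ (by positivity)]
    nlinarith
  · have k7 : ‖y‖ ≤ R + 1 := by
      have := norm_le_norm_add_norm_sub' y x
      have k := hy.1
      rw [mem_ball, dist_eq_norm] at k
      linarith
    refine ⟨mem_closedBall_zero_iff.2 k7, ?_⟩
    by_contra hcon
    push Not at hcon
    have k8 := lower_area hΛ k1 hy.2 k7 hs hs1 hcon
    have k9 : (mu (M i)).real (closedBall y s) ≤ om 2 / 2 * s ^ 2 :=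
      ENNReal.toReal_le_of_le_ofReal (by positivity) ((measure_mono
        (closedBall_subset_closedBall' (by linarith [mem_ball.1 hy.1]))).trans k4)
    have k10 : (mu (M i)).real (closedBall y s) / s ^ 2 ≤ om 2 / 2 :=
      (div_le_iff₀ (by positivity)).2 k9
    rw [← hlam] at k8
    linarith

/-- the support of the limit is a Lebesgue null set -/
theorem Seq.null_support (h : Seq U M κ Λ) :
    (volume : Measure E3) {x | ∀ σ : ℝ, 0 < σ → κ (ball x σ) ≠ 0} = 0 := by
  have := h.lf
  have hom := om_pos 2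
  set Z := {x : E3 | ∀ σ : ℝ, 0 < σ → κ (ball x σ) ≠ 0} with hZ
  have h1 : Z = ⋃ n : ℕ, Z ∩ closedBall 0 n := by
    rw [← inter_iUnion, iUnion_closedBall_nat, inter_univ]
  rw [h1]
  refine measure_iUnion_null fun n => ?_
  obtain ⟨s₀, hs₀, hs1, H⟩ := h.clear n n.cast_nonneg
  set κ' := κ.restrict (ball 0 (n + 3)) with hκ'
  have hfin : IsFiniteMeasure κ' := ⟨by simpa [hκ'] using measure_ball_lt_top⟩
  set c := (volume : Measure E3).real (ball 0 1) * κ'.real univ with hc
  have hc0 : 0 ≤ c := by positivity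
  have key : ∀ s, 0 < s → s ≤ s₀ →
      volume (Z ∩ closedBall 0 n) ≤ ENNReal.ofReal (27 * c / (om 2 / 4) * s) := by
    intro s hs hss
    have k1 : MeasurableSet {q : E3 × E3 | dist q.2 q.1 < 3 * s} :=
      (isOpen_lt (by fun_prop) continuous_const).measurableSet
    have k2 : ∫⁻ x, κ' (ball x (3 * s)) = ENNReal.ofReal (27 * c * s ^ 3) := by
      have e1 := Measure.prod_apply (μ := (volume : Measure E3)) (ν := κ') k1
      have e2 := Measure.prod_apply_symm (μ := (volume : Measure E3)) (ν := κ') k1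
      have e3 : ∀ y : E3, (volume : Measure E3) ((fun x => (x, y)) ⁻¹'
          {q : E3 × E3 | dist q.2 q.1 < 3 * s}) = ENNReal.ofReal ((3 * s) ^ 3) * volume (ball (0 : E3) 1) := by
        intro y
        have : (fun x => (x, y)) ⁻¹' {q : E3 × E3 | dist q.2 q.1 < 3 * s} = ball y (3 * s) := by
          ext x; simp [dist_comm]
        rw [this, Measure.addHaar_ball _ _ (by positivity)]
        simp
      simp_rw [e3] at e2
      rw [lintegral_const] at e2
      refine (e1.symm.trans e2).trans ?_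
      rw [← ofReal_measureReal (μ := volume) (s := ball (0 : E3) 1) measure_ball_lt_top.ne,
        ← ofReal_measureReal (μ := κ') (s := univ), ← ENNReal.ofReal_mul (by positivity),
        ← ENNReal.ofReal_mul (by positivity), hc]
      congr 1; ring
    have k3 := meas_ge_le_lintegral_div (μ := (volume : Measure E3))
      (f := fun x => κ' (ball x (3 * s))) (measurable_measure_prodMk_left k1).aemeasurable
      (ε := ENNReal.ofReal (om 2 / 4 * s ^ 2)) (by simpa using by positivity) ENNReal.ofReal_ne_top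
    rw [k2, ← ENNReal.ofReal_div_of_pos (by positivity)] at k3
    refine le_trans (measure_mono fun x hx => ?_) (k3.trans (le_of_eq ?_))
    · have k4 : ball x (3 * s) ⊆ ball 0 (n + 3) :=
        ball_subset_ball' (by linarith [mem_closedBall.1 hx.2])
      simp only [mem_ofPred_eq, hκ']
      rw [Measure.restrict_apply measurableSet_ball, inter_eq_left.2 k4]
      by_contra k5
      exact hx.1 (s / 2) (by positivity) (measure_mono_null ball_subset_closedBall
        (H x s (mem_closedBall_zero_iff.1 hx.2) hs hss (not_le.1 k5).le))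
    · congr 1; field_simp
  refine le_antisymm (ENNReal.le_of_forall_pos_le_add fun a ha _ => ?_) zero_le
  rw [zero_add, ← ENNReal.ofReal_coe_nnreal]
  have ha' : (0 : ℝ) < a := ha
  set d := 27 * c / (om 2 / 4) with hd
  have hd0 : 0 ≤ d := by positivity
  refine (key (min s₀ (a / (d + 1))) (by positivity) (min_le_left _ _)).trans
    (ENNReal.ofReal_le_ofReal ?_)
  calc d * min s₀ (a / (d + 1)) ≤ d * (a / (d + 1)) := by gcongr; exact min_le_right _ _
    _ ≤ a := by rw [← mul_div_assoc, div_le_iff₀ (by positivity)]; nlinarith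

/-- directions in general position -/
lemma exists_dirs (N : ℕ) : ∃ (e : Fin N → E3) (β : ℝ), 0 < β ∧ β ≤ 1 ∧ (∀ l, ‖e l‖ = 1) ∧
    ∀ ν : E3, ‖ν‖ = 1 → (Finset.univ.filter fun l => |⟪ν, e l⟫| < β).card ≤ 2 := by
  set v : Fin N → E3 := fun l => !₂[1, (l : ℝ), (l : ℝ) ^ 2] with hv
  have hv0 : ∀ l, v l ≠ 0 := fun l h => by simpa [hv] using congrArg (fun x : E3 => x 0) h
  set e : Fin N → E3 := fun l => ‖v l‖⁻¹ • v l with he
  have h1 : ∀ (ν : E3) l, ⟪ν, e l⟫ = 0 → ν 0 + ν 1 * l + ν 2 * (l : ℝ) ^ 2 = 0 := by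
    intro ν l h
    rw [he, real_inner_smul_right, mul_eq_zero, inv_eq_zero, norm_eq_zero] at h
    have k := h.resolve_left (hv0 l)
    simp only [hv, PiLp.inner_apply, Fin.sum_univ_three] at k
    simp at k
    linarith
  have h2 : ∀ q : Fin N × Fin N × Fin N, ∀ᶠ β in 𝓝[>] (0 : ℝ), q.1 ≠ q.2.1 → q.1 ≠ q.2.2 →
      q.2.1 ≠ q.2.2 → ∀ ν : E3, ‖ν‖ = 1 →
        3 * β ≤ |⟪ν, e q.1⟫| + |⟪ν, e q.2.1⟫| + |⟪ν, e q.2.2⟫| := by
    rintro ⟨i, j, k⟩
    by_cases hq : i ≠ j ∧ i ≠ k ∧ j ≠ k
    swap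
    · exact Eventually.of_forall fun β a b c => absurd ⟨a, b, c⟩ hq
    obtain ⟨a, ha, H⟩ := (isCompact_sphere (0 : E3) 1).exists_forall_le'
      (f := fun ν => |⟪ν, e i⟫| + |⟪ν, e j⟫| + |⟪ν, e k⟫|) (by fun_prop) (a := 0) (fun ν hν => by
        by_contra hcon
        have a1 := abs_nonneg ⟪ν, e i⟫
        have a2 := abs_nonneg ⟪ν, e j⟫
        have a3 := abs_nonneg ⟪ν, e k⟫
        have b1 := h1 ν i (abs_eq_zero.1 (by linarith [not_lt.1 hcon]))
        have b2 := h1 ν j (abs_eq_zero.1 (by linarith [not_lt.1 hcon]))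
        have b3 := h1 ν k (abs_eq_zero.1 (by linarith [not_lt.1 hcon]))
        have hne : ∀ x y : Fin N, x ≠ y → (x : ℝ) - y ≠ 0 := fun x y h h' =>
          h (Fin.ext (by exact_mod_cast sub_eq_zero.1 h'))
        have c1 := hne i j hq.1
        have c2 := hne i k hq.2.1
        have c3 := hne j k hq.2.2
        have d2 : ν 2 = 0 := by
          have : ν 2 * ((i - j) * (i - k) * (j - k) : ℝ) = 0 := by
            linear_combination (j - k : ℝ) * b1 - (i - k : ℝ) * b2 + (i - j : ℝ) * b3
          simpa [c1, c2, c3] using this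
        have d1 : ν 1 = 0 := by
          have : ν 1 * (i - j : ℝ) = 0 := by rw [d2] at b1 b2; linear_combination b1 - b2
          simpa [c1] using this
        have d0 : ν 0 = 0 := by simpa [d1, d2] using b1
        have : ν = 0 := by
          ext t; fin_cases t <;> simp [d0, d1, d2]
        simp [this] at hν)
    filter_upwards [Ioo_mem_nhdsGT (show 0 < a / 3 by positivity)] with β hβ _ _ _ ν hν
    linarith [H ν (mem_sphere_zero_iff_norm.2 hν), hβ.2]
  obtain ⟨β, h3, h4⟩ := ((eventually_all.2 h2).and (Ioc_mem_nhdsGT one_pos)).exists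
  refine ⟨e, β, h4.1, h4.2, fun l => norm_smul_inv_norm (hv0 l), fun ν hν => ?_⟩
  by_contra hcon
  obtain ⟨i, j, k, hi, hj, hk, h5, h6, h7⟩ := Finset.two_lt_card_iff.1 (not_le.1 hcon)
  have := h3 (i, j, k) h5 h6 h7 ν hν
  simp only [Finset.mem_filter] at hi hj hk
  linarith [hi.2, hj.2, hk.2]

/-- pigeonhole among the directions -/
lemma exists_band {N : ℕ} (hN : 0 < N) {e : Fin N → E3} {β : ℝ}
    (h : ∀ ν : E3, ‖ν‖ = 1 → (Finset.univ.filter fun l => |⟪ν, e l⟫| < β).card ≤ 2)
    {M A : Set E3} (hM : Surf M) (hA : MeasurableSet A) {a : ℝ} (ha : 0 ≤ a)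
    (h1 : mu M A ≤ ENNReal.ofReal a) :
    ∃ l, mu M (A ∩ band M (e l) β) ≤ ENNReal.ofReal (2 * a / N) := by
  classical
  have hm : ∀ l, MeasurableSet (band M (e l) β) := fun l => measurableSet_band hM _ _
  have h2 : ∑ l, mu M (A ∩ band M (e l) β) ≤ ∑ l : Fin N, ENNReal.ofReal (2 * a / N) := by
    calc _ = ∫⁻ x in A, ∑ l, (band M (e l) β).indicator 1 x ∂(mu M) := by
          rw [lintegral_finsetSum _ fun l _ => measurable_one.indicator (hm l)]
          refine Finset.sum_congr rfl fun l _ => ?_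
          rw [lintegral_indicator_one (hm l), Measure.restrict_apply (hm l), inter_comm]
      _ ≤ ∫⁻ x in A, 2 ∂(mu M) := by
          refine lintegral_mono_ae ((ae_restrict_of_ae (ae_mem_mu hM)).mono fun x hx => ?_)
          have k1 : ∑ l, (band M (e l) β).indicator (1 : E3 → ℝ≥0∞) x
              = ((Finset.univ.filter fun l => |⟪nu M x, e l⟫| < β).card : ℝ≥0∞) := by
            rw [Finset.card_filter]
            push_cast
            refine Finset.sum_congr rfl fun l _ => ?_
            simp [indicator, band, hx]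
          rw [k1]
          exact_mod_cast h _ (hM.norm_nu hx)
      _ ≤ ENNReal.ofReal (2 * a) := by
          rw [setLIntegral_const]
          have := ofReal_mul_le (c := 2) (by norm_num) h1
          rwa [ENNReal.ofReal_ofNat] at this
      _ = _ := by
          rw [Finset.sum_const, Finset.card_univ, Fintype.card_fin, nsmul_eq_mul,
            ← ENNReal.ofReal_natCast, ← ENNReal.ofReal_mul (by positivity)]
          congr 1; field_simp
  obtain ⟨l, -, hl⟩ := ENNReal.exists_le_of_sum_le ⟨⟨0, hN⟩, Finset.mem_univ _⟩ h2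
  exact ⟨l, hl⟩

/-- two antipodal points outside the support -/
lemma Seq.exists_lids (h : Seq U M κ Λ) (p : E3) {V : Set E3} (hV : IsOpen V) (hne : V.Nonempty) :
    ∃ y ∈ V, ∃ s : ℝ, 0 < s ∧ κ (ball (p + y) s) = 0 ∧ κ (ball (p - y) s) = 0 := by
  have h1 := h.null_support
  set Z := {x : E3 | ∀ σ : ℝ, 0 < σ → κ (ball x σ) ≠ 0} with hZ
  have h2 : (volume : Measure E3) ((fun y => p + y) ⁻¹' Z) = 0 := by
    rw [measure_preimage_add]; exact h1
  have h3 : (volume : Measure E3) ((fun y => p - y) ⁻¹' Z) = 0 :=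
    (Measure.measurePreserving_sub_left volume p).quasiMeasurePreserving.preimage_null h1
  have h4 : ¬ V ⊆ (fun y => p + y) ⁻¹' Z ∪ (fun y => p - y) ⁻¹' Z := fun h5 =>
    (hV.measure_pos volume hne).ne' (measure_mono_null h5 (measure_union_null h2 h3))
  obtain ⟨y, hy, h5⟩ := not_subset.1 h4
  simp only [hZ, mem_union, mem_preimage, mem_ofPred_eq, not_or, not_forall, not_not] at h5
  obtain ⟨⟨s, hs, h6⟩, s', hs', h7⟩ := h5
  exact ⟨y, hy, min s s', lt_min hs hs',
    measure_mono_null (ball_subset_ball (min_le_left _ _)) h6,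
    measure_mono_null (ball_subset_ball (min_le_right _ _)) h7⟩

theorem holesStmt (hB : BandStmt) (hD : DGStmt) : HolesStmt := by
  intro ι U M κ Λ h p
  have hΛ := h.pos
  obtain ⟨δ, hδ, HD⟩ := hD Λ hΛ
  obtain ⟨N, hN⟩ := exists_nat_gt (2 * Λ / δ)
  have hN0 : (0 : ℝ) < N := lt_trans (by positivity) hN
  obtain ⟨e, β, hβ, hβ1, he, He⟩ := exists_dirs N
  obtain ⟨r₁, hr₁, H₁⟩ := h.small_band hB (b := β / 8) (b' := β / 4) (by positivity)
    (by linarith) p
  set c := δ * (β / 2 - β / 4) ^ 2 with hc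
  have hc0 : 0 < c := by rw [hc]; have : 0 < β / 2 - β / 4 := by linarith
                         positivity
  obtain ⟨r₂, hr₂, H₂⟩ := exists_punct U M h.energy p hc0
  obtain ⟨r, hr, hr1, hrr₁, hrr₂, hrc⟩ : ∃ r : ℝ, 0 < r ∧ r ≤ 1 ∧ r ≤ r₁ ∧ r ≤ r₂ ∧
      (1 + ‖p‖) ^ 2 / 2 ≤ c / r ^ 2 := by
    set r := min (min 1 r₁) (min r₂ (c / (1 + ‖p‖) ^ 2)) with hr
    have k0 : 0 < r := by positivity
    have k1 : r ≤ 1 := (min_le_left _ _).trans (min_le_left _ _)
    have k2 : r ≤ c / (1 + ‖p‖) ^ 2 := (min_le_right _ _).trans (min_le_right _ _)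
    refine ⟨r, k0, k1, (min_le_left _ _).trans (min_le_right _ _),
      (min_le_right _ _).trans (min_le_left _ _), ?_⟩
    rw [le_div_iff₀ (by positivity)] at k2 ⊢
    nlinarith [mul_le_mul_of_nonneg_left k1 (show 0 ≤ r * (1 + ‖p‖) ^ 2 by positivity)]
  obtain ⟨l, hl⟩ : ∃ l, ∀ᶠ i in (U : Filter ι),
      mu (M i) (ball p r ∩ band (M i) (e l) β) ≤ ENNReal.ofReal (δ * r ^ 2) := by
    refine Ultrafilter.eventually_exists_iff.1 (h.good.mono fun i hi => ?_)
    obtain ⟨l, hl⟩ := exists_band (by exact_mod_cast hN0) He hi.surf measurableSet_ball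
      (by positivity) ((measure_mono ball_subset_closedBall).trans (hi.ratio p r hr hr1))
    refine ⟨l, hl.trans (ENNReal.ofReal_le_ofReal ?_)⟩
    rw [div_lt_iff₀ hδ] at hN
    rw [div_le_iff₀ hN0]
    nlinarith [sq_pos_of_pos hr]
  obtain ⟨y, hy, s₀, hs₀, l1, l2⟩ := h.exists_lids p
    (isOpen_ball (x := (r / 16) • e l) (ε := r / 16 * (β / 4))) (nonempty_ball.2 (by positivity))
  rw [mem_ball, dist_eq_norm] at hy
  have hy1 : |‖y‖ - r / 16| < r / 16 * (β / 4) := by
    have := abs_norm_sub_norm_le y ((r / 16) • e l)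
    rw [norm_smul, he l, mul_one, Real.norm_of_nonneg (by positivity)] at this
    exact this.trans_lt hy
  have hy2 : r / 16 * (β / 4) ≤ r / 16 * (1 / 4) := by gcongr
  have hy3 : r / 32 < ‖y‖ := by linarith [(abs_lt.1 hy1).1]
  have hy4 : ‖y‖ < r / 8 := by linarith [(abs_lt.1 hy1).2]
  have hy0 : 0 < ‖y‖ := lt_trans (by positivity) hy3
  set n := ‖y‖⁻¹ • y with hn
  have hn1 : ‖n‖ = 1 := norm_smul_inv_norm (norm_pos_iff.1 hy0)
  have hyn : y = ‖y‖ • n := by rw [hn, smul_smul, mul_inv_cancel₀ hy0.ne', one_smul]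
  have hne : ‖n - e l‖ ≤ β / 2 := by
    have k1 : (r / 16) • (n - e l) = (r / 16 - ‖y‖) • n + (y - (r / 16) • e l) := by
      rw [sub_smul, ← hyn, smul_sub]; abel
    have k2 := norm_add_le ((r / 16 - ‖y‖) • n) (y - (r / 16) • e l)
    rw [← k1, norm_smul, norm_smul, hn1, mul_one, Real.norm_of_nonneg (by positivity),
      Real.norm_eq_abs, abs_sub_comm] at k2
    have k3 : r / 16 * ‖n - e l‖ ≤ r / 16 * (β / 2) := by linarith
    exact le_of_mul_le_mul_left k3 (by positivity)
  have hband : ∀ i, Surf (M i) → band (M i) n (β / 2) ⊆ band (M i) (e l) β := by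
    intro i hi x hx
    refine ⟨hx.1, ?_⟩
    have k1 : ⟪nu (M i) x, e l⟫ = ⟪nu (M i) x, n⟫ - ⟪nu (M i) x, n - e l⟫ := by
      rw [inner_sub_right]; ring
    have k2 := abs_real_inner_le_norm (nu (M i) x) (n - e l)
    rw [hi.norm_nu hx.1, one_mul] at k2
    rw [k1]
    linarith [abs_sub (⟪nu (M i) x, n⟫) ⟪nu (M i) x, n - e l⟫, hx.2]
  have S1 := H₁ n (r / 4) hn1 (by positivity) (by linarith) (fun t τ ht hτ => by
    obtain ⟨t', σ, ht', hσ, H₃⟩ := HD (β / 4) (β / 2) (by positivity) (by linarith) (by linarith)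
      τ t r hτ ht hr hr1
    filter_upwards [h.good, hl, H₂ t' ht', h.vel (1 + ‖p‖) (σ / 2) (by positivity)]
      with i k1 k2 k3 k4
    have k5 : ball p r ⊆ ball 0 (1 + ‖p‖) := ball_subset_ball' (by simpa using hr1)
    have k6 := H₃ (M i) p n k1 hn1
      ((measure_mono (inter_subset_inter_right _ (hband i k1.surf))).trans k2)
      ((En_mono (sdiff_subset_sdiff_left (ball_subset_ball hrr₂))).trans k3) (by
        calc _ ≤ ∫⁻ x in ball p r, ENNReal.ofReal (2 * ‖velM (M i) x‖ ^ 2) ∂(mu (M i)) := by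
              refine lintegral_mono_ae ?_
              filter_upwards [ae_restrict_of_ae (ae_mem_mu k1.surf),
                ae_restrict_mem measurableSet_ball] with x k7 k8
              refine ENNReal.ofReal_le_ofReal ?_
              have k9 := norm_Hv_sq_le k1.surf k7
              have k10 : ‖x‖ ^ 2 ≤ (1 + ‖p‖) ^ 2 :=
                pow_le_pow_left₀ (norm_nonneg x) (mem_ball_zero_iff.1 (k5 k8)).le 2
              linarith
          _ ≤ ENNReal.ofReal (2 * (σ / 2)) := by
              rw [lint_const_mul _ (by norm_num)]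
              exact ofReal_mul_le (by norm_num) ((Vn_mono k5).trans k4)
          _ = _ := by congr 1; ring)
    rwa [show 2 * (r / 4) = r / 2 by ring])
  set s := min s₀ (r / 32) with hs
  have hs0 : 0 < s := by positivity
  have hs1 : s ≤ s₀ := min_le_left _ _
  have hs2 : s ≤ r / 32 := min_le_right _ _
  have S2 := h.small_lid (isCompact_closedBall (p + y) (s / 2)) isOpen_ball
    (closedBall_subset_ball (by linarith)) l1
  have S3 := h.small_lid (isCompact_closedBall (p - y) (s / 2)) isOpen_ball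
    (closedBall_subset_ball (by linarith)) l2
  obtain ⟨f, hf⟩ := exists_frame finrank_E3 hn1
  refine ⟨f, s / 4, ‖y‖ - s / 4, ‖y‖ + s / 4, β / 8, by positivity, by linarith, by linarith,
    by positivity, (S1.union (S2.union S3)).mono (Eventually.of_forall fun i x hx => ?_)⟩
  obtain ⟨k1, k2, k3, k4⟩ := hx
  have k5 : ∀ a : ℝ, ‖x - p - a • n‖ ≤ s / 4 + |⟪f.n, x - p⟫ - a| := by
    intro a
    have e1 : x - p - a • n = f.ι (f.π (x - p)) + (⟪f.n, x - p⟫ - a) • f.n := by
      rw [f.ι_π, sub_smul, hf]; abel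
    rw [e1]
    refine (norm_add_le _ _).trans ?_
    rw [f.norm_ι, norm_smul, f.norm_n, mul_one, Real.norm_eq_abs]
    linarith
  rcases k4 with k4 | k4
  · refine Or.inl ⟨?_, k1, hf ▸ k4⟩
    have := k5 0
    rw [zero_smul, sub_zero, sub_zero] at this
    rw [mem_closedBall, dist_eq_norm]
    linarith
  · rcases le_abs'.1 k4 with k6 | k6
    · refine Or.inr (Or.inr ⟨k1, ?_⟩)
      have k7 := k5 (-‖y‖)
      rw [neg_smul, ← hyn] at k7
      have k8 : |⟪f.n, x - p⟫ - -‖y‖| ≤ s / 4 :=
        abs_le.2 ⟨by linarith [(abs_le.1 k3).1], by linarith⟩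
      rw [mem_closedBall, dist_eq_norm, show x - (p - y) = x - p - -y by abel]
      linarith
    · refine Or.inr (Or.inl ⟨k1, ?_⟩)
      have k7 := k5 ‖y‖
      rw [← hyn] at k7
      have k8 : |⟪f.n, x - p⟫ - ‖y‖| ≤ s / 4 :=
        abs_le.2 ⟨by linarith, by linarith [(abs_le.1 k3).2]⟩
      rw [mem_closedBall, dist_eq_norm, show x - (p + y) = x - p - y by abel]
      linarith

end Vale.Agent.P218N.B
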