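import Vale.Agent.P218N.B.Limit2

/-! The limit in a cylinder is a sum of ordered smooth graphs. -/

open MeasureTheory Set Filter Topology Metric
open scoped ENNReal NNReal RealInnerProductSpace ContDiff

namespace Vale.Agent.P218N.B

open Vale.Agent.P218.H313 Vale.Agent.P218N.H Vale.Agent.P218N.G
open Vale.Agent.P218GA (cH cH_pos')

set_option linter.unusedSectionVars false
set_option linter.unusedVariables false

lemma Seq.comp {ι ι' : Type} {U : Ultrafilter ι} {U' : Ultrafilter ι'} {M : ι → Set E3}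
    {κ : Measure E3} {Λ : ℝ} (h : Seq U M κ Λ) {g : ι' → ι} (hg : Tendsto g U' U) :
    Seq U' (fun j => M (g j)) κ Λ where
  pos := h.pos
  good := hg.eventually h.good
  energy R := (h.energy R).imp fun _ hC => hg.eventually hC
  vel R ε hε := hg.eventually (h.vel R ε hε)
  lf := h.lf
  lim φ h1 h2 := (h.lim φ h1 h2).comp hg

/-- refinement of the index set so that a rate can be chosen -/
lemma exists_index {ι : Type} (U : Ultrafilter ι) {P : ι → ℝ → Prop}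
    (h : ∀ ε : ℝ, 0 < ε → ∀ᶠ i in (U : Filter ι), P i ε) :
    ∃ U' : Ultrafilter (ι × ℝ), Tendsto (fun j : ι × ℝ => j.1) U' U ∧
      Tendsto (fun j : ι × ℝ => j.2) U' (𝓝 0) ∧ ∀ᶠ j in (U' : Filter (ι × ℝ)), P j.1 j.2 := by
  have hne : (((U : Filter ι) ×ˢ 𝓝 (0 : ℝ)) ⊓ 𝓟 {j | P j.1 j.2}).NeBot := by
    rw [← frequently_mem_iff_neBot, frequently_iff]
    intro A hA
    obtain ⟨A₁, h1, A₂, h2, h3⟩ := mem_prod_iff.1 hA
    have h4 : ∀ᶠ ε in 𝓝[>] (0 : ℝ), ε ∈ A₂ := mem_nhdsWithin_of_mem_nhds h2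
    obtain ⟨ε, hε2, hε⟩ : ∃ ε ∈ A₂, 0 < ε := (h4.and self_mem_nhdsWithin).exists
    obtain ⟨i, hi1, hi2⟩ := ((h ε hε).and h1).exists
    exact ⟨(i, ε), h3 (mk_mem_prod hi2 hε2), hi1⟩
  have hle := Ultrafilter.of_le (((U : Filter ι) ×ˢ 𝓝 (0 : ℝ)) ⊓ 𝓟 {j | P j.1 j.2})
  exact ⟨_, tendsto_fst.mono_left (hle.trans inf_le_left),
    tendsto_snd.mono_left (hle.trans inf_le_left),
    (hle.trans inf_le_right) (mem_principal_self _)⟩

namespace Lim

variable {ι : Type} {U : Ultrafilter ι} {M : ι → Set E3} {κ : Measure E3} {Λ : ℝ}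
  {f : Frame 2 E3} {p : E3} {ρ h' h L : ℝ} {K : ι → Set E3} {s : ι → Finset (E2 × ℝ)}
  {τ : ι → ℕ → E2 → ℝ}

lemma ev_vol {kk : ι → ℕ}
    (hS : ∀ᶠ i in (U : Filter ι), Sheets ⊤ (M i) (K i) (Ph f p) ρ h' h L (s i) (kk i) (τ i))
    (hs : ∀ δ : ℝ, 0 < δ → ∀ᶠ i in (U : Filter ι), ∑ c ∈ s i, c.2 ≤ δ) {ε : ℝ} (hε : 0 < ε) :
    ∀ᶠ i in (U : Filter ι),
      volume (⋃ c ∈ s i, closedBall c.1 (3 * c.2)) ≤ ENNReal.ofReal ε := by
  have hπ := Real.pi_pos
  filter_upwards [hS, hs (min 1 (ε / (9 * Real.pi))) (by positivity)] with i S hi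
  refine (vol_holes S.pos hi (min_le_left _ _)).trans (ENNReal.ofReal_le_ofReal ?_)
  calc 9 * Real.pi * min 1 (ε / (9 * Real.pi)) ≤ 9 * Real.pi * (ε / (9 * Real.pi)) := by
        gcongr; exact min_le_right _ _
    _ = ε := by field_simp

/-- the number of sheets is eventually constant -/
lemma exists_k (hM : Seq U M κ Λ) (hρ : 0 < ρ) (hh : h' < h) {kk : ι → ℕ}
    (hS : ∀ᶠ i in (U : Filter ι), Sheets ⊤ (M i) (K i) (Ph f p) ρ h' h L (s i) (kk i) (τ i))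
    (hs : ∀ δ : ℝ, 0 < δ → ∀ᶠ i in (U : Filter ι), ∑ c ∈ s i, c.2 ≤ δ) :
    ∃ k, ∀ᶠ i in (U : Filter ι), kk i = k := by
  have hπ := Real.pi_pos
  have hc := cH_pos' 2
  obtain ⟨A, hA, hm⟩ := exists_mass U (hM.good.mono fun i hi => hi.finite) hM.lim (‖p‖ + ρ + h)
  obtain ⟨a, ha⟩ : ∃ a : ℝ, a = ρ ^ 2 * Real.pi / 2 := ⟨_, rfl⟩
  have ha0 : 0 < a := by rw [ha]; positivity
  obtain ⟨N, hN⟩ := exists_nat_ge (A / (cH 2 * a))
  have h1 : ∀ᶠ i in (U : Filter ι), ∃ k ∈ Iic N, kk i = k := by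
    filter_upwards [hS, ev_vol hS hs ha0, hm, hM.good] with i S h2 h3 h4
    refine ⟨_, ?_, rfl⟩
    have hf := h4.finite
    have k1 : ENNReal.ofReal a + ENNReal.ofReal a ≤ volume (GG ρ (s i)) + ENNReal.ofReal a := by
      rw [← ENNReal.ofReal_add ha0.le ha0.le, show a + a = ρ ^ 2 * Real.pi by rw [ha]; ring,
        ENNReal.ofReal_mul (by positivity), ENNReal.ofReal_pow hρ.le,
        ← EuclideanSpace.volume_ball_fin_two (0 : E2) ρ]
      refine (measure_le_inter_add_sdiff _ _ (GG ρ (s i))).trans (add_le_add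
        (measure_mono inter_subset_right) ((measure_mono (sdiff_GG S.pos ρ)).trans h2))
    have k2 := (ENNReal.add_le_add_iff_right ENNReal.ofReal_ne_top).1 k1
    have k3 : (kk i : ℝ≥0∞) * (ENNReal.ofReal (cH 2) * ENNReal.ofReal a) ≤ ENNReal.ofReal A := by
      refine le_trans (by gcongr) ((sh_count S hh).trans
        ((measure_mono ball_subset_closedBall).trans ?_))
      rw [← ofReal_measureReal (isCompact_closedBall _ _).measure_lt_top.ne]
      exact ENNReal.ofReal_le_ofReal h3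
    rw [← ENNReal.ofReal_mul hc.le, ← ENNReal.ofReal_natCast,
      ← ENNReal.ofReal_mul (Nat.cast_nonneg _), ENNReal.ofReal_le_ofReal_iff hA.le,
      ← le_div_iff₀ (by positivity)] at k3
    exact_mod_cast k3.trans hN
  obtain ⟨k, -, hk⟩ := (Ultrafilter.eventually_exists_mem_iff (finite_Iic N)).1 h1
  exact ⟨k, hk⟩

variable {k : ℕ} {v : ℕ → E2 → ℝ}

/-- every sheet is an almost solution -/
lemma approx (hE : EtaStmt) (hG : GraphStmt) (hM : Seq U M κ Λ) (hh : h' < h) (hL : 0 ≤ L)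
    (hS : ∀ᶠ i in (U : Filter ι), Sheets ⊤ (M i) (K i) (Ph f p) ρ h' h L (s i) k (τ i))
    (hs : ∀ δ : ℝ, 0 < δ → ∀ᶠ i in (U : Filter ι), ∑ c ∈ s i, c.2 ≤ δ)
    (hv : ∀ l y, Tendsto (fun i => τ i l y) U (𝓝 (v l y))) {l : ℕ} (hl : l < k) :
    ∃ C η, Approx U ρ L C (f.π p) ⟪f.n, p⟫ (fun i => τ i l) (fun i => GG ρ (s i)) η (v l) := by
  obtain ⟨C₁, hC₁, hη⟩ := hE
  obtain ⟨η, hη'⟩ := (hS.mono fun i S => hη (s i) S.pos).choice
  obtain ⟨C₂, hC₂⟩ := hM.energy (‖p‖ + ρ + h)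
  have hc := cH_pos' 2
  refine ⟨(1 + L ^ 2) ^ 3 / cH 2 * C₂, η, ?_, hS.mono fun i S => S.lip l, ?_, ?_, ?_, hv l⟩
  · exact hS.mono fun i S => ⟨isOpen_GG _ _, GG_subset _ _, S.smooth l hl⟩
  · filter_upwards [hS, hη'] with i S ⟨a1, a2, a3, a4, _⟩
    refine ⟨a1, a2, a3, fun y hy hy' => ?_⟩
    have h3 : y ∈ ⋃ c ∈ s i, closedBall c.1 c.2 := by
      by_contra h
      exact hy' ⟨hy, h⟩
    obtain ⟨c, hc, hyc⟩ := mem_iUnion₂.1 h3
    have h4 : y ∈ ball c.1 (2 * c.2) :=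
      closedBall_subset_ball (by linarith [S.pos c hc]) hyc
    filter_upwards [isOpen_ball.mem_nhds h4] using a4 c hc
  · filter_upwards [hS, hC₂, hM.good] with i S h1 h2
    exact sh_lint S hh hl (by positivity) (fun y hy => (sh_geom hG h2.surf hL S hh hl hy).1) h1
  · intro ε hε
    have hA : 0 < (1 + L ^ 2) / cH 2 := by positivity
    filter_upwards [hS, hη', hs (ε / C₁) (by positivity), ev_vol hS hs hε, hM.good,
      hM.vel (‖p‖ + ρ + h) (ε / ((1 + L ^ 2) / cH 2)) (by positivity)]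
      with i S ⟨_, _, _, _, a5, a6⟩ h1 h2 h3 h4
    refine ⟨(setLIntegral_le_lintegral _ _).trans (a6.trans (ENNReal.ofReal_le_ofReal ?_)),
      (measure_mono fun y hy => ?_).trans h2, ?_⟩
    · rwa [← le_div_iff₀' hC₁]
    · by_contra hn
      exact hy.2 (a5 y fun c hc hb => hn (mem_iUnion₂.2 ⟨c, hc, ball_subset_closedBall hb⟩))
    · have := sh_lint S hh hl (by positivity)
        (fun y hy => (sh_geom hG h3.surf hL S hh hl hy).2) h4
      rwa [mul_div_cancel₀ _ hA.ne'] at this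

/-- test functions which vanish off the cylinder only see the sheets -/
lemma tendsto_sheets (hH : HoleMassStmt) (hM : Seq U M κ Λ) (hh0 : 0 < h) (hh : h' < h)
    (hS : ∀ᶠ i in (U : Filter ι), Sheets ⊤ (M i) (K i) (Ph f p) ρ h' h L (s i) k (τ i))
    (hs : ∀ δ : ℝ, 0 < δ → ∀ᶠ i in (U : Filter ι), ∑ c ∈ s i, c.2 ≤ δ)
    {ψ : E3 → ℝ} (hψ : Continuous ψ) (hψc : HasCompactSupport ψ)
    (hz : ∀ x, x ∉ f.cyl p ρ h → ψ x = 0) :
    Tendsto (fun i => ∑ l ∈ Finset.range k,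
      ∫ y in GG ρ (s i), gJ (τ i l) y * ψ (f.gr p (τ i l) y)) U (𝓝 (∫ x, ψ x ∂κ)) := by
  obtain ⟨C, r₀, hC, hr₀, hm⟩ := hH Λ 1 h hM.pos one_pos hh0
  obtain ⟨B, hB⟩ := hψc.exists_bound_of_continuous hψ
  have hB0 : 0 ≤ B := (norm_nonneg _).trans (hB 0)
  refine (hM.lim ψ hψ hψc).congr_dist ?_
  rw [Metric.tendsto_nhds]
  intro ε hε
  obtain ⟨δ, hδ, hδ1, hδ2⟩ : ∃ δ : ℝ, 0 < δ ∧ δ ≤ r₀ ∧ B * (C * δ) < ε := by
    refine ⟨min r₀ (ε / (B * C + 1)), by positivity, min_le_left _ _, ?_⟩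
    calc B * (C * min r₀ (ε / (B * C + 1))) ≤ B * (C * (ε / (B * C + 1))) := by
          gcongr; exact min_le_right _ _
      _ < ε := by
          rw [← mul_assoc, ← mul_div_assoc, div_lt_iff₀ (by positivity)]
          nlinarith
  filter_upwards [hS, hs δ hδ, hM.good] with i S h1 h2
  have hf := h2.finite
  have hi : Integrable ψ (mu (M i)) := hψ.integrable_of_hasCompactSupport hψc
  have hT := measurableSet_tube (f := f) (p := p) (isOpen_GG ρ (s i)).measurableSet h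
  have h3 := mass_holes (f := f) (p := p) (ρ := ρ) S.pos hC h1 fun z r hr hrδ =>
    hm (M i) (Ph f p) univ z r h2 hr (hrδ.trans hδ1) fun y _ y' _ t t' _ _ => Ph_lip y y' t t'
  have h4 : ∫ x in tube f p (GG ρ (s i)) h, ψ x ∂(mu (M i)) = ∑ l ∈ Finset.range k,
      ∫ y in GG ρ (s i), gJ (τ i l) y * ψ (f.gr p (τ i l) y) := by
    have k1 : Integrable ψ (∑ l ∈ Finset.range k, mu (f.gr p (τ i l) '' GG ρ (s i))) :=
      sh_restrict S hh ▸ hi.integrableOn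
    rw [sh_restrict S hh, integral_finsetSum_measure (integrable_finsetSum_measure.1 k1)]
    exact Finset.sum_congr rfl fun l hl => integral_gr' (isOpen_GG _ _)
      (sh_c1 S (Finset.mem_range.1 hl)) (isOpen_GG _ _).measurableSet subset_rfl ψ
  have h5 : ∫ x in (tube f p (GG ρ (s i)) h)ᶜ, ψ x ∂(mu (M i))
      = ∫ x in f.cyl p ρ h \ tube f p (GG ρ (s i)) h, ψ x ∂(mu (M i)) := by
    refine setIntegral_eq_of_subset_of_forall_sdiff_eq_zero hT.compl (fun x hx => hx.2)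
      fun x hx => hz x fun hc => hx.2 ⟨hc, hx.1⟩
  have h6 := (norm_setIntegral_le_of_norm_le_const (f := ψ) (h3.trans_lt ENNReal.ofReal_lt_top)
    fun x _ => hB x).trans (mul_le_mul_of_nonneg_left
      (ENNReal.toReal_le_of_le_ofReal (by positivity) h3) hB0)
  rw [Real.dist_eq, sub_zero, abs_of_nonneg dist_nonneg, ← h4, ← integral_add_compl hT hi,
    dist_eq_norm, add_sub_cancel_left, h5]
  exact h6.trans_lt hδ2

theorem limit_of_sheets (hE : EtaStmt) (hH : HoleMassStmt) (hG : GraphStmt) (hP : PlaneStmt)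
    (hM : Seq U M κ Λ) (hh' : 0 < h') (hh : h' < h) (hL : 0 ≤ L)
    (hS : ∀ᶠ i in (U : Filter ι), Sheets ⊤ (M i) (K i) (Ph f p) ρ h' h L (s i) k (τ i))
    (hs : ∀ δ : ℝ, 0 < δ → ∀ᶠ i in (U : Filter ι), ∑ c ∈ s i, c.2 ≤ δ) :
    ∃ v : ℕ → E2 → ℝ, (∀ l < k, ContDiffOn ℝ ∞ (v l) (ball 0 ρ) ∧
      ∀ y ∈ ball (0 : E2) ρ, res (f.π p) ⟪f.n, p⟫ (v l) y = 0) ∧ (∀ l y, |v l y| ≤ h') ∧
      (∀ y, Monotone fun l => v l y) ∧
      (∀ l y, Tendsto (fun i => τ i l y) U (𝓝 (v l y))) ∧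
      κ.restrict (f.cyl p ρ h) = ∑ l ∈ Finset.range k, mu (f.gr p (v l) '' ball 0 ρ) := by
  have hex : ∀ l y, ∃ x ∈ Icc (-h') h', Tendsto (fun i => τ i l y) U (𝓝 x) := fun l y =>
    isCompact_Icc.ultrafilter_le_nhds (U.map fun i => τ i l y)
      (le_principal_iff.2 (hS.mono fun i S => abs_le.1 (S.bd l y)))
  choose v hvb hv using hex
  have hlip : ∀ l y y', |v l y - v l y'| ≤ L * ‖y - y'‖ := fun l y y' =>
    le_of_tendsto ((hv l y).sub (hv l y')).abs (hS.mono fun i S => S.lip l y y')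
  have hpl : ∀ l < k, ContDiffOn ℝ ∞ (v l) (ball 0 ρ) ∧
      (∀ y ∈ ball (0 : E2) ρ, res (f.π p) ⟪f.n, p⟫ (v l) y = 0) ∧
      ∀ ε : ℝ, 0 < ε → ∀ᶠ i in (U : Filter ι),
        ∫⁻ y in GG ρ (s i), ‖grad (τ i l) y - grad (v l) y‖ₑ ≤ ENNReal.ofReal ε := by
    intro l hl
    obtain ⟨C, η, hA⟩ := approx hE hG hM hh hL hS hs hv hl
    exact hP ι U ρ L C _ _ _ _ η _ hA
  refine ⟨v, fun l hl => ⟨(hpl l hl).1, (hpl l hl).2.1⟩, fun l y => abs_le.2 (hvb l y),
    fun y l l' hll => le_of_tendsto_of_tendsto (hv l y) (hv l' y)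
      (hS.mono fun i S => S.mono y hll), hv, ?_⟩
  have hc1 : ∀ l ∈ Finset.range k, ContDiffOn ℝ 1 (v l) (ball 0 ρ) := fun l hl =>
    (hpl l (Finset.mem_range.1 hl)).1.of_le (by exact_mod_cast le_top)
  have hfin : ∀ l ∈ Finset.range k, IsFiniteMeasure (mu (f.gr p (v l) '' ball 0 ρ)) := by
    intro l hl
    refine ⟨?_⟩
    rw [← lintegral_one, lintegral_gr' isOpen_ball (hc1 l hl) measurableSet_ball subset_rfl]
    refine lt_of_le_of_lt (lintegral_mono (g := fun _ => ENNReal.ofReal (cH 2 * √(1 + L ^ 2)))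
      fun y => ?_) ?_
    · rw [mul_one]
      exact ENNReal.ofReal_le_ofReal (gJ_le hL (hlip l) y)
    · rw [setLIntegral_const]
      exact ENNReal.mul_lt_top ENNReal.ofReal_lt_top measure_ball_lt_top
  have hfin' : IsFiniteMeasure (∑ l ∈ Finset.range k, mu (f.gr p (v l) '' ball 0 ρ)) := by
    refine ⟨?_⟩
    rw [Measure.finsetSum_apply]
    exact ENNReal.sum_lt_top.2 fun l hl => (hfin l hl).measure_univ_lt_top
  have hlf := hM.lf
  have hO := (f.isOpen_cyl p ρ h).measurableSet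
  have key := restrict_ext (μ := κ) (ν := ∑ l ∈ Finset.range k, mu (f.gr p (v l) '' ball 0 ρ)) hO
    (d := fun x => max 0 (min (ρ - ‖f.π (x - p)‖) (h - |⟪f.n, x - p⟫|))) (by fun_prop)
    (fun x => le_max_left _ _) (fun x => by simp [Frame.cyl]) fun ψ hψ hψc hz => by
      refine tendsto_nhds_unique (tendsto_sheets hH hM (hh'.trans hh) hh hS hs hψ hψc hz) ?_
      rw [integral_finsetSum_measure fun l hl => by
        have := hfin l hl
        exact hψ.integrable_of_hasCompactSupport hψc]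
      refine tendsto_finsetSum _ fun l hl => ?_
      rw [integral_gr' isOpen_ball (hc1 l hl) measurableSet_ball subset_rfl]
      exact plane_conv hL
        (Eventually.of_forall fun i => ⟨(isOpen_GG _ _).measurableSet, GG_subset _ _⟩)
        (hS.mono fun i S => S.lip l) (hlip l) (hv l) (hpl l (Finset.mem_range.1 hl)).2.2
        (fun ε hε => by
          filter_upwards [hS, ev_vol hS hs hε] with i S hi
          exact (measure_mono (sdiff_GG S.pos ρ)).trans hi) hψ hψc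
  rw [key]
  ext A hA
  rw [Measure.restrict_apply hA, Measure.finsetSum_apply, Measure.finsetSum_apply]
  refine Finset.sum_congr rfl fun l _ => ?_
  have hsub : f.gr p (v l) '' ball 0 ρ ⊆ f.cyl p ρ h := by
    rintro _ ⟨y, hy, rfl⟩
    exact ⟨by rw [f.π_gr]; exact mem_ball_zero_iff.1 hy,
      by rw [f.inner_gr]; exact (abs_le.2 (hvb l y)).trans_lt hh⟩
  rw [Measure.restrict_apply (hA.inter hO), Measure.restrict_apply hA, inter_assoc,
    inter_eq_right.2 hsub]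

/-- sheets over a frame, once a rate for the coverings is given -/
lemma exists_sheets (hSh : SheetStmt) (hM : Seq U M κ Λ) {b : ℝ} (hρ : 0 < ρ) (hh' : 0 < h')
    (hh : h' < h) (hb : 0 < b) {e : ι → ℝ} (he : Tendsto e U (𝓝 0))
    (hc : ∀ᶠ i in (U : Filter ι), Cov (Bad (M i) f p (2 * ρ) h' h b) (e i)) :
    ∃ (L : ℝ) (s : ι → Finset (E2 × ℝ)) (k : ℕ) (τ : ι → ℕ → E2 → ℝ), 0 < L ∧
      (∀ᶠ i in (U : Filter ι),
        Sheets ⊤ (M i) (Bad (M i) f p (2 * ρ) h' h b) (Ph f p) ρ h' h L (s i) k (τ i)) ∧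
      ∀ δ : ℝ, 0 < δ → ∀ᶠ i in (U : Filter ι), ∑ c ∈ s i, c.2 ≤ δ := by
  obtain ⟨c₀, C, L, hc₀, hC, hL, H⟩ := hSh 1 1 b one_pos one_pos hb
  have h1 : ∀ᶠ i in (U : Filter ι), ∃ d : Finset (E2 × ℝ) × ℕ × (ℕ → E2 → ℝ),
      ∑ c ∈ d.1, c.2 ≤ C * e i ∧
        Sheets ⊤ (M i) (Bad (M i) f p (2 * ρ) h' h b) (Ph f p) ρ h' h L d.1 d.2.1 d.2.2 := by
    filter_upwards [hc, hM.good, he.eventually_le_const hc₀] with i k1 k2 k3
    obtain ⟨s, k, τ, k4⟩ := H ⊤ (M i) _ (Ph f p) ρ h' h (e i) le_top k2.surf k2.closed contDiff_Ph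
      hρ hh'.le hh k3 k1 (fun z _ z' _ t t' _ _ => norm_le_Ph z z' t t')
      (fun z _ t _ w => by rw [fderiv_Ph, zero_smul, add_zero, f.norm_ι, one_mul])
      (fun z hz t ht hx hn => by
        rw [fderiv_Ph, map_zero, zero_add, one_smul]
        by_contra hcon
        refine hn ⟨hx, by rw [π_Ph]; exact (mem_ball_zero_iff.1 hz).le, by rwa [inner_Ph], ?_⟩
        rw [inner_Ph]
        rcases not_and_or.1 hcon with h2 | h2
        · exact Or.inr (not_le.1 h2).le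
        · exact Or.inl (not_le.1 h2).le)
    exact ⟨(s, k, τ), k4⟩
  obtain ⟨d, hd⟩ := h1.choice
  have hs : ∀ δ : ℝ, 0 < δ → ∀ᶠ i in (U : Filter ι), ∑ c ∈ (d i).1, c.2 ≤ δ := by
    intro δ hδ
    have h2 : Tendsto (fun i => C * e i) U (𝓝 0) := by simpa using he.const_mul C
    filter_upwards [hd, h2.eventually_le_const hδ] with i k1 k2 using k1.1.trans k2
  obtain ⟨k, hk⟩ := exists_k hM hρ hh (hd.mono fun i hi => hi.2) hs
  refine ⟨L, fun i => (d i).1, k, fun i => (d i).2.2, hL, ?_, hs⟩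
  filter_upwards [hd, hk] with i k1 k2 using k2 ▸ k1.2

end Lim

/-- **the limit in a cylinder** -/
theorem limitStmt (hSh : SheetStmt) (hE : EtaStmt) (hH : HoleMassStmt) (hG : GraphStmt)
    (hP : PlaneStmt) : LimitStmt := by
  intro ι U M κ Λ hM f p ρ h' h b hρ hh' hh hb hc
  obtain ⟨U', h1, h2, h3⟩ := exists_index U hc
  have hM' := hM.comp h1
  obtain ⟨L, s, k, τ, hL, hS, hs⟩ := Lim.exists_sheets hSh hM' hρ hh' hh hb h2 h3
  obtain ⟨v, k1, k2, k3, -, k4⟩ := Lim.limit_of_sheets hE hH hG hP hM' hh' hh hL.le hS hs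
  exact ⟨k, v, k1, k2, k3, k4⟩

end Vale.Agent.P218N.B
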