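import Vale.Agent.P218N.B.PlaneC
import Vale.Agent.P218N.B.Limit1
import Vale.Agent.P247.H832.R1T

/-! The limit of almost solutions is a smooth solution of the shrinker equation. -/

open MeasureTheory Set Filter Topology Metric
open scoped ENNReal NNReal RealInnerProductSpace ContDiff ComplexConjugate

namespace Vale.Agent.P218N.B

open Vale.Agent.P218.H313 Vale.Agent.P218N.H
open Complex (I)

set_option linter.unusedSectionVars false
set_option linter.unusedVariables false

namespace Pl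

lemma mem_of_ae {F : Type*} [TopologicalSpace F] {O : Set ℂ} (hO : IsOpen O) {f : ℂ → F}
    (hf : ContinuousOn f O) {S : Set F} (hS : IsClosed S) (h : ∀ᵐ z, z ∈ O → f z ∈ S) :
    ∀ z ∈ O, f z ∈ S := by
  intro z hz
  by_contra hn
  refine ((hf.isOpen_inter_preimage hO hS.isOpen_compl).measure_pos volume ⟨z, hz, hn⟩).ne' ?_
  refine measure_mono_null (fun y hy => ?_) (ae_iff.1 h)
  exact fun hy' => hy.2 (hy' hy.1)

lemma int_cut {O : Set ℂ} {f : ℂ → ℂ} (hf : LocallyIntegrableOn f O) {φ : ℂ → ℝ}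
    (hφ : Continuous φ) (hφc : HasCompactSupport φ) (hs : tsupport φ ⊆ O) :
    Integrable fun z => φ z • f z :=
  (integrableOn_iff_integrable_of_support_subset
    ((Function.support_smul_subset_left φ f).trans (subset_tsupport φ))).1
    ((hf.integrableOn_compact_subset hs hφc).continuousOn_smul hφ.continuousOn hφc)

lemma int_congr {O : Set ℂ} {f g : ℂ → ℂ} (h : ∀ᵐ z, z ∈ O → f z = g z) {φ : ℂ → ℝ}
    (hs : tsupport φ ⊆ O) (w : ℂ) :
    ∫ z, fderiv ℝ φ z w • f z = ∫ z, fderiv ℝ φ z w • g z := by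
  refine integral_congr_ae (h.mono fun z hz => ?_)
  by_cases hO : z ∈ O
  · simp only [hz hO]
  · simp [fderiv_of_notMem_tsupport ℝ fun h => hO (hs h)]

variable {ι : Type} {U : Ultrafilter ι} {ρ L C : ℝ} {a : ℂ} {c : ℝ} {u : ι → ℂ → ℝ}
  {G : ι → Set ℂ} {v : ℂ → ℝ} {Y₀ : ℂ → ℂ} {D : ℂ → ℂ →L[ℝ] ℂ}

lemma loc {f : ℂ → ℂ} (h : MemLp f 2 (volume.restrict (ball 0 ρ))) :
    ∀ K ⊆ ball (0 : ℂ) ρ, IsCompact K → MemLp f 2 (volume.restrict K) := fun K hK _ =>
  h.mono_measure (Measure.restrict_mono hK le_rfl)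

/-- the limit is smooth -/
lemma ApC.smooth (hB : BeltStmt) (h : ApC U ρ L C a c u G v) (o : Out U ρ L u G Y₀ D) :
    ContDiffOn ℝ ∞ v (ball 0 ρ) := by
  obtain ⟨-, B, hBd⟩ := h.Af_bd o
  have hk := k_lt h.hL
  have hk0 : 0 ≤ L / (1 + L) := by have := h.hL; positivity
  have d1 := o.memLp.continuousLinearMap_comp (ContinuousLinearMap.apply ℝ ℂ (1 : ℂ))
  have d2 := (o.memLp.continuousLinearMap_comp (ContinuousLinearMap.apply ℝ ℂ I)).const_mul I
  have hP : MemLp (fun z => pz (D z)) 2 (volume.restrict (ball 0 ρ)) := by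
    simpa [pz, div_eq_mul_inv] using (d1.sub d2).mul_const 2⁻¹
  have hQ : MemLp (fun z => pzb (D z)) 2 (volume.restrict (ball 0 ρ)) := by
    simpa [pzb, div_eq_mul_inv] using (d1.add d2).mul_const 2⁻¹
  have hwd : ∀ φ : ℂ → ℝ, ContDiff ℝ ∞ φ → HasCompactSupport φ → tsupport φ ⊆ ball 0 ρ →
      ∀ w : ℂ, ∫ z, fderiv ℝ φ z w • Y₀ z
        = - ∫ z, φ z • (pz (D z) * w + pzb (D z) * conj w) := fun φ h1 h2 h3 w => by
    simp only [← D_eq]
    exact o.wd φ h1 h2 h3 w
  obtain ⟨Y, hY, hYe⟩ := hB (ball 0 ρ) Y₀ _ _ ((L / (1 + L)) ^ 2) B isOpen_ball (by positivity)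
    (pow_lt_one₀ hk0 hk two_ne_zero)
    (loc (memLp_bdd o.meas.aestronglyMeasurable (fun z _ => o.bd z) 2)) (loc hP) (loc hQ) hwd (by
      filter_upwards [h.eqn o] with z hz hzb
      rw [hz hzb]
      refine (norm_add_le _ _).trans (add_le_add ?_ (hBd z hzb))
      rw [norm_mul, norm_pow, Complex.norm_conj]
      gcongr
      exact o.bd z)
  have hYb := mem_of_ae isOpen_ball hY (isClosed_closedBall (x := 0) (ε := L / (1 + L))) (by
    filter_upwards [hYe] with z hz hzb
    rw [hz hzb]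
    exact mem_closedBall_zero_iff.2 (o.bd z))
  have hg := measurable_grad v
  have hgb := norm_grad_le h.hL h.lipv
  have c1 : ContDiff ℝ ∞ fun x : ℂ × (Fin 2 → ℂ) => conj (x.2 1) :=
    contDiff_conj.comp (by fun_prop)
  refine (Complex.reCLM.contDiff.comp_contDiffOn (P247.H832.R1.reg1_vec (ι := Fin 2) isOpen_ball
    (Y := ![fun z => (v z : ℂ), Y]) (p := ![fun z => conj (grad v z) / 2, fun z => pz (D z)])
    (q := ![fun z => grad v z / 2, fun z => pzb (D z)]) isOpen_univ (fun _ _ => mem_univ _)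
    (m := fun x => conj (x.2 1) ^ 2)
    (A := fun x => ![conj (x.2 1), (Af a c (x.1, (x.2 0).re, x.2 1) : ℝ)])
    (c1.pow 2).contDiffOn ?_ ?_ ?_ ?_ 0)).congr fun z _ => by simp
  · refine Fin.forall_fin_two.2 ⟨c1.contDiffOn, ContDiff.contDiffOn ?_⟩
    exact Complex.ofRealCLM.contDiff.comp ((contDiff_Af a c).comp (contDiff_fst.prodMk
      ((Complex.reCLM.contDiff.comp (by fun_prop)).prodMk (by fun_prop))))
  · intro z hz
    simp only [Matrix.cons_val_one, Matrix.cons_val_zero, norm_pow, Complex.norm_conj]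
    exact pow_lt_one₀ (norm_nonneg _) ((mem_closedBall_zero_iff.1 (hYb z hz)).trans_lt hk)
      two_ne_zero
  · refine Fin.forall_fin_two.2 ⟨P247.H832.R1.WL.of_real ?_ (loc ?_) (loc ?_) ?_,
      P247.H832.R1.WL.of_real hY (loc hP) (loc hQ) fun φ h1 h2 h3 w => ?_⟩
    · exact (Complex.continuous_ofReal.comp (lipschitz_of h.hL h.lipv).continuous).continuousOn
    · refine memLp_bdd (B := L / 2) ((Complex.continuous_conj.measurable.comp hg).div_const
        2).aestronglyMeasurable (fun z _ => ?_) 2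
      simp only [Function.comp, norm_div, Complex.norm_conj, Complex.norm_two]
      gcongr; exact hgb z
    · refine memLp_bdd (B := L / 2) (hg.div_const 2).aestronglyMeasurable (fun z _ => ?_) 2
      simp only [norm_div, Complex.norm_two]
      gcongr; exact hgb z
    · intro φ h1 h2 _ w
      have h4 := congrArg Complex.ofReal (ibp_lip h.hL h.lipv h1 h2 w)
      rw [Complex.ofReal_neg, ← integral_complex_ofReal, ← integral_complex_ofReal] at h4
      simpa only [Matrix.cons_val_zero, ← fderiv_eq_grad, Complex.real_smul, inner_grad,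
        Complex.ofReal_mul] using h4
    · exact (int_congr hYe h3 w).trans (hwd φ h1 h2 h3 w)
  · refine Fin.forall_fin_two.2 ⟨?_, ?_⟩
    · filter_upwards [hYe, h.grad_eq o] with z h1 h2 hz
      simp only [Matrix.cons_val_one, Matrix.cons_val_zero, h1 hz, h2 hz]
      exact Ps_eq ((o.bd z).trans_lt hk)
    · filter_upwards [hYe, h.eqn o] with z h1 h2 hz
      simp only [Matrix.cons_val_one, Matrix.cons_val_zero, h1 hz, Complex.ofReal_re]
      exact h2 hz

/-- the limit solves the equation -/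
lemma ApC.res_zero (h : ApC U ρ L C a c u G v) (o : Out U ρ L u G Y₀ D)
    (hv : ContDiffOn ℝ ∞ v (ball 0 ρ)) : ∀ z ∈ ball (0 : ℂ) ρ, resG a c v z = 0 := by
  have hva : ∀ z ∈ ball (0 : ℂ) ρ, ContDiffAt ℝ ∞ v z := fun z hz =>
    hv.contDiffAt (isOpen_ball.mem_nhds hz)
  have hg : ContDiffOn ℝ ∞ (grad v) (ball 0 ρ) := fun z hz =>
    (contDiffAt_grad (hva z hz)).contDiffWithinAt
  have hY : ContDiffOn ℝ ∞ (fun z => Th (grad v z)) (ball 0 ρ) := contDiff_Th.comp_contDiffOn hg
  have hYe : ∀ᵐ z, z ∈ ball (0 : ℂ) ρ → Th (grad v z) = Y₀ z := by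
    filter_upwards [h.grad_eq o] with z h1 hz
    rw [h1 hz, Th_Ps ((o.bd z).trans_lt (k_lt h.hL))]
  have hfin : IsFiniteMeasure (volume.restrict (ball (0 : ℂ) ρ)) :=
    isFiniteMeasure_restrict.2 measure_ball_lt_top.ne
  have key : ∀ w : ℂ, ∀ᵐ z, z ∈ ball (0 : ℂ) ρ →
      D z w - fderiv ℝ (fun z => Th (grad v z)) z w = 0 := by
    intro w
    have l1 : LocallyIntegrableOn (fun z => D z w) (ball 0 ρ) :=
      IntegrableOn.locallyIntegrableOn ((o.memLp.continuousLinearMap_comp
        (ContinuousLinearMap.apply ℝ ℂ w)).integrable one_le_two)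
    have l2 : LocallyIntegrableOn (fun z => fderiv ℝ (fun z => Th (grad v z)) z w) (ball 0 ρ) :=
      ((hY.continuousOn_fderiv_of_isOpen isOpen_ball (by simp)).clm_apply
        continuousOn_const).locallyIntegrableOn measurableSet_ball
    have l3 : LocallyIntegrableOn (fun z => Th (grad v z)) (ball 0 ρ) :=
      hY.continuousOn.locallyIntegrableOn measurableSet_ball
    refine isOpen_ball.ae_eq_zero_of_integral_contDiff_smul_eq_zero (l1.sub l2)
      fun φ h1 h2 h3 => ?_
    have i2 := int_cut l2 h1.continuous h2 h3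
    have e1 := integral_smul_fderiv_eq_neg_fderiv_smul_of_integrable (μ := volume)
      (int_cut l3 ((h1.continuous_fderiv (by simp)).clm_apply continuous_const)
        (h2.fderiv_apply ℝ w) ((tsupport_fderiv_apply_subset ℝ w).trans h3)) i2
      (int_cut l3 h1.continuous h2 h3) (fun z _ => h1.differentiable (by simp) z)
      fun z hz => (hY.contDiffAt (isOpen_ball.mem_nhds (h3 hz))).differentiableAt (by simp)
    simp only [smul_sub]
    rw [integral_sub (int_cut l1 h1.continuous h2 h3) i2, e1, int_congr hYe h3, o.wd φ h1 h2 h3,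
      neg_neg, sub_self]
  refine mem_of_ae isOpen_ball ?_ (isClosed_singleton (x := (0 : ℝ))) ?_
  · have c1 := hg.continuousOn
    have c2 := hg.continuousOn_fderiv_of_isOpen isOpen_ball (by simp)
    exact ((Surf.continuousOn_tr c2).sub (((c2.clm_apply c1).inner c1).div
      (continuousOn_const.add (c1.norm.pow 2))
        fun z _ => show 1 + ‖grad v z‖ ^ 2 ≠ 0 by positivity)).add
      (((continuousOn_const.add hv.continuousOn).sub
        ((continuousOn_const.add continuousOn_id).inner c1)).div_const 2)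
  · filter_upwards [hYe, key 1, key I, h.eqn o] with z h1 h2 h3 h4 hz
    have k1 := belt_eq a c (hva z hz)
    have k2 := h4 hz
    rw [pzb, pz, ← sub_eq_zero.1 (h2 hz), ← sub_eq_zero.1 (h3 hz), h1 hz, ← pzb, ← pz, k2,
      left_eq_add, Complex.ofReal_eq_zero, mul_eq_zero] at k1
    refine k1.resolve_left ?_
    have k3 : (‖Y₀ z‖ ^ 2) ^ 2 < 1 := pow_lt_one₀ (by positivity)
      (pow_lt_one₀ (norm_nonneg _) ((o.bd z).trans_lt (k_lt h.hL)) two_ne_zero) two_ne_zero
    exact (div_pos (by linarith) four_pos).ne'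

/-! ### transfer between the Euclidean plane and the complex plane -/

/-- the identification of the planes -/
noncomputable def ee : ℂ ≃ₗᵢ[ℝ] E2 := Complex.orthonormalBasisOneI.repr

lemma grad_ee (u : E2 → ℝ) : grad (u ∘ ee) = ee.symm ∘ grad u ∘ ee := by
  ext1 z
  refine grad_unique fun w => ?_
  rw [show fderiv ℝ (u ∘ ee) z = _ from ee.toContinuousLinearEquiv.comp_right_fderiv,
    ← ee.inner_map_map]
  simp [inner_grad]

lemma hess_ee (u : E2 → ℝ) (z : ℂ) : fderiv ℝ (grad (u ∘ ee)) z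
    = (ee.symm.toContinuousLinearEquiv : E2 →L[ℝ] ℂ).comp
      ((fderiv ℝ (grad u) (ee z)).comp (ee.toContinuousLinearEquiv : ℂ →L[ℝ] E2)) := by
  rw [grad_ee, show fderiv ℝ (ee.symm ∘ grad u ∘ ee) z = _ from
    ee.symm.toContinuousLinearEquiv.comp_fderiv,
    show fderiv ℝ (grad u ∘ ee) z = _ from ee.toContinuousLinearEquiv.comp_right_fderiv]
  rfl

lemma norm_hess_ee (u : E2 → ℝ) (z : ℂ) :
    ‖fderiv ℝ (grad (u ∘ ee)) z‖ ≤ ‖fderiv ℝ (grad u) (ee z)‖ := by
  rw [hess_ee]
  refine ContinuousLinearMap.opNorm_le_bound _ (norm_nonneg _) fun w => ?_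
  simpa using (fderiv ℝ (grad u) (ee z)).le_opNorm (ee w)

lemma res_ee (a : E2) (c : ℝ) (u : E2 → ℝ) (z : ℂ) :
    resG (ee.symm a) c (u ∘ ee) z = res a c u (ee z) := by
  have h1 : tr (fderiv ℝ (grad (u ∘ ee)) z) = tr (fderiv ℝ (grad u) (ee z)) := by
    rw [hess_ee]
    refine (LinearMap.trace_comp_comm' _ _).trans ?_
    unfold tr
    congr 1
    ext1 w
    simp
  unfold resG mcG res mc
  rw [h1, hess_ee, grad_ee, ← ee.inner_map_map, ← ee.inner_map_map (ee.symm a + z)]
  simp

lemma lint_ee (s : Set E2) (f : E2 → ℝ≥0∞) : ∫⁻ z in ee ⁻¹' s, f (ee z) = ∫⁻ y in s, f y :=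
  ee.measurePreserving.setLIntegral_comp_preimage_emb ee.toHomeomorph.measurableEmbedding f s

lemma vol_ee (s : Set E2) : volume (ee ⁻¹' s) = volume s :=
  ee.measurePreserving.measure_preimage_emb ee.toHomeomorph.measurableEmbedding s

lemma ball_ee (ρ : ℝ) : ee ⁻¹' ball 0 ρ = ball 0 ρ := by
  ext z; simp

end Pl

open Pl in
/-- **B6, B7** -/
theorem planeStmt (h1 : CompStmt) (h2 : BeltStmt) : PlaneStmt := by
  intro ι U ρ L C a c u G η v h
  have hL : 0 ≤ L := by
    obtain ⟨i, hi⟩ := h.lip.exists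
    simpa using (abs_nonneg _).trans (hi (ee 1) 0)
  have hv : ∀ y y', |v y - v y'| ≤ L * ‖y - y'‖ := fun y y' =>
    le_of_tendsto ((h.lim y).sub (h.lim y')).abs (h.lip.mono fun i hi => hi y y')
  have hm : ∀ {z : ℂ}, z ∈ ball (0 : ℂ) ρ → ee z ∈ ball (0 : E2) ρ := fun hz => by simpa using hz
  have A : ApC U ρ L C (ee.symm a) c (fun i => u i ∘ ee) (fun i => ee ⁻¹' G i) (v ∘ ee) := by
    refine ⟨hL, h.op.mono fun i hi => ⟨hi.1.preimage ee.continuous,
      ball_ee ρ ▸ preimage_mono hi.2.1, hi.2.2.comp ee.contDiff.contDiffOn fun _ hz => hz⟩,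
      h.lip.mono fun i hi y y' => by simpa [← map_sub] using hi (ee y) (ee y'),
      fun y y' => by simpa [← map_sub] using hv (ee y) (ee y'), h.hess.mono fun i hi => ?_,
      tend_of fun ε hε => ?_, tend_of fun ε hε => (h.small ε hε).mono fun i hi => ?_,
      fun δ hδ => (Lim.unif hL h.lip hv h.lim ρ hδ).mono fun i hi z hz => hi _ (hm hz)⟩
    · refine le_trans (lintegral_mono fun z => ENNReal.ofReal_le_ofReal ?_)
        ((lint_ee _ _).trans_le hi)
      exact pow_le_pow_left₀ (norm_nonneg _) (norm_hess_ee _ z) 2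
    · filter_upwards [h.small ε hε, h.eta] with i k1 k2
      rw [← ball_ee, ← preimage_sdiff, vol_ee]
      refine (measure_mono fun y hy => ?_).trans k1.2.1
      exact ⟨hy.1, by rw [(k2.2.2.2 y hy.1 hy.2).self_of_nhds]; exact zero_ne_one⟩
    · simp only [res_ee]
      exact (lint_ee _ fun y => ENNReal.ofReal (res a c (u i) y ^ 2)).trans_le hi.2.2
  obtain ⟨Y₀, D, o1, o2, o3, o4, o5, o6⟩ := h1 ι U ρ (L / (1 + L)) (4 * C)
    (fun i z => Th (grad (u i ∘ ee) z)) (fun i => ee ⁻¹' G i) (fun i => η i ∘ ee) (by positivity)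
    (by
      filter_upwards [A.op, A.lip] with i ⟨k1, k2, k3⟩ k4
      exact ⟨k1, k2, contDiff_Th.comp_contDiffOn fun z hz =>
        (contDiffAt_grad (k3.contDiffAt (k1.mem_nhds hz))).contDiffWithinAt,
        fun z _ => norm_Th_le (norm_grad_le hL k4 z)⟩)
    (h.eta.mono fun i hi => ⟨hi.1.comp ee.contDiff, fun z => hi.2.1 _, fun z => hi.2.2.1 _,
      fun z hz hz' => ee.continuous.continuousAt.eventually (hi.2.2.2 _ (hm hz) hz')⟩)
    A.hessY
    (fun ε hε => (h.small ε hε).mono fun i hi => by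
      constructor
      · rw [← ball_ee]
        refine le_trans (lintegral_mono fun z => ?_) ((lint_ee _ _).trans_le hi.1)
        simp only
        rw [← ofReal_norm, ← ofReal_norm, ← norm_grad, ← norm_grad, grad_ee]
        simp
      · refine le_trans (measure_mono fun z hz => ?_) ((vol_ee _).trans_le hi.2.1)
        exact ⟨hm hz.1, hz.2⟩)
  have o : Out U ρ L (fun i => u i ∘ ee) (fun i => ee ⁻¹' G i) Y₀ D :=
    ⟨o1, o2, o3, tend_of o4, o5, o6⟩
  have hs := A.smooth h2 o
  refine ⟨?_, fun y hy => ?_, fun ε hε => ?_⟩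
  · refine (hs.comp ee.symm.contDiff.contDiffOn fun y hy => by simpa using hy).congr fun y _ => ?_
    simp
  · have := A.res_zero o hs (ee.symm y) (by simpa using hy)
    rwa [res_ee, ee.apply_symm_apply] at this
  · filter_upwards [ENNReal.tendsto_nhds_zero.1 (A.grad_l1 o) _ (ENNReal.ofReal_pos.2 hε), A.op]
      with i k1 k2
    rw [← lint_ee]
    refine le_trans (le_of_eq (lintegral_congr_ae ?_)) k1
    filter_upwards [ae_restrict_of_ae (A.grad_eq o), ae_restrict_mem k2.1.measurableSet]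
      with z k3 k4
    rw [← k3 (k2.2.1 k4), grad_ee, grad_ee, ← ofReal_norm, ← ofReal_norm]
    simp [← map_sub]

end Vale.Agent.P218N.B
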