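import Vale.Agent.P218N.B.Stmt

/-! Block B: ordered local graphs, and paths which avoid small discs. -/

open MeasureTheory Set Filter Topology Metric
open scoped ENNReal NNReal RealInnerProductSpace

namespace Vale.Agent.P218N.B

open Vale.Agent.P218N.H

/-- ordered local graphs over an arbitrary base -/
theorem order_gen {X : Type*} [TopologicalSpace X] (S : Set (X × ℝ)) (O : Set X) (h : ℝ)
    (h1 : ∀ q ∈ closure S, q.1 ∈ O → q ∈ S) (h2 : ∀ q ∈ S, q.1 ∈ O → |q.2| ≤ h)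
    (h2' : ∀ y ∈ O, ∀ᶠ y' in 𝓝 y, ∀ t, (y', t) ∈ S → |t| ≤ h)
    (h3 : ∀ q ∈ S, q.1 ∈ O →
      ∃ g : X → ℝ, ContinuousAt g q.1 ∧ ∀ᶠ q' in 𝓝 q, q' ∈ S ↔ q'.2 = g q'.1) :
    ∃ (N : X → ℕ) (τ : ℕ → X → ℝ), ∀ y ∈ O, (∀ t, (y, t) ∈ S ↔ ∃ l < N y, t = τ l y) ∧
      (∀ l l', l < l' → l' < N y → τ l y < τ l' y) ∧ (∀ᶠ y' in 𝓝 y, N y' = N y) ∧
      ∀ l < N y, ContinuousAt (τ l) y := by
  classical
  let F : X → Finset ℝ := fun y =>
    if k : {t | (y, t) ∈ S}.Finite then k.toFinset else ∅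
  let τ : ℕ → X → ℝ := fun l y =>
    if k : l < (F y).card then (F y).orderEmbOfFin rfl ⟨l, k⟩ else 0
  have fin : ∀ y ∈ O, {t | (y, t) ∈ S}.Finite := fun y hy => by
    refine IsCompact.finite ((isCompact_Icc (a := -h) (b := h)).of_isClosed_subset
      (isClosed_of_closure_subset fun t ht => h1 (y, t) ?_ hy) fun t ht => abs_le.1 (h2 _ ht hy))
      (isDiscrete_iff_nhdsNE.2 fun t ht => ?_)
    · exact map_mem_closure (f := fun t => (y, t)) (by fun_prop) ht fun _ k => k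
    · obtain ⟨g, -, k⟩ := h3 _ ht hy
      rw [inf_principal_eq_bot]
      filter_upwards [self_mem_nhdsWithin, nhdsWithin_le_nhds
        ((Continuous.prodMk_right y).continuousAt.eventually k)] with s s1 s2 s3
      exact s1 ((s2.1 s3).trans (k.self_of_nhds.1 ht).symm)
  have hτ : ∀ y, {t | (y, t) ∈ S}.Finite → ∀ t, (y, t) ∈ S ↔ ∃ l < (F y).card, t = τ l y := by
    intro y hy t
    have e : (y, t) ∈ S ↔ t ∈ range ((F y).orderEmbOfFin rfl) := by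
      simp [F, hy]
    rw [e]
    exact ⟨fun ⟨l, k⟩ => ⟨l, l.2, by simp [τ, ← k]⟩, fun ⟨l, k, k'⟩ => ⟨⟨l, k⟩, by simp [τ, k', k]⟩⟩
  have mono : ∀ y l l', l < l' → l' < (F y).card → τ l y < τ l' y := fun y l l' k k' => by
    simp only [τ, dif_pos k', dif_pos (k.trans k')]
    exact ((F y).orderEmbOfFin rfl).strictMono k
  refine ⟨fun y => (F y).card, τ, fun y hy => ⟨hτ y (fin y hy), mono y, ?_⟩⟩
  choose! g g1 g2 using fun l (k : l < (F y).card) =>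
    h3 (y, τ l y) ((hτ y (fin y hy) _).2 ⟨l, k, rfl⟩) hy
  have g0 : ∀ l < (F y).card, τ l y = g l y := fun l k =>
    (g2 l k).self_of_nhds.1 ((hτ y (fin y hy) _).2 ⟨l, k, rfl⟩)
  have e1 : ∀ᶠ y' in 𝓝 y, ∀ l : Fin (F y).card, (y', g l y') ∈ S := eventually_all.2 fun l =>
    ((continuousAt_id.prodMk (g1 l l.2)).tendsto.eventually (g0 l l.2 ▸ g2 l l.2)).mono
      fun y' k => k.2 rfl
  have e2 : ∀ᶠ y' in 𝓝 y, StrictMono fun l : Fin (F y).card => g l y' :=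
    eventually_all.2 fun l => eventually_all.2 fun l' => eventually_imp_distrib_left.2 fun k =>
      (g1 l l.2).eventually_lt (g1 l' l'.2) (show g l y < g l' y by
        rw [← g0 l l.2, ← g0 l' l'.2]; exact mono y l l' k l'.2)
  have e3 : ∀ᶠ y' in 𝓝 y, ∀ t ∈ Icc (-h) h, (y', t) ∈ S → ∃ l : Fin (F y).card, g l y' = t := by
    refine isCompact_Icc.eventually_forall_of_forall_eventually fun t _ => ?_
    by_cases k : (y, t) ∈ closure S
    · obtain ⟨l, k1, rfl⟩ := (hτ y (fin y hy) t).1 (h1 _ k hy)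
      exact (g2 l k1).mono fun q k2 k3 => ⟨⟨l, k1⟩, (k2.1 k3).symm⟩
    · exact (isClosed_closure.isOpen_compl.eventually_mem k).mono fun q k2 k3 =>
        (k2 (subset_closure k3)).elim
  have key : ∀ᶠ y' in 𝓝 y, (F y').card = (F y).card ∧ ∀ l < (F y).card, τ l y' = g l y' := by
    filter_upwards [e1, e2, e3, h2' y hy] with y' k1 k2 k3 k4
    have e : {t | (y', t) ∈ S} = range fun l : Fin (F y).card => g l y' :=
      Subset.antisymm (fun t ht => k3 t (abs_le.1 (k4 t ht)) ht) (range_subset_iff.2 k1)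
    have e' : F y' = Finset.univ.image fun l : Fin (F y).card => g l y' := by
      apply Finset.coe_injective
      simp only [F, dif_pos (e ▸ finite_range _ : {t | (y', t) ∈ S}.Finite), Finite.coe_toFinset]
      simpa using e
    have c : (F y').card = (F y).card := by
      rw [e', Finset.card_image_of_injective _ k2.injective]
      simp
    refine ⟨c, fun l k => ?_⟩
    have := Finset.orderEmbOfFin_unique c (f := fun l : Fin (F y).card => g l y')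
      (fun l => e' ▸ Finset.mem_image_of_mem _ (Finset.mem_univ l)) k2
    simp only [τ, dif_pos (c ▸ k : l < (F y').card)]
    rw [show g l y' = (F y').orderEmbOfFin c ⟨l, k⟩ from congrFun this ⟨l, k⟩]
    exact Finset.orderEmbOfFin_eq_orderEmbOfFin_iff.2 rfl
  exact ⟨key.mono fun _ k => k.1, fun l k => (g1 l k).congr (key.mono fun _ k' => (k'.2 l k).symm)⟩

theorem orderStmt : OrderStmt := fun S O h hO h1 h2 h3 =>
  order_gen S O h h1 h2 (fun _ hy => (hO.eventually_mem hy).mono fun _ k _ ht => h2 _ ht k) h3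

lemma shadow_aux {y c e₁ e₂ : E2} {r σ σ' : ℝ} (h0 : ⟪e₁, e₂⟫ = 0) (h1 : ‖e₂‖ = ‖e₁‖) (hr : 0 < r)
    (h2 : √r ≤ 1 / 2) (h3 : √r ≤ ‖y - c‖) (hσ : |σ| ≤ 1 / 2) (hσ' : |σ'| ≤ 1 / 2)
    (k : ∃ x ∈ segment ℝ y (y + ((1 / 2 : ℝ) • e₁ + σ • e₂)), ‖x - c‖ ≤ r)
    (k' : ∃ x ∈ segment ℝ y (y + ((1 / 2 : ℝ) • e₁ + σ' • e₂)), ‖x - c‖ ≤ r) :
    |σ - σ'| ≤ 8 * √r := by
  have n : ∀ a b : ℝ, ‖a • e₁ + b • e₂‖ ^ 2 = (a * ‖e₁‖) ^ 2 + (b * ‖e₁‖) ^ 2 := fun a b => by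
    rw [norm_add_sq_real, real_inner_smul_left, real_inner_smul_right, h0, norm_smul, norm_smul, h1]
    simp [mul_pow]
  simp only [segment_eq_image', add_sub_cancel_left, mem_image, exists_exists_and_eq_and,
    smul_add, smul_smul] at k k'
  obtain ⟨l, hl, k⟩ := k
  obtain ⟨l', hl', k'⟩ := k'
  have s0 := Real.sqrt_pos.2 hr
  have s1 := Real.mul_self_sqrt hr.le
  have D0 := norm_nonneg e₁
  have a1 : ‖(l * (1 / 2) - l' * (1 / 2)) • e₁ + (l * σ - l' * σ') • e₂‖ ≤ 2 * r := by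
    have := norm_sub_le (y + ((l * (1 / 2)) • e₁ + (l * σ) • e₂) - c)
      (y + ((l' * (1 / 2)) • e₁ + (l' * σ') • e₂) - c)
    rw [show y + ((l * (1 / 2)) • e₁ + (l * σ) • e₂) - c -
      (y + ((l' * (1 / 2)) • e₁ + (l' * σ') • e₂) - c) =
      (l * (1 / 2) - l' * (1 / 2)) • e₁ + (l * σ - l' * σ') • e₂ by module] at this
    linarith
  have a2 := pow_le_pow_left₀ (norm_nonneg _) a1 2
  rw [n] at a2
  have a3 : |(l * (1 / 2) - l' * (1 / 2)) * ‖e₁‖| ≤ 2 * r :=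
    abs_le_of_sq_le_sq (by linarith [sq_nonneg ((l * σ - l' * σ') * ‖e₁‖)]) (by positivity)
  have a4 : |(l * σ - l' * σ') * ‖e₁‖| ≤ 2 * r :=
    abs_le_of_sq_le_sq (by linarith [sq_nonneg ((l * (1 / 2) - l' * (1 / 2)) * ‖e₁‖)])
      (by positivity)
  have a5 : ‖(l * (1 / 2)) • e₁ + (l * σ) • e₂‖ ≤ l * ‖e₁‖ :=
    le_of_sq_le_sq (by
      rw [n]
      nlinarith [mul_le_mul_of_nonneg_left (sq_le_sq' (abs_le.1 hσ).1 (abs_le.1 hσ).2)
        (sq_nonneg (l * ‖e₁‖)), sq_nonneg (l * ‖e₁‖)]) (mul_nonneg hl.1 D0)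
  have a6 : √r / 2 ≤ l * ‖e₁‖ := by
    have := norm_sub_le (y + ((l * (1 / 2)) • e₁ + (l * σ) • e₂) - c)
      ((l * (1 / 2)) • e₁ + (l * σ) • e₂)
    rw [show y + ((l * (1 / 2)) • e₁ + (l * σ) • e₂) - c - ((l * (1 / 2)) • e₁ + (l * σ) • e₂) =
      y - c by abel] at this
    nlinarith
  have a7 : |l * ‖e₁‖ * (σ - σ')| ≤ 4 * r := by
    rw [show l * ‖e₁‖ * (σ - σ') = (l * σ - l' * σ') * ‖e₁‖ -
      ((l * (1 / 2) - l' * (1 / 2)) * ‖e₁‖) * (2 * σ') by ring]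
    refine (abs_sub _ _).trans ?_
    rw [abs_mul _ (2 * σ'), abs_mul 2, abs_two]
    nlinarith [abs_nonneg σ', abs_nonneg ((l * (1 / 2) - l' * (1 / 2)) * ‖e₁‖)]
  rw [abs_mul, abs_of_nonneg (mul_nonneg hl.1 D0)] at a7
  nlinarith [mul_le_mul_of_nonneg_right a6 (abs_nonneg (σ - σ'))]

theorem shadowStmt : ShadowStmt := by
  refine ⟨1 / 32, by norm_num, fun s h1 h2 y y' h3 h4 => ?_⟩
  let e : E2 := !₂[-(y' - y) 1, (y' - y) 0]
  have e0 : ⟪y' - y, e⟫ = 0 := by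
    simp [e, PiLp.inner_apply, Fin.sum_univ_two]
    ring
  have e1 : ‖e‖ = ‖y' - y‖ := by
    simp [e, EuclideanSpace.norm_eq, Fin.sum_univ_two, add_comm, sq_abs]
    congr 1
    ring
  have sm : ∀ c ∈ s, √c.2 ≤ 1 / 2 := fun c hc =>
    (Finset.single_le_sum (f := fun c : E2 × ℝ => √c.2) (fun _ _ => Real.sqrt_nonneg _) hc).trans
      (h2.trans (by norm_num))
  let B : E2 → E2 → E2 × ℝ → Set ℝ := fun y d c => {σ | |σ| ≤ 1 / 2 ∧
    ∃ x ∈ segment ℝ y (y + ((1 / 2 : ℝ) • d + σ • e)), ‖x - c.1‖ ≤ c.2}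
  have vB : ∀ y d, ⟪d, e⟫ = 0 → ‖e‖ = ‖d‖ → (∀ c ∈ s, √c.2 ≤ ‖y - c.1‖) →
      volume (⋃ c ∈ s, B y d c) ≤ ENNReal.ofReal (1 / 4) := fun y d k0 k1 k2 => by
    refine (measure_biUnion_finset_le _ _).trans ((Finset.sum_le_sum fun c hc =>
      (Real.volume_le_diam _).trans (ediam_le_of_forall_dist_le fun σ hσ σ' hσ' =>
        shadow_aux k0 k1 (h1 c hc) (sm c hc) (k2 c hc) hσ.1 hσ'.1 hσ.2 hσ'.2)).trans ?_)
    rw [← ENNReal.ofReal_sum_of_nonneg fun c _ => by positivity, ← Finset.mul_sum]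
    exact ENNReal.ofReal_le_ofReal (by linarith)
  have : ¬ Icc (-(1 / 2) : ℝ) (1 / 2) ⊆ (⋃ c ∈ s, B y (y' - y) c) ∪ ⋃ c ∈ s, B y' (-(y' - y)) c := by
    intro k
    have k1 := ((measure_mono k).trans (measure_union_le _ _)).trans (add_le_add (vB y _ e0 e1 h3)
      (vB y' _ (by rw [inner_neg_left, e0, neg_zero]) (by rw [norm_neg, e1]) h4))
    rw [Real.volume_Icc, ← ENNReal.ofReal_add (by norm_num) (by norm_num),
      ENNReal.ofReal_le_ofReal_iff (by norm_num)] at k1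
    norm_num at k1
  obtain ⟨σ, hσ, k⟩ := not_subset.1 this
  simp only [mem_union, mem_iUnion, not_or, not_exists, B, mem_ofPred_eq, abs_le.2 hσ, true_and,
    not_and, not_le] at k
  refine ⟨y + ((1 / 2 : ℝ) • (y' - y) + σ • e), ?_, ?_⟩
  · rw [show y + ((1 / 2 : ℝ) • (y' - y) + σ • e) - midpoint ℝ y y' = σ • e by
      rw [midpoint_eq_smul_add, invOf_eq_inv]; module, norm_smul, e1, norm_sub_rev,
      Real.norm_eq_abs]
    nlinarith [abs_le.2 hσ, norm_nonneg (y - y')]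
  · rintro x (hx | hx) c hc
    · exact k.1 c hc x hx
    · refine k.2 c hc x ?_
      rwa [segment_symm, show y + ((1 / 2 : ℝ) • (y' - y) + σ • e) =
        y' + ((1 / 2 : ℝ) • -(y' - y) + σ • e) by module] at hx

end Vale.Agent.P218N.B
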