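import Vale.Agent.P218N.B.Shadow
import Mathlib.Analysis.Calculus.ImplicitContDiff

/-! Block B: the sheets over a disc with small holes. -/

open MeasureTheory Set Filter Topology Metric
open scoped ENNReal NNReal RealInnerProductSpace ContDiff

namespace Vale.Agent.P218N.B

open Vale.Agent.P218.H313 Vale.Agent.P218N.H

/-- where `Φ` is transverse to `M`, the preimage of `M` is a graph with bounded slope -/
theorem loc_graph {X : Type*} [NormedAddCommGroup X] [NormedSpace ℝ X] [CompleteSpace X]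
    {M : Set E3} (hM : Surf M) {Φ : X × ℝ → E3} {q : X × ℝ} {n : ℕ∞} (hn : 1 ≤ n)
    (hΦ : ContDiffAt ℝ n Φ q) (hq : Φ q ∈ M) {L b : ℝ} (hb : 0 < b) (hL : 0 ≤ L)
    (h1 : ∀ v, ‖fderiv ℝ Φ q (v, 0)‖ ≤ L * ‖v‖) (h2 : b ≤ |⟪nu M (Φ q), fderiv ℝ Φ q (0, 1)⟫|) :
    ∃ g : X → ℝ, ContDiffAt ℝ n g q.1 ∧ ‖fderiv ℝ g q.1‖ ≤ L / b ∧
      ∀ᶠ q' in 𝓝 q, Φ q' ∈ M ↔ q'.2 = g q'.1 := by
  obtain ⟨U, hU, D⟩ := hM.dfn_spec hq
  have pn : (n : WithTop ℕ∞) ≠ 0 := by exact_mod_cast (zero_lt_one.trans_le hn).ne'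
  have cf : ContDiffAt ℝ n (dfn M (Φ q) ∘ Φ) q :=
    (D.smooth.of_le (by exact_mod_cast le_top)).contDiffAt.comp q hΦ
  have g0 := norm_pos_iff.2 (D.ne _ hU)
  have df : ∀ u, fderiv ℝ (dfn M (Φ q) ∘ Φ) q u =
      ‖grad (dfn M (Φ q)) (Φ q)‖ * ⟪nu M (Φ q), fderiv ℝ Φ q u⟫ := fun u => by
    rw [fderiv_comp q (D.smooth.differentiable (by simp) _) (hΦ.differentiableAt pn),
      ContinuousLinearMap.comp_apply, ← inner_grad, ← real_inner_smul_left, nu, ← grad_eq_smul_nuW]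
  have a0 : fderiv ℝ (dfn M (Φ q) ∘ Φ) q (0, 1) ≠ 0 := by
    rw [df]
    exact mul_ne_zero g0.ne' (abs_pos.1 (hb.trans_le h2))
  have inv : (fderiv ℝ (dfn M (Φ q) ∘ Φ) q ∘L .inr ℝ X ℝ).IsInvertible :=
    ⟨ContinuousLinearEquiv.unitsEquivAut ℝ (Units.mk0 _ a0), by ext; simp⟩
  have c := cf.contDiffAt_implicitFunction pn inv
  refine ⟨_, c, ContinuousLinearMap.opNorm_le_bound _ (by positivity) fun v => ?_, ?_⟩
  · have k1 : HasFDerivAt (dfn M (Φ q) ∘ Φ) (fderiv ℝ (dfn M (Φ q) ∘ Φ) q)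
        (q.1, cf.implicitFunction pn inv q.1) := by
      rw [cf.implicitFunction_apply_self]
      exact (cf.differentiableAt pn).hasFDerivAt
    have k2 := (k1.comp q.1
      ((hasFDerivAt_id q.1).prodMk (c.differentiableAt pn).hasFDerivAt)).unique ((hasFDerivAt_const ((dfn M (Φ q) ∘ Φ) q) q.1).congr_of_eventuallyEq
        ((cf.eventually_apply_implicitFunction pn inv).mono fun _ k => k))
    have k3 : fderiv ℝ (dfn M (Φ q) ∘ Φ) q (v, fderiv ℝ (cf.implicitFunction pn inv) q.1 v) = 0 :=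
      congrArg (fun A : X →L[ℝ] ℝ => A v) k2
    set d := fderiv ℝ (cf.implicitFunction pn inv) q.1 v
    rw [df, mul_eq_zero_iff_left g0.ne',
      show (v, d) = (v, (0 : ℝ)) + d • ((0 : X), (1 : ℝ)) by simp, map_add, map_smul, inner_add_right, real_inner_smul_right, add_eq_zero_iff_eq_neg] at k3
    have k4 := abs_real_inner_le_norm (nu M (Φ q)) (fderiv ℝ Φ q (v, 0))
    rw [k3, abs_neg, abs_mul, hM.norm_nu hq, one_mul] at k4
    rw [div_mul_eq_mul_div, le_div_iff₀ hb, Real.norm_eq_abs]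
    exact ((mul_le_mul_of_nonneg_left h2 (abs_nonneg d)).trans k4).trans (h1 v)
  · filter_upwards [cf.eventually_apply_eq_iff_implicitFunction pn inv,
      hΦ.continuousAt.eventually_mem (D.isOpen.mem_nhds hU)] with q' k1 k2
    rw [D.mem_iff _ k2, eq_comm (a := q'.2), ← k1, Function.comp_apply, Function.comp_apply,
      (D.mem_iff _ hU).1 hq]

/-- extension of an ordered bounded family of Lipschitz functions -/
theorem extend_family {X : Type*} [PseudoMetricSpace X] {G : Set X} {σ : ℕ → X → ℝ} {L : ℝ≥0}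
    {h : ℝ} (h0 : 0 ≤ h) (h1 : ∀ l, LipschitzOnWith L (σ l) G) (h2 : ∀ x ∈ G, Monotone (σ · x))
    (h3 : ∀ l, ∀ x ∈ G, |σ l x| ≤ h) :
    ∃ τ : ℕ → X → ℝ, (∀ l, LipschitzWith L (τ l)) ∧ (∀ x, Monotone (τ · x)) ∧
      (∀ l x, |τ l x| ≤ h) ∧ ∀ l, ∀ x ∈ G, τ l x = σ l x := by
  choose g g1 g2 using fun l => (h1 l).extend_real
  have k : ∀ l, LipschitzWith L fun x => partialSups (g · x) l := fun l => by
    induction l with
    | zero => simpa using g1 0
    | succ l ih => simpa [partialSups_add_one] using ih.max (g1 (l + 1))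
  refine ⟨fun l x => max (-h) (min h (partialSups (g · x) l)),
    fun l => ((k l).const_min h).const_max _,
    fun x l l' r => max_le_max le_rfl (min_le_min le_rfl ((partialSups (g · x)).monotone r)),
    fun l x => abs_le.2 ⟨le_max_left _ _, max_le (by linarith) (min_le_left _ _)⟩, fun l x hx => ?_⟩
  have e : (g · x) = (σ · x) := funext fun l => (g2 l hx).symm
  simp only [e, (h2 x hx).partialSups_eq]
  rw [min_eq_right (abs_le.1 (h3 l x hx)).2, max_eq_right (abs_le.1 (h3 l x hx)).1]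

theorem sheetStmt' : SheetStmt' := by
  classical
  intro L₀ L₁ b hL₀ hL₁ hb
  obtain ⟨c₀, hc₀, sh⟩ := shadowStmt
  have sq := Real.sqrt_pos.2 (show 0 < 2 * L₀ by positivity)
  refine ⟨c₀ / √(2 * L₀), 2 * (L₁ / b), by positivity, by positivity, ?_⟩
  intro n M K Φ ρ h' h s₀ hn hM hc hΦ hρ hh' hh p1 p2 p3 q1 q2 q3
  let s₁ := s₀.filter fun c => ∃ z ∈ ball (0 : E2) (2 * ρ), ∃ t, |t| ≤ h ∧ Φ (z, t) ∈ ball c.1 c.2
  choose! z z1 z2 using fun c (k : c ∈ s₁) => (Finset.mem_filter.1 k).2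
  have sub : s₁ ⊆ s₀ := Finset.filter_subset _ _
  let O : Set E2 := ball 0 (2 * ρ) \ ⋃ c ∈ s₁, closedBall (z c) (2 * L₀ * c.2)
  have good : ∀ y ∈ O, ∀ t, |t| ≤ h → Φ (y, t) ∉ ⋃ c ∈ s₀, ball c.1 c.2 := fun y hy t ht k => by
    obtain ⟨c, k1, k2⟩ := mem_iUnion₂.1 k
    have k3 : c ∈ s₁ := Finset.mem_filter.2 ⟨k1, y, hy.1, t, ht, k2⟩
    obtain ⟨t', k4, k5⟩ := z2 c k3
    refine hy.2 (mem_biUnion k3 (mem_closedBall_iff_norm.2 ((q1 _ hy.1 _ (z1 c k3) t t' ht k4).trans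
      ?_)))
    have := dist_triangle_right (Φ (y, t)) (Φ (z c, t')) c.1
    rw [dist_eq_norm] at this
    nlinarith [mem_ball.1 k2, mem_ball.1 k5]
  have loc : ∀ q ∈ {q : E2 × ℝ | |q.2| ≤ h ∧ Φ q ∈ M}, q.1 ∈ O → |q.2| ≤ h' ∧ ∃ g : E2 → ℝ,
      ContDiffAt ℝ n g q.1 ∧ ‖fderiv ℝ g q.1‖ ≤ L₁ / b ∧
      ∀ᶠ q' in 𝓝 q, q' ∈ {q : E2 × ℝ | |q.2| ≤ h ∧ Φ q ∈ M} ↔ q'.2 = g q'.1 := fun q hq ho => by
    obtain ⟨k1, k2⟩ := q3 q.1 ho.1 q.2 hq.1 hq.2 fun k => good _ ho _ hq.1 (p3 k)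
    obtain ⟨g, g1, g2, g3⟩ := loc_graph hM hn hΦ.contDiffAt hq.2 hb hL₁.le (q2 _ ho.1 _ hq.1) k2
    refine ⟨k1, g, g1, g2, ?_⟩
    filter_upwards [g3, (continuous_snd.abs.continuousAt (x := q)).eventually_lt_const
      (k1.trans_lt hh)] with q' k3 k4 using (and_iff_right k4.le).trans k3
  have oO : IsOpen O := isOpen_ball.sdiff (isClosed_biUnion_finset fun _ _ => isClosed_closedBall)
  obtain ⟨N, τ, H⟩ := orderStmt {q | |q.2| ≤ h ∧ Φ q ∈ M} O h oO
    (fun q hq _ => ((isClosed_le continuous_snd.abs continuous_const).inter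
      (hc.preimage hΦ.continuous)).closure_subset hq) (fun q hq _ => hq.1)
    fun q hq ho => (loc q hq ho).2.imp fun g k => ⟨k.1.continuousAt, k.2.2⟩
  have mem : ∀ y ∈ O, ∀ l < N y, (y, τ l y) ∈ {q : E2 × ℝ | |q.2| ≤ h ∧ Φ q ∈ M} :=
    fun y hy l hl => ((H y hy).1 _).2 ⟨l, hl, rfl⟩
  have reg : ∀ y ∈ O, ∀ l < N y, ContDiffAt ℝ n (τ l) y ∧ ‖fderiv ℝ (τ l) y‖ ≤ L₁ / b := by
    intro y hy l hl
    obtain ⟨-, g, g1, g2, g3⟩ := loc _ (mem y hy l hl) hy
    have e : τ l =ᶠ[𝓝 y] g := by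
      filter_upwards [(continuousAt_id.prodMk ((H y hy).2.2.2 l hl)).tendsto.eventually g3,
        (H y hy).2.2.1, oO.mem_nhds hy] with y' k1 k2 k3 using k1.1 (mem y' k3 l (k2 ▸ hl))
    exact ⟨g1.congr_of_eventuallyEq e, (e.fderiv_eq (𝕜 := ℝ)).symm ▸ g2⟩
  have seg : ∀ x y, segment ℝ x y ⊆ O →
      N x = N y ∧ ∀ l < N x, |τ l x - τ l y| ≤ L₁ / b * ‖x - y‖ := by
    intro x y k
    have cv : Convex ℝ (segment ℝ x y) := convex_segment x y
    have e : ∀ u ∈ segment ℝ x y, N x = N u := fun u hu => cv.isPreconnected.constant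
      (fun v hv => (continuousAt_const.congr
        (EventuallyEq.symm (H v (k hv)).2.2.1)).continuousWithinAt) (left_mem_segment ℝ x y) hu
    exact ⟨e y (right_mem_segment ℝ x y), fun l hl => cv.norm_image_sub_le_of_norm_fderiv_le (𝕜 := ℝ)
      (fun u hu => (reg u (k hu) l (e u hu ▸ hl)).1.differentiableAt
        (by exact_mod_cast (zero_lt_one.trans_le hn).ne'))
      (fun u hu => (reg u (k hu) l (e u hu ▸ hl)).2) (right_mem_segment ℝ x y)
      (left_mem_segment ℝ x y)⟩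
  set G := GG ρ (s₁.image fun c => (z c, √(2 * L₀ * c.2)))
  have join : ∀ x ∈ G, ∀ y ∈ G, ∃ u, segment ℝ x u ⊆ O ∧ segment ℝ u y ⊆ O ∧
      ‖x - u‖ ≤ ‖x - y‖ ∧ ‖u - y‖ ≤ ‖x - y‖ := fun x hx y hy => by
    have far : ∀ x ∈ G, ∀ c ∈ s₁.image fun c => (z c, 2 * L₀ * c.2), √c.2 ≤ ‖x - c.1‖ :=
      fun x hx => Finset.forall_mem_image.2 fun c k => (not_le.1 fun k' => hx.2 (mem_biUnion
        (Finset.mem_image_of_mem _ k) (mem_closedBall_iff_norm.2 k'))).le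
    obtain ⟨u, u1, u2⟩ := sh (s₁.image fun c => (z c, 2 * L₀ * c.2))
      (Finset.forall_mem_image.2 fun c k => mul_pos (by positivity) (p1 c (sub k))) (by
        refine (Finset.sum_image_le_of_nonneg (f := fun c : E2 × ℝ => √c.2)
          fun _ _ => Real.sqrt_nonneg _).trans ((Finset.sum_le_sum_of_subset_of_nonneg sub
            fun _ _ _ => Real.sqrt_nonneg _).trans ?_)
        simp only [Real.sqrt_mul (show 0 ≤ 2 * L₀ by positivity), ← Finset.mul_sum]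
        rwa [le_div_iff₀' sq] at p2) x y (far x hx) (far y hy)
    have n1 := mem_ball_zero_iff.1 hx.1
    have n2 := mem_ball_zero_iff.1 hy.1
    have m1 : ‖x - midpoint ℝ x y‖ = ‖x - y‖ / 2 := by
      rw [← dist_eq_norm, dist_left_midpoint, dist_eq_norm]; simp [inv_mul_eq_div]
    have m2 : ‖midpoint ℝ x y - y‖ = ‖x - y‖ / 2 := by
      rw [← dist_eq_norm, dist_midpoint_right, dist_eq_norm]; simp [inv_mul_eq_div]
    have m3 := mem_ball_zero_iff.1 ((convex_ball (0 : E2) ρ).midpoint_mem hx.1 hy.1)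
    have m4 : u ∈ ball (0 : E2) (2 * ρ) := mem_ball_zero_iff.2 (by
      linarith [norm_le_norm_add_norm_sub' u (midpoint ℝ x y), norm_sub_le x y])
    have m5 : ∀ x ∈ G, x ∈ ball (0 : E2) (2 * ρ) := fun x k => ball_subset_ball (by linarith) k.1
    have m6 : ∀ v ∈ segment ℝ x u ∪ segment ℝ u y, v ∉ ⋃ c ∈ s₁, closedBall (z c) (2 * L₀ * c.2) :=
      fun v hv k => by
        obtain ⟨c, k1, k2⟩ := mem_iUnion₂.1 k
        exact (u2 v hv _ (Finset.mem_image_of_mem _ k1)).not_ge (mem_closedBall_iff_norm.1 k2)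
    refine ⟨u, fun v hv => ⟨(convex_ball _ _).segment_subset (m5 x hx) m4 hv, m6 v (Or.inl hv)⟩,
      fun v hv => ⟨(convex_ball _ _).segment_subset m4 (m5 y hy) hv, m6 v (Or.inr hv)⟩, ?_, ?_⟩
    · linarith [norm_sub_le_norm_sub_add_norm_sub x (midpoint ℝ x y) u,
        norm_sub_rev u (midpoint ℝ x y)]
    · linarith [norm_sub_le_norm_sub_add_norm_sub u (midpoint ℝ x y) y]
  have GO : G ⊆ O := fun x hx => (join x hx x hx).elim fun u k => k.1 (left_mem_segment ℝ x u)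
  obtain ⟨k, hk⟩ : ∃ k, ∀ x ∈ G, N x = k := by
    rcases G.eq_empty_or_nonempty with e | ⟨y, hy⟩
    · exact ⟨0, by simp [e]⟩
    · exact ⟨N y, fun x hx => (join x hx y hy).elim fun u k =>
        (seg _ _ k.1).1.trans (seg _ _ k.2.1).1⟩
  have bd : ∀ x ∈ G, ∀ l < k, |τ l x| ≤ h' := fun x hx l hl =>
    (loc _ (mem x (GO hx) l (hk x hx ▸ hl)) (GO hx)).1
  obtain ⟨τ', t1, t2, t3, t4⟩ := extend_family (G := G) (σ := fun l x => if l < k then τ l x else h')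
    (L := NNReal.mk (2 * (L₁ / b)) (by positivity)) hh'
    (fun l => LipschitzOnWith.of_dist_le_mul fun x hx y hy => by
      split_ifs with hl
      · obtain ⟨u, k1, k2, k3, k4⟩ := join x hx y hy
        have e1 := (seg _ _ k1).2 l (hk x hx ▸ hl)
        have e2 := (seg _ _ k2).2 l ((seg _ _ k1).1 ▸ hk x hx ▸ hl)
        have e3 := abs_sub_le (τ l x) (τ l u) (τ l y)
        rw [Real.dist_eq, dist_eq_norm, NNReal.coe_mk]
        nlinarith [div_pos hL₁ hb]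
      · rw [dist_self]; positivity)
    (fun x hx => monotone_nat_of_le_succ fun l => by
      split_ifs with k1 k2 k2
      · exact ((H x (GO hx)).2.1 _ _ l.lt_succ_self (hk x hx ▸ k2)).le
      · exact (abs_le.1 (bd x hx l k1)).2
      · omega
      · rfl)
    fun l x hx => by
      split_ifs with k1
      exacts [bd x hx l k1, (abs_of_nonneg hh').le]
  have t5 : ∀ l < k, ∀ x ∈ G, τ' l x = τ l x := fun l hl x hx => (t4 l x hx).trans (if_pos hl)
  refine ⟨s₁, z, k, τ', sub, fun c k => ⟨z1 c k, z2 c k⟩, Finset.forall_mem_image.2 fun c k =>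
    Real.sqrt_pos.2 (mul_pos (by positivity) (p1 c (sub k))), fun x hx => good x (GO hx),
    fun x hx t ht => ?_, fun x hx l l' r r' => ?_, t2, t3, fun l hl => ?_, fun l x y => ?_⟩
  · refine (and_iff_right ht).symm.trans (((H x (GO hx)).1 t).trans ?_)
    rw [hk x hx]
    exact exists_congr fun l => and_congr_right fun hl => by rw [t5 l hl x hx]
  · rw [t5 l (r.trans r') x hx, t5 l' r' x hx]
    exact (H x (GO hx)).2.1 _ _ r (hk x hx ▸ r')
  · exact ContDiffOn.congr (fun x hx => (reg x (GO hx) l (hk x hx ▸ hl)).1.contDiffWithinAt)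
      (t5 l hl)
  · simpa [Real.dist_eq, dist_eq_norm] using (t1 l).dist_le_mul x y

theorem sheetStmt : SheetStmt := sheetStmt_of sheetStmt'

end Vale.Agent.P218N.B
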