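import Vale.Agent.P218N.B.Stmt
import Vale.Agent.P267.H661.Smp

/-! Block B: the strong maximum principle for graphs which solve the shrinker equation. -/

open Set Filter Topology Metric
open scoped RealInnerProductSpace ContDiff

set_option maxSynthPendingDepth 3

namespace Vale.Agent.P218N.B

open Vale.Agent.P218.H313 Vale.Agent.P218N.H

namespace Smp

variable {E : Type*} [NormedAddCommGroup E] [InnerProductSpace ℝ E] [FiniteDimensional ℝ E]

/-- evaluation of a bilinear form -/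
noncomputable def ev2 (x y : E) : (E →L[ℝ] E →L[ℝ] ℝ) →L[ℝ] ℝ :=
  (ContinuousLinearMap.apply ℝ ℝ y).comp (ContinuousLinearMap.apply ℝ (E →L[ℝ] ℝ) x)

omit [FiniteDimensional ℝ E] in
theorem ev2_apply (x y : E) (B : E →L[ℝ] E →L[ℝ] ℝ) : ev2 x y B = B x y := rfl

/-- the principal part of the operator -/
noncomputable def pa (q : E) : (E →L[ℝ] E →L[ℝ] ℝ) →L[ℝ] ℝ :=
  ∑ i, ev2 (stdOrthonormalBasis ℝ E i) (stdOrthonormalBasis ℝ E i) - (1 + ‖q‖ ^ 2)⁻¹ • ev2 q q

theorem pa_apply (q : E) (B : E →L[ℝ] E →L[ℝ] ℝ) : pa q B =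
    ∑ i, B (stdOrthonormalBasis ℝ E i) (stdOrthonormalBasis ℝ E i) - B q q / (1 + ‖q‖ ^ 2) := by
  simp only [pa, sub_apply, sum_apply, smul_apply, ev2_apply, smul_eq_mul]
  rw [inv_mul_eq_div]

theorem continuous_pa : Continuous (pa : E → _) := by
  have h1 : Continuous fun q : E => (1 + ‖q‖ ^ 2)⁻¹ :=
    Continuous.inv₀ (by fun_prop) fun q => by positivity
  have h2 : Continuous fun q : E => ev2 q q :=
    (ContinuousLinearMap.apply ℝ ℝ (E := E)).continuous.clm_comp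
      (ContinuousLinearMap.apply ℝ (E →L[ℝ] ℝ) (E := E)).continuous
  exact continuous_const.sub (h1.smul h2)

theorem pa_pos (q : E) {ξ : E →L[ℝ] ℝ} (h : ξ ≠ 0) : 0 < pa q (ξ.smulRight ξ) := by
  have h1 : ∀ x, ξ x = ⟪riesz E ξ, x⟫ := fun x => (inner_riesz ξ x).symm
  have h2 : riesz E ξ ≠ 0 := fun h0 => h (by ext x; rw [h1, h0]; simp)
  have h3 : 0 < ‖riesz E ξ‖ ^ 2 := by positivity
  rw [pa_apply]
  simp only [ContinuousLinearMap.smulRight_apply, smul_apply, smul_eq_mul, h1]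
  have h4 : ∑ i, ⟪riesz E ξ, stdOrthonormalBasis ℝ E i⟫ * ⟪riesz E ξ, stdOrthonormalBasis ℝ E i⟫ =
      ‖riesz E ξ‖ ^ 2 := by
    rw [← real_inner_self_eq_norm_sq, ← (stdOrthonormalBasis ℝ E).sum_inner_mul_inner]
    exact Finset.sum_congr rfl fun i _ => by rw [real_inner_comm (riesz E ξ)]
  have h5 := real_inner_mul_inner_self_le (riesz E ξ) q
  rw [real_inner_self_eq_norm_sq, real_inner_self_eq_norm_sq] at h5
  rw [h4, sub_pos, div_lt_iff₀ (by positivity)]
  nlinarith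

theorem inner_hess {f : E → ℝ} {x : E} (hf : ContDiffAt ℝ 2 f x) (v w : E) :
    ⟪fderiv ℝ (grad f) x v, w⟫ = fderiv ℝ (fderiv ℝ f) x v w := by
  have h1 : DifferentiableAt ℝ (fderiv ℝ f) x :=
    (hf.fderiv_right (m := 1) (by norm_num)).differentiableAt (by norm_num)
  have h2 : HasFDerivAt (grad f) ((riesz E).comp (fderiv ℝ (fderiv ℝ f) x)) x := by
    rw [grad_eq]
    exact (riesz E).hasFDerivAt.comp x h1.hasFDerivAt
  rw [h2.fderiv]
  exact inner_riesz _ _

theorem mc_eq {u : E2 → ℝ} {y : E2} (hu : ContDiffAt ℝ 2 u y) :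
    mc u y = pa (grad u y) (fderiv ℝ (fderiv ℝ u) y) := by
  rw [mc, pa_apply, tr_eq_sum, inner_hess hu]
  congr 1
  exact Finset.sum_congr rfl fun i _ => by rw [real_inner_comm, inner_hess hu]

/-- the drift -/
noncomputable def dr (B : E →L[ℝ] E →L[ℝ] ℝ) (p q z : E) : E :=
  -((1 + ‖p‖ ^ 2)⁻¹ • (riesz E (B.flip p) + riesz E (B q))) +
    (B q q * ((1 + ‖p‖ ^ 2)⁻¹ * (1 + ‖q‖ ^ 2)⁻¹)) • (p + q) - (1 / 2 : ℝ) • z

theorem inner_dr (B : E →L[ℝ] E →L[ℝ] ℝ) (p q z : E) :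
    ⟪dr B p q z, p - q⟫ = pa p B - pa q B - (⟪z, p⟫ - ⟪z, q⟫) / 2 := by
  have h1 : ⟪p + q, p - q⟫ = ‖p‖ ^ 2 - ‖q‖ ^ 2 := by
    rw [inner_add_left, inner_sub_right, inner_sub_right, real_inner_self_eq_norm_sq,
      real_inner_self_eq_norm_sq, real_inner_comm p q]
    ring
  rw [dr, inner_sub_left, inner_add_left, inner_neg_left, real_inner_smul_left,
    real_inner_smul_left, real_inner_smul_left, inner_add_left, inner_riesz, inner_riesz, h1,
    inner_sub_right, pa_apply, pa_apply]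
  simp only [ContinuousLinearMap.flip_apply, map_sub]
  have h2 : (1 + ‖p‖ ^ 2) ≠ 0 := by positivity
  have h3 : (1 + ‖q‖ ^ 2) ≠ 0 := by positivity
  field_simp
  ring

theorem continuousAt_dr {X : Type*} [TopologicalSpace X] {x : X} {B : X → E →L[ℝ] E →L[ℝ] ℝ}
    {p q z : X → E} (hB : ContinuousAt B x) (hp : ContinuousAt p x) (hq : ContinuousAt q x)
    (hz : ContinuousAt z x) : ContinuousAt (fun x => dr (B x) (p x) (q x) (z x)) x := by
  have h1 : ContinuousAt (fun x => (1 + ‖p x‖ ^ 2)⁻¹) x :=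
    ContinuousAt.inv₀ (by fun_prop) (by positivity)
  have h2 : ContinuousAt (fun x => (1 + ‖q x‖ ^ 2)⁻¹) x :=
    ContinuousAt.inv₀ (by fun_prop) (by positivity)
  have h3 : ContinuousAt (fun x => (B x).flip) x :=
    (ContinuousLinearMap.flipₗᵢ ℝ E E ℝ).continuous.continuousAt.comp hB
  have h4 := (riesz E).continuous.continuousAt.comp (h3.clm_apply hp)
  have h5 := (riesz E).continuous.continuousAt.comp (hB.clm_apply hq)
  exact ((h1.smul (h4.add h5)).neg.add
    ((((hB.clm_apply hq).clm_apply hq).mul (h1.mul h2)).smul (hp.add hq))).sub (hz.const_smul _)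

end Smp

open Smp in
/-- **B8**: the strong maximum principle -/
theorem smpStmt : SmpStmt := by
  intro ρ a c u v hu hv ru rv hle ⟨y₁, hy₁, h₁⟩ y hy
  have cu : ∀ y ∈ ball (0 : E2) ρ, ContDiffAt ℝ ∞ u y := fun y hy =>
    hu.contDiffAt (isOpen_ball.mem_nhds hy)
  have cv : ∀ y ∈ ball (0 : E2) ρ, ContDiffAt ℝ ∞ v y := fun y hy =>
    hv.contDiffAt (isOpen_ball.mem_nhds hy)
  have two : (2 : WithTop ℕ∞) ≤ ∞ := by norm_cast
  have d1 : ∀ {w : E2 → ℝ} {y : E2}, ContDiffAt ℝ ∞ w y → ContDiffAt ℝ 1 (fderiv ℝ w) y :=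
    fun h => (h.of_le two).fderiv_right (m := 1) (by norm_num)
  have g0 : ∀ {w : E2 → ℝ} {y : E2}, ContDiffAt ℝ ∞ w y → ContinuousAt (grad w) y := fun h =>
    (riesz E2).continuous.continuousAt.comp (d1 h).continuousAt
  refine sub_eq_zero.1 (P267.H661.smp_local (u := fun y => u y - v y) (M := 0)
    (a := fun y => pa (grad v y))
    (b := fun y => ContinuousLinearMap.apply ℝ ℝ
      (dr (fderiv ℝ (fderiv ℝ u) y) (grad u y) (grad v y) (a + y)))
    isOpen_ball (convex_ball _ _).isPreconnected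
    (fun y hy => ((cu y hy).sub (cv y hy)).of_le two)
    (fun y hy => continuous_pa.continuousAt.comp (g0 (cv y hy)))
    (fun y hy => (ContinuousLinearMap.apply ℝ ℝ (E := E2)).continuous.continuousAt.comp
      (continuousAt_dr ((d1 (cu y hy)).fderiv_right (m := 0) (by norm_num)).continuousAt
        (g0 (cu y hy)) (g0 (cv y hy)) (by fun_prop)))
    (fun y _ ξ h => pa_pos _ h) (fun y hy => ?_) (fun y hy => sub_nonpos.2 (hle y hy)) hy₁
    (sub_eq_zero.2 h₁) y hy)
  have e1 : ∀ z ∈ ball (0 : E2) ρ, fderiv ℝ (fun y => u y - v y) z = fderiv ℝ u z - fderiv ℝ v z :=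
    fun z hz => fderiv_fun_sub ((cu z hz).differentiableAt (by simp))
      ((cv z hz).differentiableAt (by simp))
  have e2 : fderiv ℝ (fderiv ℝ fun y => u y - v y) y =
      fderiv ℝ (fderiv ℝ u) y - fderiv ℝ (fderiv ℝ v) y := by
    rw [← fderiv_fun_sub ((d1 (cu y hy)).differentiableAt (by simp))
      ((d1 (cv y hy)).differentiableAt (by simp))]
    exact Filter.EventuallyEq.fderiv_eq (by
      filter_upwards [isOpen_ball.mem_nhds hy] with z hz using e1 z hz)
  have h2 := ru y hy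
  have h3 := rv y hy
  rw [res, mc_eq ((cu y hy).of_le two)] at h2
  rw [res, mc_eq ((cv y hy).of_le two)] at h3
  have h4 := inner_dr (fderiv ℝ (fderiv ℝ u) y) (grad u y) (grad v y) (a + y)
  rw [inner_sub_right, inner_grad', inner_grad'] at h4
  rw [e1 y hy, e2, ContinuousLinearMap.apply_apply, sub_apply, h4, map_sub]
  linarith [hle y hy]

end Vale.Agent.P218N.B
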