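import Vale.Agent.P218N.B.Limit1

/-! The limit is a smooth shrinker with locally constant multiplicity. -/

open MeasureTheory Set Filter Topology Metric
open scoped ENNReal NNReal RealInnerProductSpace ContDiff

namespace Vale.Agent.P218N.B

open Vale.Agent.P218.H313 Vale.Agent.P218N.H Vale.Agent.P218N.G

set_option linter.unusedSectionVars false
set_option linter.unusedVariables false

namespace Lim

variable {κ : Measure E3} {f : Frame 2 E3} {p : E3} {ρ h : ℝ} {k : ℕ} {v : ℕ → E2 → ℝ}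

/-- in a cylinder `κ` is a sum of graphs which are equal or disjoint -/
structure Loc (κ : Measure E3) (f : Frame 2 E3) (p : E3) (ρ h : ℝ) (k : ℕ) (v : ℕ → E2 → ℝ) :
    Prop where
  ρpos : 0 < ρ
  hpos : 0 < h
  sm : ∀ l < k, ContDiffOn ℝ ∞ (v l) (ball 0 ρ)
  res : ∀ l < k, ∀ y ∈ ball (0 : E2) ρ, res (f.π p) ⟪f.n, p⟫ (v l) y = 0
  bd : ∀ l y, |v l y| < h
  alt : ∀ l < k, ∀ l' < k, v l 0 = v l' 0 → ∀ y ∈ ball (0 : E2) ρ, v l y = v l' y
  eq : κ.restrict (f.cyl p ρ h) = ∑ l ∈ Finset.range k, mu (f.gr p (v l) '' ball 0 ρ)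

lemma π_mem {x : E3} (hx : x ∈ f.cyl p ρ h) : f.π (x - p) ∈ ball (0 : E2) ρ :=
  mem_ball_zero_iff.2 hx.1

lemma gw_self (u : E2 → ℝ) : f.gw p u p = -u 0 := by simp [Frame.gw]

lemma Loc.cont (H : Loc κ f p ρ h k v) {x : E3} (hx : x ∈ f.cyl p ρ h) :
    ∀ l < k, ContinuousAt (v l) (f.π (x - p)) := fun l hl =>
  (H.sm l hl).continuousOn.continuousAt (isOpen_ball.mem_nhds (π_mem hx))

lemma Loc.apply (H : Loc κ f p ρ h k v) {A : Set E3} (hA : MeasurableSet A)
    (hAc : A ⊆ f.cyl p ρ h) :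
    κ A = ∑ l ∈ Finset.range k, (μH[((2 : ℕ) : ℝ)] : Measure E3) (A ∩ f.gr p (v l) '' ball 0 ρ) := by
  rw [← Measure.restrict_eq_self κ hAc, H.eq, Measure.finsetSum_apply]
  exact Finset.sum_congr rfl fun l _ => Measure.restrict_apply hA

lemma Loc.mem_iff (H : Loc κ f p ρ h k v) {x : E3} (hx : x ∈ f.cyl p ρ h) :
    x ∈ κ.support ↔ ∃ l < k, f.gw p (v l) x = 0 := by
  constructor
  · intro hs
    by_contra hne
    push Not at hne
    obtain ⟨O, h1, h2, h3⟩ := _root_.eventually_nhds_iff.1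
      ((eventually_ne (H.cont hx)).and ((f.isOpen_cyl p ρ h).mem_nhds hx))
    have h4 := (Measure.mem_support_iff_forall x).1 hs O (h2.mem_nhds h3)
    rw [H.apply h2.measurableSet fun y hy => (h1 y hy).2] at h4
    refine h4.ne' (Finset.sum_eq_zero fun l hl => ?_)
    have hl' := Finset.mem_range.1 hl
    have : O ∩ f.gr p (v l) '' ball 0 ρ = ∅ :=
      eq_empty_of_forall_notMem fun y hy => (h1 y hy.1).1 l hl' (hne l hl') (mem_gr.1 hy.2).2
    rw [this, measure_empty]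
  · rintro ⟨l, hl, h0⟩
    refine (Measure.mem_support_iff_forall x).2 fun A hA => ?_
    obtain ⟨O, h1, h2, h3⟩ := _root_.mem_nhds_iff.1
      (inter_mem hA ((f.isOpen_cyl p ρ h).mem_nhds hx))
    refine lt_of_lt_of_le ?_ (measure_mono (h1.trans inter_subset_left))
    rw [H.apply h2.measurableSet (h1.trans inter_subset_right)]
    refine lt_of_lt_of_le ?_ (Finset.single_le_sum (fun _ _ => zero_le) (Finset.mem_range.2 hl))
    have h4 := mu_gr_pos (f := f) (p := p) isOpen_ball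
      ((H.sm l hl).of_le (by exact_mod_cast le_top)) (π_mem hx) h2 (by rwa [f.gr_π h0])
    rwa [Measure.restrict_apply h2.measurableSet] at h4

/-- `κ` has multiplicity `n` near `x` -/
def Mult (κ : Measure E3) (x : E3) (n : ℕ) : Prop :=
  ∃ O : Set E3, IsOpen O ∧ x ∈ O ∧ κ.restrict O = (n : ℝ≥0∞) • (mu κ.support).restrict O

lemma Mult.unique [IsLocallyFiniteMeasure κ] {x : E3} (hx : x ∈ κ.support) {n n' : ℕ}
    (h : Mult κ x n) (h' : Mult κ x n') : n = n' := by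
  obtain ⟨O, h1, h2, h3⟩ := h
  obtain ⟨O', h1', h2', h3'⟩ := h'
  obtain ⟨W, w1, w2, w3⟩ := κ.exists_isOpen_measure_lt_top x
  have hA : IsOpen (O ∩ O' ∩ W) := (h1.inter h1').inter w2
  have hpos := (Measure.mem_support_iff_forall x).1 hx _ (hA.mem_nhds ⟨⟨h2, h2'⟩, w1⟩)
  have hfin : κ (O ∩ O' ∩ W) < ⊤ := (measure_mono inter_subset_right).trans_lt w3
  have s1 : O ∩ O' ∩ W ⊆ O := inter_subset_left.trans inter_subset_left
  have s2 : O ∩ O' ∩ W ⊆ O' := inter_subset_left.trans inter_subset_right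
  have e1 : κ (O ∩ O' ∩ W) = n * mu κ.support (O ∩ O' ∩ W) := by
    rw [← Measure.restrict_eq_self κ s1, h3, Measure.smul_apply, Measure.restrict_eq_self _ s1,
      smul_eq_mul]
  have e2 : κ (O ∩ O' ∩ W) = n' * mu κ.support (O ∩ O' ∩ W) := by
    rw [← Measure.restrict_eq_self κ s2, h3', Measure.smul_apply, Measure.restrict_eq_self _ s2,
      smul_eq_mul]
  have k0 : mu κ.support (O ∩ O' ∩ W) ≠ 0 := fun h0 => hpos.ne' (by rw [e1, h0, mul_zero])
  have k1 : mu κ.support (O ∩ O' ∩ W) ≠ ⊤ := by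
    intro h0
    rw [h0] at e1
    by_cases hn : (n : ℝ≥0∞) = 0
    · exact hpos.ne' (by rw [e1, hn, zero_mul])
    · exact hfin.ne (by rw [e1, ENNReal.mul_top hn])
  exact_mod_cast (ENNReal.mul_left_inj k0 k1).1 (e1.symm.trans e2)

/-- near the centre of the cylinder the support is one graph -/
lemma Loc.centre (H : Loc κ f p ρ h k v) (hp : p ∈ κ.support) :
    ∃ l₀ < k, v l₀ 0 = 0 ∧ (∀ᶠ x in 𝓝 p, x ∈ κ.support ↔ f.gw p (v l₀) x = 0) ∧
      ∃ n, 1 ≤ n ∧ Mult κ p n := by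
  classical
  have hpc := f.self_mem_cyl p H.ρpos H.hpos
  obtain ⟨l₀, hl₀, h0⟩ := (H.mem_iff hpc).1 hp
  rw [gw_self, neg_eq_zero] at h0
  obtain ⟨O, h1, h2, h3⟩ := _root_.eventually_nhds_iff.1
    ((eventually_ne (H.cont hpc)).and ((f.isOpen_cyl p ρ h).mem_nhds hpc))
  have key : ∀ x ∈ O, ∀ l < k, f.gw p (v l) x = 0 ↔ v l 0 = 0 ∧ f.gw p (v l₀) x = 0 := by
    intro x hx l hl
    have e : v l 0 = 0 → f.gw p (v l) x = f.gw p (v l₀) x := fun hv => by
      unfold Frame.gw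
      rw [H.alt l hl l₀ hl₀ (hv.trans h0.symm) _ (π_mem (h1 x hx).2)]
    constructor
    · intro hz
      have hv : v l 0 = 0 := by
        by_contra hv
        exact (h1 x hx).1 l hl (by rw [gw_self]; exact neg_ne_zero.2 hv) hz
      exact ⟨hv, e hv ▸ hz⟩
    · rintro ⟨hv, hz⟩
      rw [e hv, hz]
  have hS : ∀ x ∈ O, x ∈ κ.support ↔ f.gw p (v l₀) x = 0 := by
    intro x hx
    rw [H.mem_iff (h1 x hx).2]
    exact ⟨fun ⟨l, hl, hz⟩ => ((key x hx l hl).1 hz).2, fun hz => ⟨l₀, hl₀, hz⟩⟩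
  refine ⟨l₀, hl₀, h0, _root_.eventually_nhds_iff.2 ⟨O, hS, h2, h3⟩,
    ((Finset.range k).filter fun l => v l 0 = 0).card,
    Finset.card_pos.2 ⟨l₀, Finset.mem_filter.2 ⟨Finset.mem_range.2 hl₀, h0⟩⟩, O, h2, h3, ?_⟩
  ext A hA
  have hAO := hA.inter h2.measurableSet
  rw [Measure.restrict_apply hA, Measure.smul_apply, Measure.restrict_apply hA,
    Measure.restrict_apply hAO, H.apply hAO fun y hy => (h1 y hy.2).2, smul_eq_mul,
    ← nsmul_eq_mul, ← Finset.sum_const, Finset.sum_filter]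
  refine Finset.sum_congr rfl fun l hl => ?_
  have hl' := Finset.mem_range.1 hl
  split_ifs with hv
  · congr 1
    ext x
    refine and_congr_right fun hx => ?_
    rw [mem_gr, key x hx.2 l hl', hS x hx.2]
    exact ⟨fun hz => hz.2.2, fun hz => ⟨π_mem (h1 x hx.2).2, hv, hz⟩⟩
  · have : A ∩ O ∩ f.gr p (v l) '' ball 0 ρ = ∅ :=
      eq_empty_of_forall_notMem fun x hx => hv ((key x hx.1.2 l hl').1 (mem_gr.1 hx.2).2).1
    rw [this, measure_empty]

/-- from the local description to the global one -/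
theorem struct_of_loc (hG : GraphStmt) [IsLocallyFiniteMeasure κ]
    (hloc : ∀ p, ∃ f ρ h k v, Loc κ f p ρ h k v) :
    ∃ θ : E3 → ℕ, Surf κ.support ∧ (∀ x ∈ κ.support, velM κ.support x = 0) ∧
      (∀ x ∈ κ.support, 1 ≤ θ x) ∧ (∀ x ∈ κ.support, ∀ᶠ y in 𝓝[κ.support] x, θ y = θ x) ∧
      κ = (mu κ.support).withDensity fun x => (θ x : ℝ≥0∞) := by
  have hsurf : Surf κ.support := by
    refine Surf.of_contDiffAt fun p hp => ?_
    obtain ⟨f, ρ, h, k, v, H⟩ := hloc p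
    obtain ⟨l, hl, -, h1, -⟩ := H.centre hp
    have hpc := f.self_mem_cyl p H.ρpos H.hpos
    have hsm : ∀ x ∈ f.cyl p ρ h, ContDiffAt ℝ ∞ (v l) (f.π (x - p)) := fun x hx =>
      (H.sm l hl).contDiffAt (isOpen_ball.mem_nhds (π_mem hx))
    refine ⟨f.gw p (v l), ?_, fun h0 => ?_, h1⟩
    · filter_upwards [(f.isOpen_cyl p ρ h).mem_nhds hpc] with x hx
      have k1 : ContDiffAt ℝ ∞ (fun x : E3 => f.π (x - p)) x := by fun_prop
      have k2 : ContDiffAt ℝ ∞ (fun x : E3 => v l (f.π (x - p))) x :=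
        ContDiffAt.comp x (f := fun x : E3 => f.π (x - p)) (hsm x hx) k1
      exact (contDiffAt_const.inner ℝ (contDiffAt_id.sub contDiffAt_const)).sub k2
    · have k1 := f.grad_gw p ((hsm p hpc).differentiableAt (by simp))
      refine f.N_ne _ (k1.symm.trans ?_)
      rw [← norm_eq_zero, norm_grad, h0, norm_zero]
  have hm : ∀ x, ∃ n : ℕ, x ∈ κ.support → 1 ≤ n ∧ Mult κ x n := by
    intro x
    by_cases hx : x ∈ κ.support
    · obtain ⟨f, ρ, h, k, v, H⟩ := hloc x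
      obtain ⟨-, -, -, -, n, hn⟩ := H.centre hx
      exact ⟨n, fun _ => hn⟩
    · exact ⟨0, fun h => absurd h hx⟩
  choose θ hθ using hm
  have hconst : ∀ x ∈ κ.support, ∃ O : Set E3, IsOpen O ∧ x ∈ O ∧
      κ.restrict O = (θ x : ℝ≥0∞) • (mu κ.support).restrict O ∧
      ∀ y ∈ O, y ∈ κ.support → θ y = θ x := by
    intro x hx
    obtain ⟨O, h1, h2, h3⟩ := (hθ x hx).2
    exact ⟨O, h1, h2, h3, fun y hy hy' => (hθ y hy').2.unique hy' ⟨O, h1, hy, h3⟩⟩
  refine ⟨θ, hsurf, fun p hp => ?_, fun x hx => (hθ x hx).1, fun x hx => ?_, ?_⟩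
  · obtain ⟨f, ρ, h, k, v, H⟩ := hloc p
    obtain ⟨l, hl, h0, h1, -⟩ := H.centre hp
    have e : f.gr p (v l) 0 = p := by simp [Frame.gr, h0]
    have h2 : ∀ᶠ y in 𝓝 (0 : E2), ContDiffAt ℝ ∞ (v l) y := by
      filter_upwards [ball_mem_nhds (0 : E2) H.ρpos] with y hy
      exact (H.sm l hl).contDiffAt (isOpen_ball.mem_nhds hy)
    have h3 := (hG κ.support f p (v l) 0 hsurf h2 (by rw [e]; exact h1)).2.1
    rw [e, H.res l hl 0 (mem_ball_self H.ρpos), abs_zero, mul_eq_zero] at h3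
    rcases h3 with h3 | h3
    · exact norm_eq_zero.1 h3
    · exact absurd h3 (Real.sqrt_pos.2 (by positivity)).ne'
  · obtain ⟨O, h1, h2, -, h4⟩ := hconst x hx
    filter_upwards [mem_nhdsWithin_of_mem_nhds (h1.mem_nhds h2), self_mem_nhdsWithin]
      with y hy hy' using h4 y hy hy'
  · have hSm : MeasurableSet κ.support := Measure.isClosed_support.measurableSet
    have hl : ∀ x, ∃ O ∈ 𝓝 x, κ.restrict O
        = ((mu κ.support).withDensity fun x => (θ x : ℝ≥0∞)).restrict O := by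
      intro x
      by_cases hx : x ∈ κ.support
      · obtain ⟨O, h1, h2, h3, h4⟩ := hconst x hx
        refine ⟨O, h1.mem_nhds h2, ?_⟩
        rw [h3, restrict_withDensity h1.measurableSet, ← withDensity_const]
        refine withDensity_congr_ae ?_
        filter_upwards [ae_restrict_mem h1.measurableSet,
          ae_restrict_of_ae (ae_restrict_mem hSm)] with y hy hy'
        rw [h4 y hy hy']
      · refine ⟨κ.supportᶜ, Measure.isClosed_support.isOpen_compl.mem_nhds hx, ?_⟩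
        rw [Measure.restrict_eq_zero.2 Measure.measure_compl_support,
          restrict_withDensity hSm.compl, Measure.restrict_restrict hSm.compl, compl_inter_self,
          Measure.restrict_empty, withDensity_zero_left]
    choose O hO hOe using hl
    obtain ⟨t, ht, hcov⟩ := TopologicalSpace.countable_cover_nhds hO
    exact (Measure.ext_iff_of_biUnion_eq_univ ht hcov).2 fun x _ => hOe x

end Lim

/-- **B-struct** -/
theorem structStmt (hH : HolesStmt) (hL : LimitStmt) (hS : SmpStmt) (hG : GraphStmt) :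
    StructStmt := by
  intro ι U M κ Λ hM
  have hlf := hM.lf
  have hloc : ∀ p, ∃ f ρ h k v, Lim.Loc κ f p ρ h k v := by
    intro p
    obtain ⟨f, ρ, h', h, b, hρ, hh', hh, hb, hc⟩ := hH ι U M κ Λ hM p
    obtain ⟨k, v, h1, h2, h3, h4⟩ := hL ι U M κ Λ hM f p (ρ / 2) h' h b (half_pos hρ) hh' hh hb
      (by rwa [show 2 * (ρ / 2) = ρ by ring])
    have key : ∀ l < k, ∀ l' < k, l ≤ l' → v l 0 = v l' 0 →
        ∀ y ∈ ball (0 : E2) (ρ / 2), v l y = v l' y := fun l hl l' hl' hll h0 =>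
      hS _ _ _ _ _ (h1 l hl).1 (h1 l' hl').1 (h1 l hl).2 (h1 l' hl').2 (fun y _ => h3 y hll)
        ⟨0, mem_ball_self (half_pos hρ), h0⟩
    refine ⟨f, ρ / 2, h, k, v, half_pos hρ, hh'.trans hh, fun l hl => (h1 l hl).1,
      fun l hl => (h1 l hl).2, fun l y => (h2 l y).trans_lt hh, fun l hl l' hl' h0 y hy => ?_, h4⟩
    rcases le_total l l' with hll | hll
    · exact key l hl l' hl' hll h0 y hy
    · exact (key l' hl' l hl hll h0.symm y hy).symm
  obtain ⟨θ, h1, h2, h3, h4, h5⟩ := Lim.struct_of_loc hG hloc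
  exact ⟨κ.support, θ, h1, Measure.isClosed_support, h2, h3, h4, h5⟩

/-- a connected limit has constant multiplicity -/
theorem exists_const_mult {S : Set E3} {θ : E3 → ℕ} {κ : Measure E3} (hS : IsClosed S)
    (hc : IsPreconnected S) (h1 : ∀ x ∈ S, 1 ≤ θ x) (h2 : ∀ x ∈ S, ∀ᶠ y in 𝓝[S] x, θ y = θ x)
    (h3 : κ = (mu S).withDensity fun x => (θ x : ℝ≥0∞)) :
    ∃ k : ℕ, 1 ≤ k ∧ κ = (k : ℝ≥0∞) • mu S := by
  rcases S.eq_empty_or_nonempty with rfl | ⟨x₀, hx₀⟩
  · exact ⟨1, le_rfl, by simp [h3]⟩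
  have hcont : ContinuousOn θ S := fun x hx => tendsto_const_nhds.congr' ((h2 x hx).mono fun _ =>
    Eq.symm)
  refine ⟨θ x₀, h1 x₀ hx₀, ?_⟩
  rw [h3, ← withDensity_const]
  refine withDensity_congr_ae ?_
  filter_upwards [ae_restrict_mem hS.measurableSet] with y hy
  rw [hc.constant hcont hy hx₀]

end Vale.Agent.P218N.B
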