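import Vale.Agent.P218N.B.Band
import Vale.Agent.P218N.B.DG2
import Vale.Agent.P218N.B.Holes
import Vale.Agent.P218N.B.Sheet
import Vale.Agent.P218N.B.Shadow
import Vale.Agent.P218N.B.Eta
import Vale.Agent.P218N.B.HoleMass
import Vale.Agent.P218N.B.Graph
import Vale.Agent.P218N.B.Comp
import Vale.Agent.P218N.B.Belt
import Vale.Agent.P218N.B.Plane
import Vale.Agent.P218N.B.Limit
import Vale.Agent.P218N.B.Smp
import Vale.Agent.P218N.B.Struct
import Vale.Agent.P218N.B.CovT

/-! Block B assembled: the unconditional statements. -/

namespace Vale.Agent.P218N.B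

theorem holesStmt' : HolesStmt := holesStmt bandStmt dgStmt

theorem planeStmt' : PlaneStmt := planeStmt compStmt beltStmt

theorem limitStmt' : LimitStmt :=
  limitStmt sheetStmt etaStmt holeMassStmt graphStmt planeStmt'

theorem structStmt' : StructStmt := structStmt holesStmt' limitStmt' smpStmt graphStmt

end Vale.Agent.P218N.B
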