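import Vale.Agent.P218N.B.BeltP
import Vale.Agent.P247.H832.R1P

/-! Caccioppoli inequality, hole filling and convergence of averages for planar `W^{1,2}`
solutions of a Beltrami inequality. -/

open MeasureTheory Set Filter Topology Metric
open scoped ENNReal NNReal ComplexConjugate

namespace Vale.Agent.P218N.B.Belt

open Vale.Agent.P247.H832.R1

variable {S : Set ℂ} {u p q : ℂ → ℂ} {k B : ℝ}

lemma ns_q (hS : MeasurableSet S) {x : ℂ} {r : ℝ} (hr : 0 ≤ r) (h1 : S ⊆ ball x r)
    (hp : MemLp p 2 (volume : Measure ℂ)) (hk : k ≤ 1) (hB : 0 ≤ B)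
    (hb : ∀ᵐ z, z ∈ S → ‖q z‖ ≤ k * ‖p z‖ + B) : ns S q ≤ ns S p + B * (√Real.pi * r) := by
  have h2 := ns_tri (f := q) (m2_of hS hp) (m2_const hS (vol_ne h1) (B : ℂ))
    (hb.mono fun z hz h => (hz h).trans (by
      rw [Complex.norm_real, Real.norm_of_nonneg hB]
      nlinarith [norm_nonneg (p z)]))
  have h3 := ns_mono h1 (m2_const measurableSet_ball measure_ball_lt_top.ne (B : ℂ))
  rw [ns_const_ball x hr, Complex.norm_real, Real.norm_of_nonneg hB] at h3
  linarith

lemma ch_in {t : ℝ} (ht : 0 < t) (x : ℂ) : ∀ z ∈ ball x t,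
    ch (2 * t) x z = 1 ∧ dz (ch (2 * t) x) z = 0 ∧ dzb (ch (2 * t) x) z = 0 := by
  intro z hz
  have h1 : ∀ w ∈ ball x t, ch (2 * t) x w = 1 := fun w hw =>
    ch_one (by positivity) (by
      rw [show 2 * t / 2 = t by ring]; exact ball_subset_closedBall hw)
  have h2 : ch (2 * t) x =ᶠ[𝓝 z] fun _ => 1 := by
    filter_upwards [isOpen_ball.mem_nhds hz] with w hw
    exact h1 w hw
  have h3 : fderiv ℝ (ch (2 * t) x) z = 0 := by
    rw [h2.fderiv_eq]; simp
  refine ⟨h1 z hz, ?_, ?_⟩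
  · rw [dz, h3]; simp
  · rw [dzb, h3]; simp

/-- Caccioppoli inequality combined with the Poincaré inequality on an annulus -/
theorem cacc (hk0 : 0 ≤ k) (hk : k < 1) (hB : 0 ≤ B) : ∃ C1 C2 : ℝ, 0 ≤ C1 ∧ 0 ≤ C2 ∧
    ∀ {u p q : ℂ → ℂ}, W u p q → ∀ (x : ℂ) (t : ℝ), 0 < t →
      (∀ᵐ z, z ∈ ball x (2 * t) → ‖q z‖ ≤ k * ‖p z‖ + B) →
      ns (closedBall x (t / 2)) p ≤
        C1 * ns (ball x (2 * t) \ closedBall x (t / 2)) p + C2 * t := by
  obtain ⟨C, hC0, hC⟩ := ch_bdd
  have hk1 : 0 < 1 - k := by linarith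
  refine ⟨8704 * C / (1 - k), 8706 * C * B * √Real.pi / (1 - k), by positivity, by positivity, ?_⟩
  intro u p q h x t ht hb
  have ht2 : 0 < 2 * t := by positivity
  have hη := ch_tst ht2 x
  have hin := ch_in ht x
  have hbd := hC (2 * t) ht2 x
  have hout : ∀ᵐ z, z ∉ ball x (2 * t) →
      ch (2 * t) x z = 0 ∧ dz (ch (2 * t) x) z = 0 ∧ dzb (ch (2 * t) x) z = 0 := by
    filter_upwards [measure_eq_zero_iff_ae_notMem.1 (Measure.addHaar_sphere volume x (2 * t))]
      with z h1 h2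
    refine ch_sup ht2 x z fun h3 => ?_
    rw [← ball_union_sphere] at h3
    exact h3.elim h2 h1
  generalize ch (2 * t) x = η at hη hin hbd hout
  obtain ⟨c, hc⟩ := poin_ann h x ht
  have hAm : MeasurableSet (ball x (2 * t) \ closedBall x (t / 2)) :=
    measurableSet_ball.diff measurableSet_closedBall
  have hq := ns_q hAm ht2.le sdiff_subset h.hp hk.le hB (hb.mono fun z hz h1 => hz h1.1)
  have hb0 := ns_nonneg (ball x (2 * t) \ closedBall x (t / 2)) p
  generalize ns (ball x (2 * t) \ closedBall x (t / 2)) p = b at hc hq hb0 ⊢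
  generalize ns (ball x (2 * t) \ closedBall x (t / 2)) q = b' at hc hq
  have hG : ∀ d : ℂ → ℂ, Tst d → (∀ z, ‖d z‖ ≤ C / (2 * t)) → (∀ z ∈ ball x t, d z = 0) →
      (∀ᵐ z, z ∉ ball x (2 * t) → d z = 0) →
      MemLp (fun z => d z * (u z - c)) 2 (volume : Measure ℂ) ∧
        nn (fun z => d z * (u z - c)) ≤ 2176 * C * (b + b') := by
    intro d hd h1 h2 h3
    refine ⟨?_, ?_⟩
    · simp only [mul_sub]
      exact (hd.memLp_mul h.hu).sub ((hd.memLp 2).mul_const c)
    · have h4 := nn_le (f := fun z => d z * (u z - c)) (c := C / (2 * t)) (by positivity)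
        (m2_sub (measurableSet_ball.diff measurableSet_ball : MeasurableSet
          (ball x (2 * t) \ ball x t)) (vol_ne sdiff_subset) h.hu c) (h3.mono fun z hz => by
          by_cases h5 : z ∈ ball x (2 * t) \ ball x t
          · rw [indicator_of_mem h5, norm_mul]
            exact mul_le_mul_of_nonneg_right (h1 z) (norm_nonneg _)
          · have h6 : d z = 0 := by
              by_cases h7 : z ∈ ball x t
              · exact h2 z h7
              · exact hz fun h8 => h5 ⟨h8, h7⟩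
            rw [h6, zero_mul, norm_zero]
            positivity)
      refine h4.trans ((mul_le_mul_of_nonneg_left hc (by positivity)).trans (le_of_eq ?_))
      field_simp
      ring
  obtain ⟨m1, g1⟩ := hG _ hη.dz (fun z => (hbd z).2.1) (fun z hz => (hin z hz).2.1)
    (hout.mono fun z hz h1 => (hz h1).2.1)
  obtain ⟨m2, g2⟩ := hG _ hη.dzb (fun z => (hbd z).2.2) (fun z hz => (hin z hz).2.2)
    (hout.mono fun z hz h1 => (hz h1).2.2)
  have w := (h.tmul hη).sub (hη.W.const_mul c)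
  have e0 := w.nn_eq
  have e1 := nn_tri (f := fun z => η z * p z) w.hp m1 (Eventually.of_forall fun z => by
    refine le_of_eq_of_le ?_ (norm_sub_le _ _)
    congr 1
    ring)
  have e2 := nn_tri (f := fun z => dzb η z * u z + η z * q z - c * dzb η z) m2
    (hη.memLp_mul h.hq) (Eventually.of_forall fun z => by
      refine le_of_eq_of_le ?_ (norm_add_le _ _)
      congr 1
      ring)
  have e3 := nn_tri (f := fun z => η z * q z) ((hη.memLp_mul h.hp).const_mul (k : ℂ))
    (m2_const (S := ball x (2 * t)) measurableSet_ball measure_ball_lt_top.ne ((C * B : ℝ) : ℂ)) (by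
      filter_upwards [hb, hout] with z h1 h2
      by_cases h3 : z ∈ ball x (2 * t)
      · rw [indicator_of_mem h3, norm_mul, norm_mul, norm_mul, Complex.norm_real, Complex.norm_real,
          Real.norm_of_nonneg hk0, Real.norm_of_nonneg (mul_nonneg hC0 hB)]
        nlinarith [mul_le_mul_of_nonneg_left (h1 h3) (norm_nonneg (η z)),
          mul_le_mul_of_nonneg_right (hbd z).1 hB]
      · rw [(h2 h3).1, zero_mul, norm_zero]
        positivity)
  have e4 := ns_const_ball x ht2.le ((C * B : ℝ) : ℂ)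
  rw [ns, Complex.norm_real, Real.norm_of_nonneg (mul_nonneg hC0 hB)] at e4
  rw [nn_rmul hk0, e4] at e3
  have e5 : ns (closedBall x (t / 2)) p ≤ nn fun z => η z * p z := by
    refine nn_mono (hη.memLp_mul h.hp) (Eventually.of_forall fun z => ?_)
    by_cases h1 : z ∈ closedBall x (t / 2)
    · rw [indicator_of_mem h1, (hin z (closedBall_subset_ball (by linarith) h1)).1, one_mul]
    · rw [indicator_of_notMem h1, norm_zero]
      exact norm_nonneg _
  refine e5.trans ?_
  rw [div_mul_eq_mul_div, div_mul_eq_mul_div, ← add_div, le_div_iff₀ hk1]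
  nlinarith [mul_le_mul_of_nonneg_left hq hC0]

/-- filling the hole -/
lemma fill (C : ℝ) : ∃ θ : ℝ, 0 ≤ θ ∧ θ < 1 ∧ ∀ a b E s : ℝ, 0 ≤ E → 0 ≤ s →
    a ≤ C * b + s → a ^ 2 + b ^ 2 ≤ E ^ 2 → a ≤ θ * E + s := by
  have h0 : 0 < 1 + C ^ 2 := by positivity
  refine ⟨√(C ^ 2 / (1 + C ^ 2)), Real.sqrt_nonneg _, ?_, fun a b E s hE hs h1 h2 => ?_⟩
  · rw [Real.sqrt_lt' one_pos, div_lt_iff₀ h0]
    linarith
  · rw [← sub_le_iff_le_add]
    rcases le_total a s with h3 | h3
    · exact (sub_nonpos.2 h3).trans (by positivity)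
    · refine le_of_sq_le_sq ?_ (by positivity)
      rw [mul_pow, Real.sq_sqrt (by positivity), div_mul_eq_mul_div, le_div_iff₀ h0]
      have h4 : (a - s) ^ 2 ≤ (C * b) ^ 2 := pow_le_pow_left₀ (by linarith) (by linarith) 2
      have h5 : (a - s) ^ 2 ≤ a ^ 2 := pow_le_pow_left₀ (by linarith) (by linarith) 2
      nlinarith [mul_le_mul_of_nonneg_left (show (a - s) ^ 2 + b ^ 2 ≤ E ^ 2 by linarith)
        (sq_nonneg C)]

/-- geometric decay of the energy -/
theorem decay (hk0 : 0 ≤ k) (hk : k < 1) (hB : 0 ≤ B) (h : W u p q) {ρ : ℝ} (hρ : 0 < ρ) :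
    ∃ K lam : ℝ, 0 ≤ K ∧ 1 / 4 ≤ lam ∧ lam < 1 ∧ ∀ x : ℂ,
      (∀ᵐ z, z ∈ closedBall x ρ → ‖q z‖ ≤ k * ‖p z‖ + B) →
      ∀ m : ℕ, ns (closedBall x (ρ * (1 / 4) ^ m)) p ≤ K * lam ^ m := by
  obtain ⟨C1, C2, hC1, hC2, hc⟩ := cacc hk0 hk hB
  obtain ⟨θ, h0, h1, hθ⟩ := fill C1
  have h2 : 0 < 1 - θ := by linarith
  have h3 := nn_nonneg p
  refine ⟨nn p + C2 * ρ / (1 - θ), (1 + θ) / 2, by positivity, by linarith, by linarith,
    fun x hb m => ?_⟩
  induction m with
  | zero =>
    have : 0 ≤ C2 * ρ / (1 - θ) := by positivity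
    rw [pow_zero, pow_zero, mul_one, mul_one]
    linarith [ns_le_nn (S := closedBall x ρ) h.hp]
  | succ m ih =>
    have h4 : (1 / 4 : ℝ) ^ m ≤ ((1 + θ) / 2) ^ m := pow_le_pow_left₀ (by norm_num) (by linarith) m
    have h5 : (1 / 4 : ℝ) ^ m ≤ 1 := pow_le_one₀ (by norm_num) (by norm_num)
    have h6 : (0 : ℝ) < (1 / 4) ^ m := by positivity
    rw [pow_succ, pow_succ]
    generalize (1 / 4 : ℝ) ^ m = s at ih h4 h5 h6 ⊢
    generalize ((1 + θ) / 2 : ℝ) ^ m = l at ih h4 ⊢
    have e1 : 2 * (ρ * s / 2) = ρ * s := by ring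
    have e2 : ρ * s / 2 / 2 = ρ * (s * (1 / 4)) := by ring
    have h7 := hc h x (ρ * s / 2) (by positivity) (hb.mono fun z hz h8 => hz
      (closedBall_subset_closedBall (by nlinarith) (ball_subset_closedBall h8)))
    rw [e1, e2] at h7
    have h8 := hθ _ _ _ _ (ns_nonneg _ _) (by positivity) h7 (ns_sq_add measurableSet_closedBall
      (measurableSet_ball.diff measurableSet_closedBall) (K := closedBall x (ρ * s))
      measurableSet_closedBall disjoint_sdiff_right (union_subset (closedBall_subset_closedBall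
        (by nlinarith [mul_pos hρ h6])) (sdiff_subset.trans ball_subset_closedBall)) h.hp)
    have h9 : C2 * ρ / (1 - θ) * (1 - θ) = C2 * ρ := div_mul_cancel₀ _ h2.ne'
    have h10 : 0 ≤ l := h6.le.trans h4
    generalize C2 * ρ / (1 - θ) = D at ih h9 ⊢
    nlinarith [mul_le_mul_of_nonneg_left ih h0, mul_le_mul_of_nonneg_left h4 (mul_nonneg hC2 hρ.le),
      mul_nonneg (mul_nonneg h3 h10) h2.le]

/-- averages over discs -/
noncomputable def av (u : ℂ → ℂ) (r : ℝ) (x : ℂ) : ℂ := ⨍ y in closedBall x r, u y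

lemma vol_cb (x : ℂ) {r : ℝ} (hr : 0 ≤ r) : volume.real (closedBall x r) = r ^ 2 * Real.pi := by
  rw [measureReal_def, Complex.volume_closedBall, ENNReal.toReal_mul, ENNReal.toReal_pow,
    ENNReal.toReal_ofReal hr]
  simp

lemma av_le (hu : MemLp u 2 (volume : Measure ℂ)) (x : ℂ) {r : ℝ} (hr : 0 < r) (c : ℂ) :
    ‖av u r x - c‖ * r ≤ ns (closedBall x r) fun z => u z - c := by
  have hS : MeasurableSet (closedBall x r) := measurableSet_closedBall
  have hv : volume (closedBall x r) ≠ ⊤ := measure_closedBall_lt_top.ne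
  have hV : 0 < volume.real (closedBall x r) := by rw [vol_cb x hr.le]; positivity
  have h1 := cs' (m2_const hS hv 1) (m2_sub hS hv hu c)
  have h2 : ∫ z, (closedBall x r).indicator (fun _ => (1 : ℂ)) z *
      (closedBall x r).indicator (fun z => u z - c) z =
        volume.real (closedBall x r) • (av u r x - c) := by
    rw [av, setAverage_eq, smul_sub, smul_inv_smul₀ hV.ne', ← setIntegral_const,
      ← integral_sub ((li_of_memLp hu).integrableOn_isCompact (isCompact_closedBall _ _))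
        (integrableOn_const hv), ← integral_indicator hS]
    congr 1
    funext z
    by_cases hz : z ∈ closedBall x r <;> simp [hz]
  have h3 := ns_const hS (1 : ℂ)
  rw [ns, norm_one, one_mul] at h3
  rw [h2, h3, norm_smul, Real.norm_of_nonneg hV.le] at h1
  have h4 : r ≤ √(volume.real (closedBall x r)) := by
    refine Real.le_sqrt_of_sq_le ?_
    rw [vol_cb x hr.le]
    nlinarith [Real.two_le_pi, sq_nonneg r]
  have h5 := Real.mul_self_sqrt hV.le
  refine le_of_mul_le_mul_left ?_ (hr.trans_le h4)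
  refine le_trans ?_ h1
  nth_rewrite 2 [← h5]
  nlinarith [mul_le_mul_of_nonneg_left h4 (mul_nonneg (hr.trans_le h4).le
    (norm_nonneg (av u r x - c)))]

lemma av_cont (hu : MemLp u 2 (volume : Measure ℂ)) {r : ℝ} (hr : 0 < r) :
    Continuous (av u r) := by
  have hm := m2_const (S := closedBall (0 : ℂ) r) measurableSet_closedBall
    measure_closedBall_lt_top.ne 1
  have h1 : av u r = fun x => (r ^ 2 * Real.pi)⁻¹ • inner ℂ (hm.toLp _) (τ x (hu.toLp u)) := by
    funext x
    rw [av, setAverage_eq, vol_cb x hr.le, τ_toLp, inner_toLp,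
      ← integral_indicator measurableSet_closedBall,
      ← integral_add_right_eq_self ((closedBall x r).indicator u) x]
    congr 2
    funext z
    by_cases hz : z ∈ closedBall (0 : ℂ) r
    · rw [indicator_of_mem hz, indicator_of_mem (by simpa using hz), map_one, one_mul]
    · rw [indicator_of_notMem hz, indicator_of_notMem (by simpa using hz), map_zero, zero_mul]
  rw [h1]
  exact (Continuous.inner (𝕜 := ℂ) continuous_const (τ_cont _)).const_smul (r ^ 2 * Real.pi)⁻¹

/-- the averages converge to a continuous function -/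
theorem conv (hk0 : 0 ≤ k) (hk : k < 1) (hB : 0 ≤ B) (h : W u p q) {ρ : ℝ} (hρ : 0 < ρ)
    (hb : ∀ x ∈ S, ∀ᵐ z, z ∈ closedBall x ρ → ‖q z‖ ≤ k * ‖p z‖ + B) :
    ∃ G : ℂ → ℂ, ContinuousOn G S ∧
      ∀ x ∈ S, Tendsto (fun m : ℕ => av u (ρ * (1 / 4) ^ m) x) atTop (𝓝 (G x)) := by
  obtain ⟨K, lam, hK, h1, h2, hd⟩ := decay hk0 hk hB h hρ
  have h3 : Summable fun m : ℕ => 640 * (K + B * √Real.pi * ρ) * lam ^ m :=
    (summable_geometric_of_lt_one (by linarith) h2).mul_left _
  have h4 : ∀ (m : ℕ), ∀ x ∈ S, ‖av u (ρ * (1 / 4) ^ (m + 1)) x - av u (ρ * (1 / 4) ^ m) x‖ ≤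
      640 * (K + B * √Real.pi * ρ) * lam ^ m := by
    intro m x hx
    have h4 : (1 / 4 : ℝ) ^ m ≤ lam ^ m := pow_le_pow_left₀ (by norm_num) h1 m
    have h5 : (1 / 4 : ℝ) ^ m ≤ 1 := pow_le_one₀ (by norm_num) (by norm_num)
    have h6 : (0 : ℝ) < (1 / 4) ^ m := by positivity
    have h7 := hd x (hb x hx) m
    rw [pow_succ]
    generalize (1 / 4 : ℝ) ^ m = s at h4 h5 h6 h7 ⊢
    have hr : 0 < ρ * s := mul_pos hρ h6
    have hs : closedBall x (ρ * s) ⊆ ball x (2 * (ρ * s)) := closedBall_subset_ball (by linarith)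
    obtain ⟨c, hc⟩ := poin h measurableSet_closedBall (convex_closedBall x _) hr
      ((ball_subset_ball (by linarith)).trans ball_subset_closedBall) hs
    have h8 := ns_q measurableSet_closedBall (by positivity) hs h.hp hk.le hB
      ((hb x hx).mono fun z hz h9 => hz (closedBall_subset_closedBall (by nlinarith) h9))
    have h9 := av_le h.hu x hr c
    have h10 := (av_le h.hu x (show 0 < ρ * (s * (1 / 4)) by positivity) c).trans (ns_mono
      (closedBall_subset_closedBall (show ρ * (s * (1 / 4)) ≤ ρ * s by linarith))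
      (m2_sub measurableSet_closedBall measure_closedBall_lt_top.ne h.hu c))
    have h11 := norm_sub_le_norm_sub_add_norm_sub (av u (ρ * (s * (1 / 4))) x) c (av u (ρ * s) x)
    rw [norm_sub_rev c] at h11
    refine h11.trans (le_of_mul_le_mul_right ?_ hr)
    have h12 : B * √Real.pi * ρ * s ≤ B * √Real.pi * ρ * lam ^ m :=
      mul_le_mul_of_nonneg_left h4 (by positivity)
    nlinarith [mul_le_mul_of_nonneg_left h8 hr.le, mul_le_mul_of_nonneg_left h7 hr.le,
      mul_le_mul_of_nonneg_left h12 hr.le]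
  refine ⟨fun x => (∑' m : ℕ, (av u (ρ * (1 / 4) ^ (m + 1)) x - av u (ρ * (1 / 4) ^ m) x)) +
    av u (ρ * (1 / 4) ^ 0) x, (continuousOn_tsum (fun m => ((av_cont h.hu (by positivity)).sub
      (av_cont h.hu (by positivity))).continuousOn) h3 h4).add
        (av_cont h.hu (by positivity)).continuousOn, fun x hx => ?_⟩
  have h5 := (Summable.of_norm_bounded h3 fun m => h4 m x hx).hasSum.tendsto_sum_nat.add_const
    (av u (ρ * (1 / 4) ^ 0) x)
  simp only [Finset.sum_range_sub (fun m : ℕ => av u (ρ * (1 / 4) ^ m) x), sub_add_cancel] at h5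
  exact h5

end Vale.Agent.P218N.B.Belt
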