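import Vale.Agent.P247.H832.R1D

/-! Poincaré inequalities for planar `W^{1,2}` functions on convex sets and on annuli. -/

open MeasureTheory Set Filter Topology Metric
open scoped ENNReal NNReal ComplexConjugate

namespace Vale.Agent.P218N.B.Belt

open Vale.Agent.P247.H832.R1

/-- the `L²` norm on a set -/
noncomputable def ns (S : Set ℂ) (f : ℂ → ℂ) : ℝ := nn (S.indicator f)

variable {S S' K Q : Set ℂ} {f g u p q : ℂ → ℂ}

/-- square integrable on a set -/
abbrev M2 (S : Set ℂ) (f : ℂ → ℂ) : Prop := MemLp (S.indicator f) 2 (volume : Measure ℂ)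

lemma ns_nonneg (S : Set ℂ) (f : ℂ → ℂ) : 0 ≤ ns S f := nn_nonneg _

lemma m2_of (hS : MeasurableSet S) (hf : MemLp f 2 (volume : Measure ℂ)) : M2 S f :=
  hf.indicator hS

lemma m2_const (hS : MeasurableSet S) (hv : volume S ≠ ∞) (c : ℂ) : M2 S fun _ => c :=
  memLp_indicator_const 2 hS c (Or.inr hv)

lemma m2_sub (hS : MeasurableSet S) (hv : volume S ≠ ∞) (hf : MemLp f 2 (volume : Measure ℂ))
    (c : ℂ) : M2 S fun z => f z - c := by
  have h := (m2_of hS hf).sub (m2_const hS hv c)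
  rwa [← indicator_sub'] at h

lemma ns_mono (h : S ⊆ S') (hf : M2 S' f) : ns S f ≤ ns S' f :=
  nn_mono hf (Eventually.of_forall fun z => norm_indicator_le_of_subset h f z)

lemma ns_le_nn (hf : MemLp f 2 (volume : Measure ℂ)) : ns S f ≤ nn f :=
  nn_mono hf (Eventually.of_forall fun z => norm_indicator_le_norm_self f z)

lemma ns_tri {h : ℂ → ℂ} (hg : M2 S g) (hh : M2 S h)
    (H : ∀ᵐ z, z ∈ S → ‖f z‖ ≤ ‖g z‖ + ‖h z‖) : ns S f ≤ ns S g + ns S h := by
  refine nn_tri hg hh (H.mono fun z hz => ?_)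
  by_cases h1 : z ∈ S
  · simp only [indicator_of_mem h1]; exact hz h1
  · simp [indicator_of_notMem h1]

lemma ns_union (h : M2 S f) (h' : M2 S' f) : ns (S ∪ S') f ≤ ns S f + ns S' f := by
  refine nn_tri h h' (Eventually.of_forall fun z => ?_)
  by_cases h1 : z ∈ S <;> by_cases h2 : z ∈ S' <;> simp [indicator, h1, h2]

lemma ns_const_mul (S : Set ℂ) (c : ℂ) (f : ℂ → ℂ) :
    ns S (fun z => c * f z) = ‖c‖ * ns S f := by
  rw [ns, ns, ← nn_const_mul]
  congr 1
  funext z
  exact indicator_const_mul _ _ _ _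

lemma ns_const (hS : MeasurableSet S) (c : ℂ) :
    ns S (fun _ => c) = ‖c‖ * √(volume.real S) := by
  rw [ns, nn, eLpNorm_indicator_const hS (by norm_num) (by norm_num), ENNReal.toReal_mul,
    ← ENNReal.toReal_rpow, Real.sqrt_eq_rpow, measureReal_def]
  simp

lemma sqrt_ball (x : ℂ) {r : ℝ} (hr : 0 ≤ r) : √(volume.real (ball x r)) = √Real.pi * r := by
  rw [measureReal_def, Complex.volume_ball, ENNReal.toReal_mul, ENNReal.toReal_pow,
    ENNReal.toReal_ofReal hr, Real.sqrt_mul (sq_nonneg r), Real.sqrt_sq hr, mul_comm]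
  simp

lemma ns_const_ball (x : ℂ) {r : ℝ} (hr : 0 ≤ r) (c : ℂ) :
    ns (ball x r) (fun _ => c) = ‖c‖ * (√Real.pi * r) := by
  rw [ns_const measurableSet_ball, sqrt_ball x hr]

lemma lint_eq (hf : MemLp f 2 (volume : Measure ℂ)) :
    ∫⁻ z, ‖f z‖ₑ ^ 2 = ENNReal.ofReal (nn f ^ 2) := by
  have h := eLpNorm_nnreal_pow_eq_lintegral (μ := (volume : Measure ℂ)) (f := f) (p := 2)
    two_ne_zero
  simp only [ENNReal.coe_ofNat, NNReal.coe_ofNat, ENNReal.rpow_ofNat] at h
  rw [← h, nn, ← ENNReal.toReal_pow, ENNReal.ofReal_toReal (ENNReal.pow_ne_top hf.2.ne)]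

lemma lint_ind (hS : MeasurableSet S) (f : ℂ → ℂ) :
    ∫⁻ z, ‖S.indicator f z‖ₑ ^ 2 = ∫⁻ z in S, ‖f z‖ₑ ^ 2 := by
  rw [← lintegral_indicator hS]
  congr 1
  funext z
  by_cases h : z ∈ S <;> simp [h]

lemma lint_ns (hS : MeasurableSet S) (hf : M2 S f) :
    ∫⁻ z in S, ‖f z‖ₑ ^ 2 = ENNReal.ofReal (ns S f ^ 2) := by
  rw [← lint_ind hS, lint_eq hf, ns]

lemma ns_sq_add (hS : MeasurableSet S) (hS' : MeasurableSet S') (hK : MeasurableSet K)
    (hd : Disjoint S S') (h : S ∪ S' ⊆ K) (hf : MemLp f 2 (volume : Measure ℂ)) :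
    ns S f ^ 2 + ns S' f ^ 2 ≤ ns K f ^ 2 := by
  rw [← ENNReal.ofReal_le_ofReal_iff (sq_nonneg _), ENNReal.ofReal_add (sq_nonneg _) (sq_nonneg _),
    ← lint_ns hS (m2_of hS hf), ← lint_ns hS' (m2_of hS' hf), ← lint_ns hK (m2_of hK hf),
    ← lintegral_union hS' hd]
  exact lintegral_mono_set h

/-- the local estimate for translations -/
theorem trans_le (h : W u p q) (hS : MeasurableSet S) (hS' : MeasurableSet S') (v : ℂ)
    (hv : ∀ s ∈ Icc (0 : ℝ) 1, ∀ z ∈ S, z + s * v ∈ S') :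
    ns S (fun z => u (z + v) - u z) ≤ ‖v‖ * (ns S' p + ns S' q) := by
  have hb : AEStronglyMeasurable (S.indicator fun _ => (1 : ℂ)) (volume : Measure ℂ) :=
    aestronglyMeasurable_const.indicator hS
  have hC : ∀ z, ‖S.indicator (fun _ => (1 : ℂ)) z‖ ≤ 1 := fun z =>
    (norm_indicator_le_norm_self _ z).trans (by simp)
  set T := mulB _ hb 1 hC with hT
  have hTn : ∀ {g : ℂ → ℂ} (hg : MemLp g 2 (volume : Measure ℂ)), ‖T (hg.toLp g)‖ = ns S g := by
    intro g hg
    change nn (T (hg.toLp g)) = _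
    refine nn_congr ?_
    filter_upwards [mulB_coe _ hb 1 hC (hg.toLp g), hg.coeFn_toLp] with z h1 h2
    rw [h1, h2]
    by_cases h3 : z ∈ S <;> simp [h3]
  have hc : Continuous fun s : ℝ => τ ((s : ℂ) * v) ((h.hd v).toLp (dd p q v)) :=
    (τ_cont _).comp (by fun_prop)
  have h1 := congrArg T (h.dq v)
  rw [← ContinuousLinearMap.intervalIntegral_comp_comm _ (hc.intervalIntegrable _ _), τ_toLp,
    ← MemLp.toLp_sub] at h1
  have h2 := hTn ((memLp_tr h.hu v).sub h.hu)
  rw [h1] at h2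
  refine h2.symm.le.trans ((intervalIntegral.norm_integral_le_of_norm_le_const
    (C := ‖v‖ * (ns S' p + ns S' q)) fun s hs => ?_).trans (by simp))
  rw [uIoc_of_le zero_le_one] at hs
  rw [τ_toLp, hTn]
  have h3 : ns S (fun z => dd p q v (z + s * v)) ≤ ns S' (dd p q v) := by
    rw [ns, ns, ← nn_tr (m2_of hS' (h.hd v)) (s * v)]
    refine nn_mono (memLp_tr (m2_of hS' (h.hd v)) _) (Eventually.of_forall fun z => ?_)
    by_cases h3 : z ∈ S
    · rw [indicator_of_mem h3, indicator_of_mem (hv s (Ioc_subset_Icc_self hs) z h3)]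
    · simp [h3]
  refine h3.trans ?_
  rw [mul_add, ← ns_const_mul, ← ns_const_mul]
  refine ns_tri (m2_of hS' (h.hp.const_mul v)) (m2_of hS' (h.hq.const_mul v))
    (Eventually.of_forall fun z _ => (norm_add_le _ _).trans (le_of_eq ?_))
  simp [mul_comm]

lemma vol_ne {x : ℂ} {r : ℝ} (h : K ⊆ ball x r) : volume K ≠ ∞ :=
  ((measure_mono h).trans_lt measure_ball_lt_top).ne

/-- the Poincaré inequality on a convex set, measurable version -/
theorem poin_meas (h : W u p q) (hu : Measurable u) (hK : MeasurableSet K) (hc : Convex ℝ K)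
    {x y : ℂ} {t : ℝ} (ht : 0 < t) (h1 : ball y (t / 4) ⊆ K) (h2 : K ⊆ ball x (2 * t)) :
    ∃ c, ns K (fun z => u z - c) ≤ 64 * t * (ns K p + ns K q) := by
  set D := ns K p + ns K q with hD
  have hD0 : 0 ≤ D := add_nonneg (ns_nonneg _ _) (ns_nonneg _ _)
  let F : ℂ → ℂ → ℝ≥0∞ := fun a v =>
    ‖(K ∩ (fun z => z + v) ⁻¹' K).indicator (fun z => u (z + v) - u z) a‖ₑ ^ 2
  have hF : Measurable (Function.uncurry F) := by
    have h3 : Function.uncurry F = fun w : ℂ × ℂ => ‖{w : ℂ × ℂ | w.1 ∈ K ∧ w.1 + w.2 ∈ K}.indicator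
        (fun w => u (w.1 + w.2) - u w.1) w‖ₑ ^ 2 := by
      funext w
      rfl
    rw [h3]
    refine (Measurable.indicator (by fun_prop) ?_).enorm.pow_const 2
    exact (measurable_fst hK).inter ((measurable_fst.add measurable_snd) hK)
  have h3 : ∀ v, ∫⁻ a, F a v ≤
      (ball (0 : ℂ) (4 * t)).indicator (fun _ => ENNReal.ofReal ((4 * t * D) ^ 2)) v := by
    intro v
    have hm : MeasurableSet (K ∩ (fun z => z + v) ⁻¹' K) := hK.inter (measurable_add_const v hK)
    by_cases hv : v ∈ ball (0 : ℂ) (4 * t)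
    · rw [indicator_of_mem hv]
      refine (lint_eq (m2_of hm ((memLp_tr h.hu v).sub h.hu))).le.trans ?_
      refine ENNReal.ofReal_le_ofReal (pow_le_pow_left₀ (nn_nonneg _) ?_ 2)
      refine (trans_le h hm hK v fun s hs z hz => ?_).trans
        (mul_le_mul_of_nonneg_right (mem_ball_zero_iff.1 hv).le hD0)
      have := hc.add_smul_mem hz.1 hz.2 hs
      rwa [Complex.real_smul] at this
    · have h4 : K ∩ (fun z => z + v) ⁻¹' K = ∅ := by
        refine eq_empty_of_forall_notMem fun z hz => hv ?_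
        have h5 := mem_ball_iff_norm.1 (h2 hz.1)
        have h6 := mem_ball_iff_norm.1 (h2 hz.2)
        have h7 := norm_sub_le (z + v - x) (z - x)
        rw [show z + v - x - (z - x) = v by ring] at h7
        exact mem_ball_zero_iff.2 (by linarith)
      simp [F, h4]
  have h4 : ∀ a ∈ K, ∫⁻ v, F a v = ∫⁻ z in K, ‖u z - u a‖ₑ ^ 2 := by
    intro a ha
    rw [← lint_ind hK,
      ← lintegral_add_left_eq_self (fun z => ‖K.indicator (fun z => u z - u a) z‖ₑ ^ 2) a]
    congr 1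
    funext v
    by_cases h5 : a + v ∈ K
    · simp only [F]
      rw [indicator_of_mem h5, indicator_of_mem (show a ∈ K ∩ (fun z => z + v) ⁻¹' K from ⟨ha, h5⟩)]
    · simp only [F]
      rw [indicator_of_notMem h5, indicator_of_notMem fun h6 => h5 h6.2]
  have h5 : ∫⁻ a in ball y (t / 4), ∫⁻ v, F a v ≤
      ENNReal.ofReal ((4 * t * D) ^ 2) * volume (ball (0 : ℂ) (4 * t)) := by
    refine (setLIntegral_le_lintegral _ _).trans ?_
    rw [lintegral_lintegral_swap hF.aemeasurable, ← lintegral_indicator_const measurableSet_ball]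
    exact lintegral_mono h3
  have hv0 : volume (ball y (t / 4)) ≠ 0 := (measure_ball_pos _ _ (by positivity)).ne'
  obtain ⟨a, ha, h6⟩ := exists_le_setLAverage (f := fun a => ∫⁻ v, F a v) hv0
    measure_ball_lt_top.ne hF.lintegral_prod_right.aemeasurable
  refine ⟨u a, ?_⟩
  rw [h4 a (h1 ha), lint_ns hK (m2_sub hK (vol_ne h2) h.hu _), setLAverage_eq,
    ENNReal.le_div_iff_mul_le (Or.inl hv0) (Or.inl measure_ball_lt_top.ne)] at h6
  have h7 := ENNReal.toReal_mono (ENNReal.mul_ne_top ENNReal.ofReal_ne_top measure_ball_lt_top.ne)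
    (h6.trans h5)
  simp only [Complex.volume_ball, ENNReal.toReal_mul, ENNReal.toReal_pow, ENNReal.coe_toReal,
    NNReal.coe_real_pi, ENNReal.toReal_ofReal (sq_nonneg _),
    ENNReal.toReal_ofReal (show 0 ≤ t / 4 by positivity),
    ENNReal.toReal_ofReal (show 0 ≤ 4 * t by positivity)] at h7
  refine le_of_sq_le_sq ?_ (by positivity)
  refine le_of_mul_le_mul_right (h7.trans (le_of_eq ?_)) (by positivity)
  ring

/-- the Poincaré inequality on a convex set -/
theorem poin (h : W u p q) (hK : MeasurableSet K) (hc : Convex ℝ K)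
    {x y : ℂ} {t : ℝ} (ht : 0 < t) (h1 : ball y (t / 4) ⊆ K) (h2 : K ⊆ ball x (2 * t)) :
    ∃ c, ns K (fun z => u z - c) ≤ 64 * t * (ns K p + ns K q) := by
  have h3 := h.hu.1.ae_eq_mk
  obtain ⟨c, h4⟩ := poin_meas (h.congr h3 EventuallyEq.rfl EventuallyEq.rfl)
    h.hu.1.stronglyMeasurable_mk.measurable hK hc ht h1 h2
  refine ⟨c, le_of_eq_of_le (nn_congr ?_) h4⟩
  filter_upwards [h3] with z hz
  simp only [indicator, hz]

/-- comparison of the constants of two overlapping sets -/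
lemma const_le (hu : MemLp u 2 (volume : Measure ℂ)) (hK : MeasurableSet K)
    (hS : MeasurableSet S) {x y c c' : ℂ} {t E : ℝ} (ht : 0 < t) (h1 : ball y (t / 4) ⊆ K ∩ S)
    (h2 : K ⊆ ball x (2 * t)) (h3 : S ⊆ ball x (2 * t)) (h4 : ns K (fun z => u z - c) ≤ E)
    (h5 : ns S (fun z => u z - c') ≤ E) : ‖c - c'‖ * (√Real.pi * (2 * t)) ≤ 16 * E := by
  have h6 := ns_tri (S := ball y (t / 4)) (f := fun _ => c - c')
    (m2_sub measurableSet_ball measure_ball_lt_top.ne hu c)
    (m2_sub measurableSet_ball measure_ball_lt_top.ne hu c') (Eventually.of_forall fun z _ => by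
      rw [show c - c' = -(u z - c) + (u z - c') by ring]
      exact (norm_add_le _ _).trans (by rw [norm_neg]))
  have h7 := ns_mono (h1.trans inter_subset_left) (m2_sub hK (vol_ne h2) hu c)
  have h8 := ns_mono (h1.trans inter_subset_right) (m2_sub hS (vol_ne h3) hu c')
  rw [ns_const_ball y (by positivity)] at h6
  linarith

lemma change_const (hu : MemLp u 2 (volume : Measure ℂ)) (hK : MeasurableSet K) {x : ℂ} {t : ℝ}
    (ht : 0 < t) (h2 : K ⊆ ball x (2 * t)) (c c' : ℂ) : ns K (fun z => u z - c') ≤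
      ns K (fun z => u z - c) + ‖c - c'‖ * (√Real.pi * (2 * t)) := by
  have h6 := ns_tri (S := K) (f := fun z => u z - c') (m2_sub hK (vol_ne h2) hu c)
    (m2_const hK (vol_ne h2) (c - c')) (Eventually.of_forall fun z _ => by
      rw [show u z - c' = (u z - c) + (c - c') by ring]
      exact norm_add_le _ _)
  have h7 := ns_mono h2 (m2_const measurableSet_ball measure_ball_lt_top.ne (c - c'))
  rw [ns_const_ball x (by positivity)] at h7
  linarith

/-- a cap of the disc -/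
def cap (x : ℂ) (t : ℝ) (e : ℂ) : Set ℂ := ball x (2 * t) ∩ {z | t / 2 < (conj e * (z - x)).re}

lemma cap_meas (x : ℂ) (t : ℝ) (e : ℂ) : MeasurableSet (cap x t e) :=
  measurableSet_ball.inter (isOpen_lt continuous_const (by fun_prop)).measurableSet

lemma cap_convex (x : ℂ) (t : ℝ) (e : ℂ) : Convex ℝ (cap x t e) := by
  refine (convex_ball _ _).inter ?_
  have hl : IsLinearMap ℝ fun z : ℂ => (conj e * z).re :=
    ⟨fun a b => by simp [mul_add], fun c a => by simp; ring⟩
  have h1 : {z | t / 2 < (conj e * (z - x)).re} = {z | t / 2 + (conj e * x).re < (conj e * z).re} := by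
    ext z
    rw [mem_ofPred_eq, mem_ofPred_eq, mul_sub, Complex.sub_re, lt_sub_iff_add_lt]
  rw [h1]
  exact convex_halfSpace_gt hl _

lemma cap_subset {x e : ℂ} {t : ℝ} (he : ‖e‖ = 1) :
    cap x t e ⊆ ball x (2 * t) \ closedBall x (t / 2) := by
  refine fun z hz => ⟨hz.1, fun h => ?_⟩
  have h1 : t / 2 < (conj e * (z - x)).re := hz.2
  have h2 := Complex.re_le_norm (conj e * (z - x))
  rw [norm_mul, Complex.norm_conj, he, one_mul] at h2
  linarith [mem_closedBall_iff_norm.1 h]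

lemma ball_subset_cap {x e w : ℂ} {t : ℝ} (ht : 0 < t) (he : ‖e‖ = 1) (h1 : (conj e * w).re = 1)
    (h2 : ‖w‖ ≤ 3 / 2) : ball (x + t * w) (t / 4) ⊆ cap x t e := by
  intro z hz
  have h3 := mem_ball_iff_norm.1 hz
  have h4 : z - x = (z - (x + t * w)) + t * w := by ring
  constructor
  · rw [mem_ball_iff_norm, h4]
    refine (norm_add_le _ _).trans_lt ?_
    rw [norm_mul, Complex.norm_real, Real.norm_of_nonneg ht.le]
    nlinarith
  · have h5 := Complex.abs_re_le_norm (conj e * (z - (x + t * w)))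
    rw [norm_mul, Complex.norm_conj, he, one_mul] at h5
    change t / 2 < _
    rw [h4, mul_add, Complex.add_re, mul_left_comm, Complex.re_ofReal_mul, h1]
    linarith [neg_abs_le (conj e * (z - (x + t * w))).re]

lemma norm_diag {a b : ℝ} (ha : a ^ 2 = 1) (hb : b ^ 2 = 1) : ‖(⟨a, b⟩ : ℂ)‖ ≤ 3 / 2 := by
  refine le_of_sq_le_sq ?_ (by norm_num)
  rw [Complex.sq_norm, Complex.normSq_mk]
  nlinarith

/-- the Poincaré inequality on an annulus -/
theorem poin_ann (h : W u p q) (x : ℂ) {t : ℝ} (ht : 0 < t) :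
    ∃ c, ns (ball x (2 * t) \ ball x t) (fun z => u z - c) ≤ 68 * (64 * t *
      (ns (ball x (2 * t) \ closedBall x (t / 2)) p + ns (ball x (2 * t) \ closedBall x (t / 2)) q)) := by
  set A := ball x (2 * t) \ closedBall x (t / 2) with hA
  have hAm : MeasurableSet A := measurableSet_ball.diff measurableSet_closedBall
  set E := 64 * t * (ns A p + ns A q) with hE
  have key : ∀ e w : ℂ, ‖e‖ = 1 → (conj e * w).re = 1 → ‖w‖ ≤ 3 / 2 →
      ∃ c, ns (cap x t e) (fun z => u z - c) ≤ E := by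
    intro e w he h1 h2
    obtain ⟨c, hc⟩ := poin h (cap_meas x t e) (cap_convex x t e) ht (ball_subset_cap ht he h1 h2)
      inter_subset_left
    refine ⟨c, hc.trans (mul_le_mul_of_nonneg_left (add_le_add ?_ ?_) (by positivity))⟩
    · exact ns_mono (cap_subset he) (m2_of hAm h.hp)
    · exact ns_mono (cap_subset he) (m2_of hAm h.hq)
  have n1 : ‖(⟨1, 1⟩ : ℂ)‖ ≤ 3 / 2 := norm_diag (by norm_num) (by norm_num)
  have n2 : ‖(⟨-1, 1⟩ : ℂ)‖ ≤ 3 / 2 := norm_diag (by norm_num) (by norm_num)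
  have n3 : ‖(⟨1, -1⟩ : ℂ)‖ ≤ 3 / 2 := norm_diag (by norm_num) (by norm_num)
  have eI : ‖Complex.I‖ = 1 := Complex.norm_I
  have e3 : ‖(-1 : ℂ)‖ = 1 := by simp
  have e4 : ‖-Complex.I‖ = 1 := by simp
  obtain ⟨c1, k1⟩ := key 1 _ norm_one (by simp) n1
  obtain ⟨c2, k2⟩ := key Complex.I _ eI (by simp) n1
  obtain ⟨c3, k3⟩ := key (-1) _ e3 (by simp) n2
  obtain ⟨c4, k4⟩ := key (-Complex.I) _ e4 (by simp) n3
  have s0 : ∀ e, cap x t e ⊆ ball x (2 * t) := fun e => inter_subset_left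
  have d21 := const_le h.hu (cap_meas x t _) (cap_meas x t _) ht (subset_inter
    (ball_subset_cap ht eI (by simp) n1) (ball_subset_cap ht norm_one (by simp) n1))
    (s0 _) (s0 _) k2 k1
  have d32 := const_le h.hu (cap_meas x t _) (cap_meas x t _) ht (subset_inter
    (ball_subset_cap ht e3 (by simp) n2) (ball_subset_cap ht eI (by simp) n2))
    (s0 _) (s0 _) k3 k2
  have d41 := const_le h.hu (cap_meas x t _) (cap_meas x t _) ht (subset_inter
    (ball_subset_cap ht e4 (by simp) n3) (ball_subset_cap ht norm_one (by simp) n3))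
    (s0 _) (s0 _) k4 k1
  have d31 : ‖c3 - c1‖ * (√Real.pi * (2 * t)) ≤ 32 * E := by
    have := mul_le_mul_of_nonneg_right (norm_sub_le_norm_sub_add_norm_sub c3 c2 c1)
      (show 0 ≤ √Real.pi * (2 * t) by positivity)
    linarith
  have l2 := change_const h.hu (cap_meas x t Complex.I) ht (s0 _) c2 c1
  have l3 := change_const h.hu (cap_meas x t (-1)) ht (s0 _) c3 c1
  have l4 := change_const h.hu (cap_meas x t (-Complex.I)) ht (s0 _) c4 c1
  have m : ∀ {S : Set ℂ}, MeasurableSet S → S ⊆ ball x (2 * t) → M2 S fun z => u z - c1 :=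
    fun hS hs => m2_sub hS (vol_ne hs) h.hu c1
  have hm := cap_meas x t
  have u1 := ns_union (m (hm 1) (s0 _)) (m (hm Complex.I) (s0 _))
  have u2 := ns_union (m (hm (-1)) (s0 _)) (m (hm (-Complex.I)) (s0 _))
  have u3 := ns_union (m ((hm 1).union (hm Complex.I)) (union_subset (s0 _) (s0 _)))
    (m ((hm (-1)).union (hm (-Complex.I))) (union_subset (s0 _) (s0 _)))
  have hsub : ball x (2 * t) \ ball x t ⊆
      cap x t 1 ∪ cap x t Complex.I ∪ (cap x t (-1) ∪ cap x t (-Complex.I)) := by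
    intro z hz
    by_contra hn
    simp only [cap, mem_union, mem_inter_iff, hz.1, true_and, mem_ofPred_eq, not_or, not_lt,
      map_one, one_mul, Complex.conj_I, map_neg, neg_mul, Complex.neg_re, Complex.I_mul_re,
      neg_neg] at hn
    refine hz.2 (mem_ball_iff_norm.2 (lt_of_pow_lt_pow_left₀ 2 ht.le ?_))
    rw [Complex.sq_norm, Complex.normSq_apply]
    nlinarith [hn.1.1, hn.1.2, hn.2.1, hn.2.2]
  have u4 := ns_mono hsub (m (((hm 1).union (hm Complex.I)).union ((hm (-1)).union (hm (-Complex.I))))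
    (union_subset (union_subset (s0 _) (s0 _)) (union_subset (s0 _) (s0 _))))
  exact ⟨c1, by linarith⟩

end Vale.Agent.P218N.B.Belt
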