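import Vale.Agent.P218N.H.Surf
import Vale.Agent.P218.H313.K
import Mathlib.MeasureTheory.Constructions.HaarToSphere

/-! Selection of a direction missed by the Gauss map: a crude area inequality and an averaging
argument. -/

open MeasureTheory Set Filter Topology Metric
open scoped ENNReal NNReal RealInnerProductSpace

namespace Vale.Agent.P218N.B

open Vale.Agent.P218.H313 Vale.Agent.P218N.H

set_option linter.unusedSectionVars false
set_option linter.unusedVariables false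

lemma two_mul_ofReal (t : ℝ) : 2 * ENNReal.ofReal t = ENNReal.ofReal (2 * t) := by
  rw [ENNReal.ofReal_mul zero_le_two, ENNReal.ofReal_ofNat]

/-- **crude area inequality** -/
theorem area_crude {X Y : Type*} [MetricSpace X] [SecondCountableTopology X] [MeasurableSpace X]
    [BorelSpace X] [MetricSpace Y] [MeasurableSpace Y] [BorelSpace Y] {K : Set X}
    (hK : MeasurableSet K) (hfin : (μH[2] : Measure X) K ≠ ∞) {f : X → Y} {L : X → ℝ}
    (hL : ContinuousOn L K) (hL0 : ∀ p ∈ K, 0 ≤ L p)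
    (hf : ∀ p ∈ K, ∀ ε > 0, ∃ r > 0, ∀ y ∈ K ∩ ball p r, ∀ y' ∈ K ∩ ball p r,
      dist (f y) (f y') ≤ (L p + ε) * dist y y') :
    (μH[2] : Measure Y) (f '' K) ≤ 2 * ∫⁻ x in K, ENNReal.ofReal (L x ^ 2) ∂μH[2] := by
  have key : ∀ ε : ℝ, 0 < ε → (μH[2] : Measure Y) (f '' K) ≤
      2 * ∫⁻ x in K, ENNReal.ofReal (L x ^ 2) ∂μH[2] + ENNReal.ofReal (8 * ε ^ 2) * μH[2] K := by
    intro ε hε
    have h1 : ∀ p ∈ K, ∃ r > 0, (∀ y ∈ K ∩ ball p r, ∀ y' ∈ K ∩ ball p r,
        dist (f y) (f y') ≤ (L p + ε) * dist y y') ∧ ∀ y ∈ K ∩ ball p r, L p ≤ L y + ε := by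
      intro p hp
      obtain ⟨r, hr, h⟩ := hf p hp ε hε
      obtain ⟨r', hr', h'⟩ := Metric.continuousWithinAt_iff.1 (hL p hp) ε hε
      refine ⟨min r r', lt_min hr hr', fun y hy y' hy' => h y ⟨hy.1, ?_⟩ y' ⟨hy'.1, ?_⟩,
        fun y hy => ?_⟩
      · exact ball_subset_ball (min_le_left _ _) hy.2
      · exact ball_subset_ball (min_le_left _ _) hy'.2
      · have := h' hy.1 (lt_of_lt_of_le hy.2 (min_le_right _ _))
        rw [Real.dist_eq, abs_lt] at this
        linarith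
    choose! r hr h2 h3 using h1
    obtain ⟨t, htK, htc, hcov⟩ := TopologicalSpace.countable_cover_nhdsWithin
      (f := fun p => K ∩ ball p (r p)) (s := K)
      (fun p hp => inter_mem_nhdsWithin K (ball_mem_nhds p (hr p hp)))
    rcases t.eq_empty_or_nonempty with rfl | hne
    · have : K = ∅ := by simpa using hcov
      simp [this]
    obtain ⟨p, rfl⟩ := htc.exists_eq_range hne
    set A : ℕ → Set X := disjointed fun i => K ∩ ball (p i) (r (p i)) with hA
    have hAm : ∀ i, MeasurableSet (A i) :=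
      MeasurableSet.disjointed fun i => hK.inter measurableSet_ball
    have hAs : ∀ i, A i ⊆ K ∩ ball (p i) (r (p i)) := disjointed_subset _
    have hU : ⋃ i, A i = K := by
      rw [hA, iUnion_disjointed]
      refine Subset.antisymm (iUnion_subset fun i => inter_subset_left) ?_
      simpa using hcov
    have hp : ∀ i, p i ∈ K := fun i => htK ⟨i, rfl⟩
    have h4 : ∀ i, (μH[2] : Measure Y) (f '' A i) ≤
        ∫⁻ x in A i, (2 * ENNReal.ofReal (L x ^ 2) + ENNReal.ofReal (8 * ε ^ 2)) ∂μH[2] := by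
      intro i
      have h0 : 0 ≤ L (p i) + ε := add_nonneg (hL0 _ (hp i)) hε.le
      have h5 : LipschitzOnWith (L (p i) + ε).toNNReal f (A i) :=
        LipschitzOnWith.of_dist_le' fun y hy y' hy' => h2 _ (hp i) y (hAs i hy) y' (hAs i hy')
      refine (h5.hausdorffMeasure_image_le zero_le_two).trans ?_
      rw [← setLIntegral_const]
      refine setLIntegral_mono' (hAm i) fun y hy => ?_
      have h6 := h3 _ (hp i) y (hAs i hy)
      have h7 := hL0 y (hAs i hy).1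
      rw [ENNReal.rpow_two, two_mul_ofReal, ← ENNReal.ofReal_add (by positivity) (by positivity)]
      refine (ENNReal.ofReal_pow h0 2).ge.trans (ENNReal.ofReal_le_ofReal ?_)
      have h8 : (L (p i) + ε) ^ 2 ≤ (L y + 2 * ε) ^ 2 := pow_le_pow_left₀ h0 (by linarith) 2
      nlinarith [sq_nonneg (L y - 2 * ε)]
    calc (μH[2] : Measure Y) (f '' K) = μH[2] (⋃ i, f '' A i) := by rw [← image_iUnion, hU]
      _ ≤ ∑' i, (μH[2] : Measure Y) (f '' A i) := measure_iUnion_le _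
      _ ≤ ∑' i, ∫⁻ x in A i, (2 * ENNReal.ofReal (L x ^ 2) + ENNReal.ofReal (8 * ε ^ 2)) ∂μH[2] :=
          ENNReal.tsum_le_tsum h4
      _ = ∫⁻ x in K, (2 * ENNReal.ofReal (L x ^ 2) + ENNReal.ofReal (8 * ε ^ 2)) ∂μH[2] := by
          rw [← lintegral_iUnion hAm (disjoint_disjointed _), hU]
      _ = _ := by
          rw [lintegral_add_right _ measurable_const, lintegral_const_mul' _ _ (by simp),
            setLIntegral_const]
  have h1 : Tendsto (fun ε : ℝ => ENNReal.ofReal (8 * ε ^ 2) * (μH[2] : Measure X) K) (𝓝[>] 0)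
      (𝓝 0) := by
    have h2 : Tendsto (fun ε : ℝ => ENNReal.ofReal (8 * ε ^ 2)) (𝓝[>] 0) (𝓝 0) := by
      have h3 : Continuous fun ε : ℝ => ENNReal.ofReal (8 * ε ^ 2) :=
        ENNReal.continuous_ofReal.comp (by fun_prop)
      simpa using (h3.tendsto 0).mono_left nhdsWithin_le_nhds
    simpa using ENNReal.Tendsto.mul_const h2 (Or.inr hfin)
  have h2 := (tendsto_const_nhds (x := 2 * ∫⁻ x in K, ENNReal.ofReal (L x ^ 2) ∂μH[2])).add h1
  rw [add_zero] at h2
  exact ge_of_tendsto h2 (eventually_nhdsWithin_of_forall fun ε hε => key ε hε)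

/-- the measure of the unit disc -/
noncomputable def cD : ℝ := (μH[2] : Measure E2).real (ball 0 1)

lemma haar2 : (μH[2] : Measure E2).IsAddHaarMeasure := by
  simpa using isAddHaar_euc 2

lemma cD_pos : 0 < cD :=
  haveI := haar2
  ENNReal.toReal_pos (measure_ball_pos _ _ one_pos).ne' measure_ball_lt_top.ne

lemma disc_meas (x : E2) {r : ℝ} (hr : 0 < r) :
    (μH[2] : Measure E2) (ball x r) = ENNReal.ofReal (cD * r ^ 2) := by
  have := haar2
  rw [Measure.addHaar_ball_of_pos _ x hr, finrank_euclideanSpace_fin, mul_comm cD,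
    ENNReal.ofReal_mul (by positivity), cD, Measure.real,
    ENNReal.ofReal_toReal measure_ball_lt_top.ne]

lemma disc_inv {δ : ℝ} (hδ : 0 < δ) :
    ∫⁻ u in ball (0 : E2) δ, ENNReal.ofReal ‖u‖⁻¹ ∂μH[2] = ENNReal.ofReal (2 * cD * δ) := by
  have := haar2
  have h1 : IntegrableOn (fun u : E2 => ‖u‖⁻¹) (ball 0 δ) μH[2] := by
    rw [integrableOn_fun_norm_addHaar (μH[2] : Measure E2) (f := fun y : ℝ => y⁻¹),
      finrank_euclideanSpace_fin]
    refine (integrableOn_congr_fun (g := fun _ => (1 : ℝ)) (fun y hy => ?_) measurableSet_Ioo).2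
      (integrableOn_const (by simp))
    simp [hy.1.ne']
  rw [← ofReal_integral_eq_lintegral_ofReal h1 (Eventually.of_forall fun u => by positivity)]
  congr 1
  have h2 := integral_fun_norm_addHaar (μH[2] : Measure E2) ((Iio δ).indicator fun y : ℝ => y⁻¹)
  have h3 : (fun u : E2 => (Iio δ).indicator (fun y : ℝ => y⁻¹) ‖u‖) =
      (ball (0 : E2) δ).indicator fun u => ‖u‖⁻¹ := by
    ext u; simp [indicator]
  rw [h3, integral_indicator measurableSet_ball] at h2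
  rw [h2, finrank_euclideanSpace_fin]
  have h4 : ∫ y in Ioi (0 : ℝ), y ^ (2 - 1) • (Iio δ).indicator (fun y : ℝ => y⁻¹) y = δ := by
    rw [setIntegral_congr_fun (g := (Iio δ).indicator fun _ => (1 : ℝ)) measurableSet_Ioi
      (fun y hy => ?_), integral_indicator measurableSet_Iio, Measure.restrict_restrict
      measurableSet_Iio, Iio_inter_Ioi]
    · simp [hδ.le]
    · by_cases h : y < δ <;> simp [indicator, h, (ne_of_gt hy : y ≠ 0)]
  rw [h4, cD]
  simp only [smul_eq_mul, nsmul_eq_mul, Nat.cast_ofNat]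
  ring

lemma disc_inv_le {δ : ℝ} (hδ : 0 < δ) (v : E2) :
    ∫⁻ u in ball (0 : E2) δ, ENNReal.ofReal ‖u - v‖⁻¹ ∂μH[2] ≤ ENNReal.ofReal (3 * cD * δ) := by
  have := haar2
  have h1 : ∀ u : E2, ENNReal.ofReal ‖u - v‖⁻¹ ≤
      (ball (0 : E2) δ).indicator (fun u => ENNReal.ofReal ‖u‖⁻¹) (u - v) + ENNReal.ofReal δ⁻¹ := by
    intro u
    by_cases h : u - v ∈ ball (0 : E2) δ
    · rw [indicator_of_mem h]; exact le_self_add
    · rw [mem_ball_zero_iff, not_lt] at h
      exact le_add_left (ENNReal.ofReal_le_ofReal (inv_anti₀ hδ h))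
  have hc := cD_pos
  calc _ ≤ ∫⁻ u in ball (0 : E2) δ, ((ball (0 : E2) δ).indicator
        (fun u => ENNReal.ofReal ‖u‖⁻¹) (u - v) + ENNReal.ofReal δ⁻¹) ∂μH[2] := lintegral_mono h1
    _ ≤ ∫⁻ u, (ball (0 : E2) δ).indicator (fun u => ENNReal.ofReal ‖u‖⁻¹) (u - v) ∂μH[2] +
        ENNReal.ofReal δ⁻¹ * μH[2] (ball (0 : E2) δ) := by
      rw [lintegral_add_right _ measurable_const, setLIntegral_const]
      gcongr
      exact Measure.restrict_le_self
    _ = _ := by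
      rw [lintegral_sub_right_eq_self, lintegral_indicator measurableSet_ball, disc_inv hδ,
        disc_meas _ hδ, ← ENNReal.ofReal_mul (by positivity),
        ← ENNReal.ofReal_add (by positivity) (by positivity)]
      congr 1
      field_simp
      ring

/-- a frame of the plane orthogonal to `e` -/
lemma exists_frame {e : E3} (he : ‖e‖ = 1) : ∃ ι : E2 →ₗᵢ[ℝ] E3, (∀ u, ⟪e, ι u⟫ = 0) ∧
    ∀ y, ⟪e, y⟫ = 0 → ∃ u, ι u = y := by
  have he0 : e ≠ 0 := by rintro rfl; simp at he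
  have h1 : Module.finrank ℝ (ℝ ∙ e)ᗮ = 2 := by
    have := Submodule.finrank_add_finrank_orthogonal (ℝ ∙ e)
    rw [finrank_span_singleton he0, finrank_euclideanSpace_fin] at this
    omega
  let b := (stdOrthonormalBasis ℝ (ℝ ∙ e)ᗮ).reindex (finCongr h1)
  refine ⟨(ℝ ∙ e)ᗮ.subtypeₗᵢ.comp b.repr.symm.toLinearIsometry, fun u => ?_, fun y hy => ?_⟩
  · exact Submodule.mem_orthogonal_singleton_iff_inner_right.1 (b.repr.symm u).2
  · refine ⟨b.repr ⟨y, Submodule.mem_orthogonal_singleton_iff_inner_right.2 hy⟩, ?_⟩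
    simp

/-- the point of the affine plane `e + e^⊥` on the line through `n` -/
noncomputable def hitV (e : E3) (Q : E3 →L[ℝ] E3) : E3 := (1 - ‖Q e‖ ^ 2)⁻¹ • (e - Q e) - e

lemma hitV_perp {e n : E3} (he : ‖e‖ = 1) (hn : ‖n‖ = 1) (h : ⟪n, e⟫ ≠ 0) :
    hitV e (perp n) = ⟪n, e⟫⁻¹ • n - e := by
  rw [hitV, norm_perp_sq hn, he, perp_apply, sub_sub_cancel, smul_smul]
  congr 2
  field_simp
  ring

lemma inner_hitV {e n : E3} (he : ‖e‖ = 1) (hn : ‖n‖ = 1) (h : ⟪n, e⟫ ≠ 0) :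
    ⟪e, hitV e (perp n)⟫ = 0 := by
  rw [hitV_perp he hn h, inner_sub_right, real_inner_smul_right, real_inner_comm n e,
    inv_mul_cancel₀ h, real_inner_self_eq_norm_sq, he]
  ring

lemma norm_perp_ge {e n z : E3} (he : ‖e‖ = 1) (hn : ‖n‖ = 1) (h : ⟪n, e⟫ ≠ 0)
    (hz : ⟪e, z⟫ = 0) : |⟪n, e⟫| * ‖z - hitV e (perp n)‖ ≤ ‖perp n (e + z)‖ := by
  set y := z - hitV e (perp n) with hy
  have h1 : perp n (e + z) = perp n y := by
    rw [hy, hitV_perp he hn h, map_sub, map_sub, map_smul, perp_self hn, map_add]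
    simp only [smul_zero, zero_sub, sub_neg_eq_add]
    exact add_comm _ _
  have h2 : ⟪e, y⟫ = 0 := by rw [hy, inner_sub_right, hz, inner_hitV he hn h, sub_zero]
  have h3 : ⟪n, y⟫ = ⟪perp e n, y⟫ := by rw [inner_perp_left, perp_of_inner h2]
  have h4 : ⟪n, y⟫ ^ 2 ≤ (1 - ⟪n, e⟫ ^ 2) * ‖y‖ ^ 2 := by
    have h5 := norm_perp_sq he n
    rw [hn, real_inner_comm n e, one_pow] at h5
    rw [h3, ← h5, ← mul_pow, ← sq_abs]
    gcongr
    exact abs_real_inner_le_norm _ _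
  rw [h1]
  refine le_of_sq_le_sq ?_ (norm_nonneg _)
  rw [norm_perp_sq hn, mul_pow, sq_abs]
  linarith

lemma kernel_le {e n : E3} (he : ‖e‖ = 1) (hn : ‖n‖ = 1) (h : ‖perp n e‖ ^ 2 ≤ 3 / 4)
    {ι : E2 →ₗᵢ[ℝ] E3} (h1 : ∀ u, ⟪e, ι u⟫ = 0) (h2 : ∀ y, ⟪e, y⟫ = 0 → ∃ u, ι u = y) {δ : ℝ}
    (hδ : 0 < δ) : ∫⁻ u in ball (0 : E2) δ, ENNReal.ofReal ‖perp n (e + ι u)‖⁻¹ ∂μH[2] ≤
      ENNReal.ofReal (6 * cD * δ) := by
  have := haar2
  rw [norm_perp_sq hn, he] at h
  have h3 : 1 / 2 ≤ |⟪n, e⟫| := by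
    refine le_of_sq_le_sq ?_ (abs_nonneg _)
    rw [sq_abs]; linarith
  have h4 : ⟪n, e⟫ ≠ 0 := by
    intro h0; rw [h0, abs_zero] at h3; linarith
  obtain ⟨v, hv⟩ := h2 _ (inner_hitV he hn h4)
  have h5 : ∀ᵐ u ∂(μH[2] : Measure E2).restrict (ball 0 δ),
      ENNReal.ofReal ‖perp n (e + ι u)‖⁻¹ ≤ 2 * ENNReal.ofReal ‖u - v‖⁻¹ := by
    refine ae_restrict_of_ae ?_
    filter_upwards [(countable_singleton v).ae_notMem (μH[2] : Measure E2)] with u hu
    have h6 := norm_perp_ge he hn h4 (h1 u)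
    rw [← hv, ← map_sub, ι.norm_map] at h6
    have h7 : 0 < ‖u - v‖ := norm_pos_iff.2 (sub_ne_zero.2 hu)
    rw [two_mul_ofReal]
    refine ENNReal.ofReal_le_ofReal ?_
    calc _ ≤ (1 / 2 * ‖u - v‖)⁻¹ := inv_anti₀ (by positivity) (le_trans (by gcongr) h6)
      _ = _ := by field_simp
  refine (lintegral_mono_ae h5).trans ?_
  rw [lintegral_const_mul' _ _ (by simp)]
  refine (mul_le_mul_right (disc_inv_le hδ v) 2).trans (le_of_eq ?_)
  rw [two_mul_ofReal]
  congr 1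
  ring

/-- **selection of a missed direction** -/
theorem select {e : E3} (he : ‖e‖ = 1) {δ : ℝ} (hδ : 0 < δ) {ν : Measure E3} [SFinite ν]
    {P : E3 → E3 →L[ℝ] E3} (hP : AEMeasurable P ν)
    (hν : ∀ᵐ x ∂ν, ∃ n : E3, ‖n‖ = 1 ∧ P x = perp n ∧ ‖perp n e‖ ^ 2 ≤ 3 / 4)
    {Z : Set E3} (hZ : (μH[2] : Measure E3) Z ≤ ENNReal.ofReal (cD * δ ^ 2 / 2)) :
    ∃ z : E3, ⟪e, z⟫ = 0 ∧ ‖z‖ < δ ∧ z ∉ Z ∧
      ∫⁻ x, ENNReal.ofReal ‖P x (e + z)‖⁻¹ ∂ν ≤ ENNReal.ofReal (12 / δ) * ν univ := by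
  have := haar2
  obtain ⟨ι, h1, h2⟩ := exists_frame he
  have hc := cD_pos
  set Z' := toMeasurable (μH[2] : Measure E2) (ι ⁻¹' Z) with hZ'
  have hZm : (μH[2] : Measure E2) Z' ≤ ENNReal.ofReal (cD * δ ^ 2 / 2) := by
    rw [hZ', measure_toMeasurable, ι.isometry.hausdorffMeasure_preimage (Or.inl zero_le_two)]
    exact (measure_mono inter_subset_left).trans hZ
  set S := ball (0 : E2) δ \ Z' with hS
  have hS1 : ENNReal.ofReal (cD * δ ^ 2 / 2) ≤ (μH[2] : Measure E2) S := by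
    refine le_trans ?_ le_measure_sdiff
    rw [disc_meas _ hδ]
    refine le_trans (le_of_eq ?_) (tsub_le_tsub_left hZm _)
    rw [← ENNReal.ofReal_sub _ (by positivity)]
    congr 1
    ring
  have hS0 : (μH[2] : Measure E2) S ≠ 0 :=
    (lt_of_lt_of_le (ENNReal.ofReal_pos.2 (by positivity)) hS1).ne'
  have hS2 : (μH[2] : Measure E2) S ≠ ∞ :=
    ((measure_mono sdiff_subset).trans_lt measure_ball_lt_top).ne
  have hm : AEMeasurable (fun p : E2 × E3 => ENNReal.ofReal ‖P p.2 (e + ι p.1)‖⁻¹)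
      (((μH[2] : Measure E2).restrict (ball 0 δ)).prod ν) := by
    have h3 : Continuous fun q : (E3 →L[ℝ] E3) × E2 => ‖q.1 (e + ι q.2)‖ := by fun_prop
    exact (h3.measurable.comp_aemeasurable
      (hP.comp_snd.prodMk measurable_fst.aemeasurable)).inv.ennreal_ofReal
  have hG : ∫⁻ u in ball (0 : E2) δ, ∫⁻ x, ENNReal.ofReal ‖P x (e + ι u)‖⁻¹ ∂ν ∂μH[2] ≤
      ENNReal.ofReal (6 * cD * δ) * ν univ := by
    rw [lintegral_lintegral_swap hm, ← lintegral_const]
    refine lintegral_mono_ae ?_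
    filter_upwards [hν] with x hx
    obtain ⟨n, hn, hx1, hx2⟩ := hx
    rw [hx1]
    exact kernel_le he hn hx2 h1 h2 hδ
  obtain ⟨u, hu, hle⟩ := exists_le_setLAverage hS0 hS2
    (hm.lintegral_prod_right'.mono_measure (Measure.restrict_mono sdiff_subset le_rfl))
  refine ⟨ι u, h1 u, ?_, fun h => hu.2 (subset_toMeasurable _ _ h), hle.trans ?_⟩
  · rw [ι.norm_map]; exact mem_ball_zero_iff.1 hu.1
  · rw [setLAverage_eq]
    refine (ENNReal.div_le_div ((lintegral_mono_set sdiff_subset).trans hG) hS1).trans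
      (le_of_eq ?_)
    rw [mul_comm, mul_div_assoc, ← ENNReal.ofReal_div_of_pos (by positivity), mul_comm]
    congr 2
    field_simp
    ring

end Vale.Agent.P218N.B
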