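import Vale.Agent.P218N.B.Glue
import Vale.Agent.P218N.B.Select

/-! The cap lemma: the energy where the normal lies in a small cap is controlled by the mean
curvature and a boundary term. -/

open MeasureTheory Set Filter Topology Metric
open scoped ENNReal NNReal RealInnerProductSpace

namespace Vale.Agent.P218N.B

open Vale.Agent.P218.H313 Vale.Agent.P218N.H

set_option linter.unusedSectionVars false
set_option linter.unusedVariables false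

variable {M : Set E3} {ζ : E3 → ℝ}

lemma ofReal_ind {X : Type*} (S : Set X) (f : X → ℝ) (x : X) :
    ENNReal.ofReal (S.indicator f x) = S.indicator (fun y => ENNReal.ofReal (f y)) x := by
  by_cases h : x ∈ S <;> simp [h]

/-- the boundary term -/
noncomputable def bdT (M : Set E3) (ζ : E3 → ℝ) (x : E3) : ℝ :=
  |ζ x| * ‖gradM M ζ x‖ * √(Asq M x)

lemma bdT_nonneg (M : Set E3) (ζ : E3 → ℝ) (x : E3) : 0 ≤ bdT M ζ x := by
  unfold bdT; positivity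

lemma Sf.continuousOn_bdT (h : Sf M) (hζ : ContDiff ℝ 1 ζ) : ContinuousOn (bdT M ζ) M :=
  (hζ.continuous.abs.continuousOn.mul (h.surf.continuousOn_gradM hζ).norm).mul
    h.surf.continuousOn_Asq.sqrt

lemma Sf.continuousOn_nP (h : Sf M) (a : E3) : ContinuousOn (fun x => ‖PT M x a‖) M :=
  (h.surf.continuousOn_PT.clm_apply continuousOn_const).norm

lemma Sf.null_lt (h : Sf M) (a : E3) (c : ℝ) : NullMeasurableSet {x | ‖PT M x a‖ < c} (ar M) :=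
  nullMeasurableSet_lt (h.aemeas (h.continuousOn_nP a)) aemeasurable_const

lemma Sf.null_le (h : Sf M) (a : E3) (c : ℝ) : NullMeasurableSet {x | ‖PT M x a‖ ≤ c} (ar M) :=
  nullMeasurableSet_le (h.aemeas (h.continuousOn_nP a)) aemeasurable_const

lemma Sf.null_gt (h : Sf M) (a : E3) (c : ℝ) : NullMeasurableSet {x | c < ‖PT M x a‖} (ar M) :=
  nullMeasurableSet_lt aemeasurable_const (h.aemeas (h.continuousOn_nP a))

lemma Sf.null_ge (h : Sf M) (a : E3) (c : ℝ) : NullMeasurableSet {x | c ≤ ‖PT M x a‖} (ar M) :=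
  nullMeasurableSet_le aemeasurable_const (h.aemeas (h.continuousOn_nP a))

lemma Sf.norm_capM (h : Sf M) {x : E3} (hx : x ∈ M) {a : E3} (ha : ‖a‖ ≤ 3 / 2) {g : ℝ → ℝ}
    {c : ℝ} (hg : |g (‖PT M x a‖ ^ 2)| ≤ c) :
    ‖capM (fun t => g t / t) M a x‖ ≤ 3 / 2 * c * √(Asq M x) * ‖PT M x a‖⁻¹ := by
  have hc : 0 ≤ c := (abs_nonneg _).trans hg
  by_cases h0 : ‖PT M x a‖ = 0
  · simp [capM, h0]
  have h1 : ‖tr (sff M x) • PT M x a - sff M x a‖ ≤ √(Asq M x) * ‖PT M x a‖ := by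
    refine le_of_sq_le_sq ?_ (by positivity)
    rw [mul_pow, Real.sq_sqrt (h.surf.Asq_nonneg hx)]
    exact (newton_sq fr3 (h.surf.norm_nu hx) (h.surf.sff_symm hx) (h.surf.sff_nu hx) a).2.1
  have h2 : |⟪nu M x, a⟫| ≤ 3 / 2 := by
    have := abs_real_inner_le_norm (nu M x) a
    rw [h.surf.norm_nu hx] at this
    linarith
  rw [capM, norm_smul, Real.norm_eq_abs, abs_mul, abs_div, abs_of_nonneg (sq_nonneg ‖PT M x a‖)]
  calc _ ≤ 3 / 2 * (c / ‖PT M x a‖ ^ 2) * (√(Asq M x) * ‖PT M x a‖) := by gcongr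
    _ = _ := by field_simp

lemma Sf.cap_bd (h : Sf M) {x : E3} (hx : x ∈ M) {a : E3} (ha : ‖a‖ ≤ 3 / 2) {g : ℝ → ℝ}
    {c : ℝ} (ζ : E3 → ℝ) (hg : |g (‖PT M x a‖ ^ 2)| ≤ c) :
    2 * (2 * ζ x * ⟪gradM M ζ x, capM (fun t => g t / t) M a x⟫) ≤
      6 * c * (bdT M ζ x * ‖PT M x a‖⁻¹) := by
  have e5 := h.norm_capM hx ha hg
  generalize capM (fun t => g t / t) M a x = Y at e5
  have e6 := abs_real_inner_le_norm (gradM M ζ x) Y
  calc _ ≤ 4 * (|ζ x| * |⟪gradM M ζ x, Y⟫|) := by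
        rw [← abs_mul]; linarith [le_abs_self (ζ x * ⟪gradM M ζ x, Y⟫)]
    _ ≤ 4 * (|ζ x| * (‖gradM M ζ x‖ * (3 / 2 * c * √(Asq M x) * ‖PT M x a‖⁻¹))) := by
        gcongr
        exact e6.trans (by gcongr)
    _ = _ := by unfold bdT; ring

lemma cap_real {τ α p : ℝ} (hτ : 0 < τ) (hτ1 : τ ≤ 1 / 2) (h1 : 1 ≤ α) (h2 : α ≤ 3 / 2)
    (h0 : 0 ≤ p) (hp : p ≤ α) :
    0 ≤ τ ^ 2 * psi (p ^ 2 / τ ^ 2) - 2 * (α ^ 2 - p ^ 2) * psi' (p ^ 2 / τ ^ 2) ∧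
    τ ^ 2 * psi (p ^ 2 / τ ^ 2) - 2 * (α ^ 2 - p ^ 2) * psi' (p ^ 2 / τ ^ 2) ≤ 10 ∧
    (p ≤ 2 * τ / 3 →
      1 ≤ τ ^ 2 * psi (p ^ 2 / τ ^ 2) - 2 * (α ^ 2 - p ^ 2) * psi' (p ^ 2 / τ ^ 2)) ∧
    (τ ≤ p → τ ^ 2 * psi (p ^ 2 / τ ^ 2) - 2 * (α ^ 2 - p ^ 2) * psi' (p ^ 2 / τ ^ 2) = 0 ∧
      psi (p ^ 2 / τ ^ 2) = 0) ∧ |τ ^ 2 * psi (p ^ 2 / τ ^ 2)| ≤ τ ^ 2 := by
  have ht : 0 < τ ^ 2 := by positivity
  have hs : 0 ≤ α ^ 2 - p ^ 2 := by nlinarith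
  have e1 := psi_nonneg (p ^ 2 / τ ^ 2)
  have e2 := psi'_nonpos (p ^ 2 / τ ^ 2)
  have e3 := psi_le_one (show 0 ≤ p ^ 2 / τ ^ 2 by positivity)
  have e4 := (abs_le.1 (psi'_bound (show 0 ≤ p ^ 2 / τ ^ 2 by positivity))).1
  have e0 := mul_nonneg ht.le e1
  have e9 : τ ^ 2 * psi (p ^ 2 / τ ^ 2) ≤ τ ^ 2 := mul_le_of_le_one_right ht.le e3
  refine ⟨by nlinarith [mul_nonneg hs (neg_nonneg.2 e2)], ?_, fun hx => ?_, fun hx => ?_,
    by rwa [abs_of_nonneg e0]⟩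
  · have e5 : α ^ 2 - p ^ 2 ≤ 9 / 4 := by nlinarith
    have e6 : τ ^ 2 ≤ 1 := by nlinarith
    nlinarith
  · have e5 : p ^ 2 / τ ^ 2 ≤ 4 / 9 := by rw [div_le_iff₀ ht]; nlinarith
    have e6 : psi' (p ^ 2 / τ ^ 2) ≤ -1 := by
      have := le_max_left (1 - p ^ 2 / τ ^ 2) 0
      unfold psi'; linarith
    have e7 : 1 / 2 ≤ α ^ 2 - p ^ 2 := by nlinarith
    nlinarith
  · have e5 : 1 ≤ p ^ 2 / τ ^ 2 := by rw [one_le_div ht]; gcongr
    rw [psi_zero e5, psi'_zero e5]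
    exact ⟨by ring, rfl⟩

theorem Sf.cap_one (h : Sf M) (hζ : Tst M ζ) {a : E3} {τ : ℝ} (hτ : 0 < τ) (hτ1 : τ ≤ 1 / 2)
    (ha1 : 1 ≤ ‖a‖) (ha2 : ‖a‖ ≤ 3 / 2) (ha : ∀ x ∈ tsupport ζ ∩ M, PT M x a ≠ 0) :
    ∫⁻ x in {x | ‖PT M x a‖ ≤ 2 * τ / 3}, ENNReal.ofReal (ζ x ^ 2 * Asq M x) ∂ar M ≤
      ∫⁻ x in {x | ‖PT M x a‖ < τ}, ENNReal.ofReal (10 * (ζ x ^ 2 * ‖Hv M x‖ ^ 2)
        + 6 * τ ^ 2 * (bdT M ζ x * ‖PT M x a‖⁻¹)) ∂ar M := by
  have ht : 0 < τ ^ 2 := by positivity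
  have hg : ContDiff ℝ 1 fun t => τ ^ 2 * psi (t / τ ^ 2) :=
    contDiff_const.mul (contDiff_psi.comp (contDiff_id.div_const _))
  have hg' : ∀ t, HasDerivAt (fun t => τ ^ 2 * psi (t / τ ^ 2)) (psi' (t / τ ^ 2)) t := by
    intro t
    refine (((hasDerivAt_psi _).comp t ((hasDerivAt_id t).div_const (τ ^ 2))).const_mul
      (τ ^ 2)).congr_deriv ?_
    simp only [id]
    field_simp
  obtain ⟨h1, h2⟩ := h.cap_div hζ hg hg' ha
  rw [← lintegral_indicator₀ (h.null_le a _), ← lintegral_indicator₀ (h.null_lt a _)]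
  simp only [← ofReal_ind]
  refine lint_le_of_div (h1.const_mul 2) (by rw [integral_const_mul, h2, mul_zero]) ?_ ?_
  · refine AEMeasurable.indicator₀ ?_ (h.null_lt a _)
    refine (h.aemeas ?_).add (((h.aemeas (h.continuousOn_bdT hζ.cd)).mul
      (h.aemeas (h.continuousOn_nP a)).inv).const_mul _)
    exact continuousOn_const.mul ((hζ.cd.continuous.pow 2).continuousOn.mul
      (h.surf.continuousOn_Hv.norm.pow 2))
  filter_upwards [h.ae_mem] with x hx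
  have hA := h.surf.Asq_nonneg hx
  refine ⟨indicator_apply_nonneg fun _ => by positivity,
    indicator_nonneg (fun y _ => by have := bdT_nonneg M ζ y; positivity) x, ?_⟩
  obtain ⟨e1, e2, e3, e4, e5⟩ := cap_real hτ hτ1 ha1 ha2 (norm_nonneg _)
    (h.surf.norm_PT_apply_le hx a)
  have hK : 2 * Kg M x = ‖Hv M x‖ ^ 2 - Asq M x := by rw [h.surf.Asq_eq hx]; ring
  have hY := fun c => h.cap_bd hx ha2 (g := fun t => τ ^ 2 * psi (t / τ ^ 2)) (c := c) ζ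
  generalize τ ^ 2 * psi (‖PT M x a‖ ^ 2 / τ ^ 2)
    - 2 * (‖a‖ ^ 2 - ‖PT M x a‖ ^ 2) * psi' (‖PT M x a‖ ^ 2 / τ ^ 2) = F at e1 e2 e3 e4 ⊢
  have hu : {x | ‖PT M x a‖ ≤ 2 * τ / 3}.indicator (fun x => ζ x ^ 2 * Asq M x) x ≤
      ζ x ^ 2 * Asq M x * F :=
    indicator_apply_le' (fun hx' => le_mul_of_one_le_right (by positivity) (e3 hx'))
      fun _ => by positivity
  refine hu.trans ?_
  have e8 : ζ x ^ 2 * Asq M x * F = ζ x ^ 2 * ‖Hv M x‖ ^ 2 * F - 2 * (ζ x ^ 2 * (Kg M x * F)) := by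
    linear_combination (ζ x ^ 2 * F) * hK
  rw [e8]
  by_cases hx' : ‖PT M x a‖ < τ
  · rw [indicator_of_mem (show x ∈ {x | ‖PT M x a‖ < τ} from hx')]
    have e6 := hY _ e5
    have e7 : ζ x ^ 2 * ‖Hv M x‖ ^ 2 * F ≤ ζ x ^ 2 * ‖Hv M x‖ ^ 2 * 10 := by gcongr
    linarith
  · rw [indicator_of_notMem (show x ∉ {x | ‖PT M x a‖ < τ} from hx')]
    obtain ⟨e6, e7⟩ := e4 (not_lt.1 hx')
    have e9 := hY 0 (by simp [e7])
    rw [e6]
    linarith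

lemma lip_hitV {e n m : E3} (he : ‖e‖ = 1) (hn : ‖n‖ = 1) (hm : ‖m‖ = 1)
    (h1 : ‖perp n e‖ ≤ 1 / 2) (h2 : ‖perp m e‖ ≤ 1 / 2) :
    ‖hitV e (perp n) - hitV e (perp m)‖ ≤ 6 * ‖n - m‖ := by
  have key : ∀ n : E3, ‖n‖ = 1 → ‖perp n e‖ ≤ 1 / 2 → 1 / 2 ≤ |⟪n, e⟫| := by
    intro n hn h
    refine le_of_sq_le_sq ?_ (abs_nonneg _)
    have := norm_perp_sq hn e
    rw [he] at this
    rw [sq_abs]
    nlinarith [norm_nonneg (perp n e)]
  have h3 := key n hn h1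
  have h4 := key m hm h2
  have h5 : ⟪n, e⟫ ≠ 0 := abs_pos.1 (by linarith)
  have h6 : ⟪m, e⟫ ≠ 0 := abs_pos.1 (by linarith)
  have h7 : |⟪n, e⟫ - ⟪m, e⟫| ≤ ‖n - m‖ := by
    rw [← inner_sub_left]
    simpa [he] using abs_real_inner_le_norm (n - m) e
  rw [hitV_perp he hn h5, hitV_perp he hm h6, sub_sub_sub_cancel_right]
  have h8 : ⟪n, e⟫⁻¹ • n - ⟪m, e⟫⁻¹ • m =
      ⟪n, e⟫⁻¹ • (n - m) - ((⟪n, e⟫ - ⟪m, e⟫) * (⟪n, e⟫⁻¹ * ⟪m, e⟫⁻¹)) • m := by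
    rw [smul_sub, sub_sub, ← add_smul]
    congr 2
    field_simp
    ring
  have h9 : |⟪n, e⟫|⁻¹ ≤ 2 := by simpa using inv_anti₀ (by norm_num) h3
  have h10 : |⟪m, e⟫|⁻¹ ≤ 2 := by simpa using inv_anti₀ (by norm_num) h4
  rw [h8]
  refine (norm_sub_le _ _).trans ?_
  rw [norm_smul, norm_smul, hm, mul_one, Real.norm_eq_abs, Real.norm_eq_abs, abs_mul, abs_mul,
    abs_inv, abs_inv]
  calc _ ≤ 2 * ‖n - m‖ + ‖n - m‖ * (2 * 2) := by gcongr
    _ = _ := by ring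

/-- the directions hit by the normal have small measure -/
theorem Sf.hit_le (h : Sf M) {K : Set E3} (hK : IsCompact K) (hKM : K ⊆ M) {e : E3}
    (he : ‖e‖ = 1) (hs : ∀ x ∈ K, ‖PT M x e‖ ≤ 1 / 2) :
    (μH[2] : Measure E3) ((fun x => hitV e (PT M x)) '' K) ≤
      72 * ∫⁻ x in K, ENNReal.ofReal (Asq M x) ∂ar M := by
  have h1 := area_crude hK.measurableSet (h.fin hK hKM) (f := fun x => hitV e (PT M x))
    (L := fun x => 6 * √(Asq M x))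
    (continuousOn_const.mul (h.surf.continuousOn_Asq.mono hKM).sqrt) (fun _ _ => by positivity) ?_
  · refine h1.trans (le_of_eq ?_)
    rw [Measure.restrict_restrict hK.measurableSet, inter_eq_left.2 hKM,
      ← lintegral_const_mul' _ _ (by simp), ← lintegral_const_mul' _ _ (by simp)]
    refine setLIntegral_congr_fun hK.measurableSet fun x hx => ?_
    rw [mul_pow, Real.sq_sqrt (h.surf.Asq_nonneg (hKM hx)), two_mul_ofReal, ← mul_assoc,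
      ENNReal.ofReal_mul (by norm_num)]
    norm_num
  intro p hp ε hε
  obtain ⟨w, U, h2, h3⟩ := h.surf p (hKM hp)
  obtain ⟨r, hr, h4⟩ := loc_lip h3 h2
    ((contDiffAt_two_nuW h3.smooth (h3.ne p h2)).of_le (by norm_num)) (ε := ε / 6) (by positivity)
  obtain ⟨r', hr', h5⟩ := Metric.isOpen_iff.1 h3.isOpen p h2
  refine ⟨min r r', lt_min hr hr', fun y hy y' hy' => ?_⟩
  have k : ∀ y ∈ K ∩ ball p (min r r'), y ∈ M ∩ ball p r ∧ y ∈ U := fun y hy =>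
    ⟨⟨hKM hy.1, ball_subset_ball (min_le_left _ _) hy.2⟩,
      h5 (ball_subset_ball (min_le_right _ _) hy.2)⟩
  have h6 := h4 y (k y hy).1 y' (k y' hy').1
  have h7 := hs y hy.1
  have h8 := hs y' hy'.1
  rw [← AW_eq h3.smooth (h3.ne p h2), ← h3.norm_sff_eq h2 (hKM hp)] at h6
  rw [h3.PT_eq (k y hy).2 (hKM hy.1)] at h7
  rw [h3.PT_eq (k y' hy').2 (hKM hy'.1)] at h8
  rw [dist_eq_norm, dist_eq_norm, h3.PT_eq (k y hy).2 (hKM hy.1),
    h3.PT_eq (k y' hy').2 (hKM hy'.1)]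
  refine (lip_hitV he (h3.norm_nuW (k y hy).2) (h3.norm_nuW (k y' hy').2) h7 h8).trans ?_
  have h9 : ‖sff M p‖ ≤ √(Asq M p) := Real.le_sqrt_of_sq_le (h.surf.norm_sff_sq_le (hKM hp))
  calc _ ≤ 6 * ((√(Asq M p) + ε / 6) * ‖y - y'‖) := by
        gcongr
        exact h6.trans (by gcongr)
    _ = _ := by ring

/-- **the cap lemma** -/
theorem Sf.cap (h : Sf M) (hζ : Tst M ζ) {e : E3} (he : ‖e‖ = 1) {δ : ℝ} (hδ : 0 < δ)
    (hδ1 : δ ≤ 1 / 8)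
    (hs : ∫⁻ x in tsupport ζ ∩ {x | ‖PT M x e‖ ≤ δ}, ENNReal.ofReal (Asq M x) ∂ar M ≤
      ENNReal.ofReal (cD * δ ^ 2 / 144)) :
    ∫⁻ x in {x | ‖PT M x e‖ ≤ δ}, ENNReal.ofReal (ζ x ^ 2 * Asq M x) ∂ar M ≤
      ∫⁻ x in {x | ‖PT M x e‖ < 4 * δ}, ENNReal.ofReal (10 * (ζ x ^ 2 * ‖Hv M x‖ ^ 2)
        + 648 * δ * bdT M ζ x) ∂ar M := by
  have hfin := h.mc.fin
  have hc := cD_pos
  set K := (tsupport ζ ∩ M) ∩ {x | ‖PT M x e‖ ≤ δ} with hK
  have hKc : IsCompact K := hζ.cpt.of_isClosed_subset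
    (((h.continuousOn_nP e).mono inter_subset_right).preimage_isClosed_of_isClosed
      hζ.cpt.isClosed isClosed_Iic) inter_subset_left
  have hZ := h.hit_le hKc (fun x hx => hx.1.2) he fun x hx => le_trans hx.2 (by linarith)
  have hZ' : 72 * ∫⁻ x in K, ENNReal.ofReal (Asq M x) ∂ar M ≤ ENNReal.ofReal (cD * δ ^ 2 / 2) := by
    have h0 : K ⊆ tsupport ζ ∩ {x | ‖PT M x e‖ ≤ δ} := fun x hx => ⟨hx.1.1, hx.2⟩
    refine (mul_le_mul_right ((lintegral_mono_set h0).trans hs) _).trans (le_of_eq ?_)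
    rw [show cD * δ ^ 2 / 2 = 72 * (cD * δ ^ 2 / 144) by ring, ENNReal.ofReal_mul (by norm_num)]
    norm_num
  set S := {x | ‖PT M x e‖ < 4 * δ} with hS
  have hb : AEMeasurable (fun x => ENNReal.ofReal (bdT M ζ x)) ((ar M).restrict S) :=
    (h.aemeas (h.continuousOn_bdT hζ.cd)).ennreal_ofReal.restrict
  have hac := withDensity_absolutelyContinuous ((ar M).restrict S)
    fun x => ENNReal.ofReal (bdT M ζ x)
  have hν : ∀ᵐ x ∂(ar M).restrict S,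
      ∃ n : E3, ‖n‖ = 1 ∧ PT M x = perp n ∧ ‖perp n e‖ ^ 2 ≤ 3 / 4 := by
    filter_upwards [ae_restrict_of_ae h.ae_mem, ae_restrict_mem₀ (h.null_lt e _)] with x hx hx'
    refine ⟨nu M x, h.surf.norm_nu hx, rfl, ?_⟩
    have h1 : ‖PT M x e‖ < 4 * δ := hx'
    rw [← PT_def]
    nlinarith [norm_nonneg (PT M x e)]
  obtain ⟨z, hz1, hz2, hz3, hz4⟩ := select he hδ
    (ν := ((ar M).restrict S).withDensity fun x => ENNReal.ofReal (bdT M ζ x)) (P := PT M)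
    ((h.aemeas h.surf.continuousOn_PT).restrict.mono_ac hac) (hac.ae_le hν) (hZ.trans hZ')
  have ha : ‖e + z‖ ^ 2 = 1 + ‖z‖ ^ 2 := by rw [norm_add_sq_real, he, hz1]; ring
  have hPz : ∀ x ∈ M, ‖PT M x z‖ < δ := fun x hx => (h.surf.norm_PT_apply_le hx z).trans_lt hz2
  have hmiss : ∀ x ∈ tsupport ζ ∩ M, PT M x (e + z) ≠ 0 := by
    intro x hx h0
    have hn := h.surf.norm_nu hx.2
    have h2 : ‖PT M x e‖ ≤ δ := by
      rw [map_add, add_eq_zero_iff_eq_neg] at h0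
      rw [h0, norm_neg]; exact (hPz x hx.2).le
    have h3 : ⟪nu M x, e⟫ ≠ 0 := by
      intro h3
      rw [PT_def, perp_of_inner h3, he] at h2
      linarith
    have h4 := norm_perp_ge he hn h3 hz1
    rw [← PT_def, h0, norm_zero] at h4
    have h5 := nonpos_of_mul_nonpos_right h4 (abs_pos.2 h3)
    exact hz3 ⟨x, ⟨hx, h2⟩, (sub_eq_zero.1 (norm_le_zero_iff.1 h5)).symm⟩
  have h1 := h.cap_one hζ (a := e + z) (τ := 3 * δ) (by positivity) (by linarith)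
    (le_of_sq_le_sq (by rw [ha]; nlinarith) (norm_nonneg _))
    ((norm_add_le _ _).trans (by linarith)) hmiss
  have hm : AEMeasurable (fun x => ENNReal.ofReal ‖PT M x (e + z)‖⁻¹) ((ar M).restrict S) :=
    (h.aemeas (h.continuousOn_nP _)).inv.ennreal_ofReal.restrict
  rw [lintegral_withDensity_eq_lintegral_mul₀ hb hm, withDensity_apply _ MeasurableSet.univ,
    Measure.restrict_univ] at hz4
  have hH : AEMeasurable (fun x => ENNReal.ofReal (10 * (ζ x ^ 2 * ‖Hv M x‖ ^ 2)))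
      ((ar M).restrict S) :=
    (h.aemeas (continuousOn_const.mul ((hζ.cd.continuous.pow 2).continuousOn.mul
      (h.surf.continuousOn_Hv.norm.pow 2)))).ennreal_ofReal.restrict
  calc _ ≤ ∫⁻ x in {x | ‖PT M x (e + z)‖ ≤ 2 * (3 * δ) / 3},
        ENNReal.ofReal (ζ x ^ 2 * Asq M x) ∂ar M := by
        refine lintegral_mono_set' (h.ae_mem.mono fun x hx hx' => ?_)
        have h2 : ‖PT M x e‖ ≤ δ := hx'
        change ‖PT M x (e + z)‖ ≤ _
        rw [map_add]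
        linarith [norm_add_le (PT M x e) (PT M x z), hPz x hx]
    _ ≤ ∫⁻ x in S, ENNReal.ofReal (10 * (ζ x ^ 2 * ‖Hv M x‖ ^ 2)
        + 6 * (3 * δ) ^ 2 * (bdT M ζ x * ‖PT M x (e + z)‖⁻¹)) ∂ar M := by
        refine h1.trans (lintegral_mono_set' (h.ae_mem.mono fun x hx hx' => ?_))
        have h2 : ‖PT M x (e + z)‖ < 3 * δ := hx'
        change ‖PT M x e‖ < _
        have h3 := norm_sub_le (PT M x (e + z)) (PT M x z)
        rw [map_add, add_sub_cancel_right, ← map_add] at h3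
        linarith [hPz x hx]
    _ = ∫⁻ x in S, ENNReal.ofReal (10 * (ζ x ^ 2 * ‖Hv M x‖ ^ 2)) ∂ar M
        + ENNReal.ofReal (6 * (3 * δ) ^ 2) * ∫⁻ x in S, ENNReal.ofReal (bdT M ζ x) *
          ENNReal.ofReal ‖PT M x (e + z)‖⁻¹ ∂ar M := by
        rw [← lintegral_const_mul' _ _ ENNReal.ofReal_ne_top, ← lintegral_add_left' hH]
        refine lintegral_congr fun x => ?_
        have := bdT_nonneg M ζ x
        rw [ENNReal.ofReal_add (by positivity) (by positivity), ENNReal.ofReal_mul (by positivity),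
          ENNReal.ofReal_mul (p := 6 * (3 * δ) ^ 2) (by positivity), ENNReal.ofReal_mul this]
    _ ≤ ∫⁻ x in S, ENNReal.ofReal (10 * (ζ x ^ 2 * ‖Hv M x‖ ^ 2)) ∂ar M
        + ENNReal.ofReal (648 * δ) * ∫⁻ x in S, ENNReal.ofReal (bdT M ζ x) ∂ar M := by
        refine add_le_add le_rfl ((mul_le_mul_right hz4 _).trans (le_of_eq ?_))
        rw [← mul_assoc, ← ENNReal.ofReal_mul (by positivity)]
        congr 2
        field_simp
        ring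
    _ = _ := by
        rw [← lintegral_const_mul' _ _ ENNReal.ofReal_ne_top, ← lintegral_add_left' hH]
        refine lintegral_congr fun x => ?_
        have := bdT_nonneg M ζ x
        rw [ENNReal.ofReal_add (by positivity) (by positivity),
          ENNReal.ofReal_mul (p := 648 * δ) (by positivity)]

end Vale.Agent.P218N.B
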