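import Vale.Agent.P218N.H.Surf

/-! The pointwise identity behind the cap lemma: the Newton tensor applied to a fixed vector. -/

open Set Filter Topology Metric
open scoped RealInnerProductSpace ContDiff

namespace Vale.Agent.P218N.B

open Vale.Agent.P218.H313 Vale.Agent.P218N.H

set_option linter.unusedSectionVars false
set_option linter.unusedVariables false

variable {E : Type*} [NormedAddCommGroup E] [InnerProductSpace ℝ E] [FiniteDimensional ℝ E]

/-- the field `(tr Dn) P a - Dn P a` -/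
noncomputable def newt (n : E → E) (a y : E) : E :=
  tr (fderiv ℝ n y) • (a - ⟪n y, a⟫ • n y) - fderiv ℝ n y a + ⟪n y, a⟫ • fderiv ℝ n y (n y)

section unit

variable {n : E → E} {x : E}

lemma inner_fderiv_unit (hn : ContDiffAt ℝ 2 n x) (h1 : ∀ᶠ y in 𝓝 x, ‖n y‖ = 1) :
    ∀ᶠ y in 𝓝 x, ∀ v, ⟪n y, fderiv ℝ n y v⟫ = 0 := by
  have h2 : ∀ᶠ y in 𝓝 x, DifferentiableAt ℝ n y :=
    (hn.eventually (by simp)).mono fun y hy => hy.differentiableAt (by simp)
  filter_upwards [h2, h1.eventually_nhds] with y hy hy1 v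
  have h3 : HasFDerivAt (fun z => ‖n z‖ ^ 2) (0 : E →L[ℝ] ℝ) y :=
    (hasFDerivAt_const (1 : ℝ) y).congr_of_eventuallyEq (hy1.mono fun z hz => by simp [hz])
  have h4 := congrArg (fun L : E →L[ℝ] ℝ => L v) (hy.hasFDerivAt.norm_sq.unique h3)
  simpa using h4

lemma inner_fderiv2_unit (hn : ContDiffAt ℝ 2 n x) (h1 : ∀ᶠ y in 𝓝 x, ‖n y‖ = 1) (u v : E) :
    ⟪n x, fderiv ℝ (fderiv ℝ n) x u v⟫ = -⟪fderiv ℝ n x u, fderiv ℝ n x v⟫ := by
  have hd : HasFDerivAt n (fderiv ℝ n x) x := (hn.differentiableAt (by simp)).hasFDerivAt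
  have hN : HasFDerivAt (fderiv ℝ n) (fderiv ℝ (fderiv ℝ n) x) x :=
    ((hn.fderiv_right (m := 1) (by norm_num)).differentiableAt (by simp)).hasFDerivAt
  have h2 := hd.inner ℝ (hN.clm_apply (hasFDerivAt_const v x))
  have h3 : HasFDerivAt (fun y => ⟪n y, fderiv ℝ n y v⟫) (0 : E →L[ℝ] ℝ) x :=
    (hasFDerivAt_const (0 : ℝ) x).congr_of_eventuallyEq
      ((inner_fderiv_unit hn h1).mono fun y hy => hy v)
  have h4 := congrArg (fun L : E →L[ℝ] ℝ => L u) (h2.unique h3)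
  simp only [ContinuousLinearMap.comp_apply, ContinuousLinearMap.prod_apply, fderivInnerCLM_apply,
    add_apply, zero_apply, ContinuousLinearMap.flip_apply, map_zero] at h4
  simp only [zero_add] at h4
  linarith

lemma contDiffAt_newt (hn : ContDiffAt ℝ 2 n x) (a : E) : ContDiffAt ℝ 1 (newt n a) x := by
  have h1 : ContDiffAt ℝ 1 n x := hn.of_le (by norm_num)
  have h2 : ContDiffAt ℝ 1 (fderiv ℝ n) x := hn.fderiv_right (m := 1) (by norm_num)
  have h3 : ContDiffAt ℝ 1 (fun y => ⟪n y, a⟫) x := h1.inner ℝ contDiffAt_const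
  have h4 : ContDiffAt ℝ 1 (fun y => tr (fderiv ℝ n y)) x := (trL E).contDiff.contDiffAt.comp x h2
  exact ((h4.smul (contDiffAt_const.sub (h3.smul h1))).sub (h2.clm_apply contDiffAt_const)).add
    (h3.smul (h2.clm_apply h1))

/-- the tangential divergence of the Newton field -/
theorem tr_newt (hn : ContDiffAt ℝ 2 n x) (h1 : ∀ᶠ y in 𝓝 x, ‖n y‖ = 1)
    (hs : ∀ u v, ⟪fderiv ℝ n x (perp (n x) u), v⟫ = ⟪u, fderiv ℝ n x (perp (n x) v)⟫) (a : E) :
    tr ((perp (n x)).comp (fderiv ℝ (newt n a) x)) =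
      ⟪n x, a⟫ * (tr ((fderiv ℝ n x).comp (fderiv ℝ n x)) - tr (fderiv ℝ n x) ^ 2) := by
  have hx1 : ‖n x‖ = 1 := h1.self_of_nhds
  have hd : HasFDerivAt n (fderiv ℝ n x) x := (hn.differentiableAt (by simp)).hasFDerivAt
  have hN : HasFDerivAt (fderiv ℝ n) (fderiv ℝ (fderiv ℝ n) x) x :=
    ((hn.fderiv_right (m := 1) (by norm_num)).differentiableAt (by simp)).hasFDerivAt
  have hsym := (hn.isSymmSndFDerivAt (by simp)).eq
  have h0 := (inner_fderiv_unit hn h1).self_of_nhds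
  have h2 := inner_fderiv2_unit hn h1
  set N := fderiv ℝ n x with hNdef
  set N2 := fderiv ℝ (fderiv ℝ n) x with hN2def
  set ν := n x with hν
  set s : ℝ := ⟪ν, a⟫ with hsdef
  have hS : HasFDerivAt (fun y => ⟪n y, a⟫) ((innerSL ℝ a).comp N) x := by
    have := (innerSL ℝ a).hasFDerivAt.comp x hd
    refine this.congr_of_eventuallyEq (Eventually.of_forall fun y => ?_)
    simp [real_inner_comm]
  have hT : HasFDerivAt (fun y => tr (fderiv ℝ n y)) ((trL E).comp N2) x :=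
    (trL E).hasFDerivAt.comp x hN
  have hY := ((hT.smul ((hasFDerivAt_const a x).sub (hS.smul hd))).sub
    (hN.clm_apply (hasFDerivAt_const a x))).add (hS.smul (hN.clm_apply hd))
  have hY' : fderiv ℝ (newt n a) x = -(tr N * s) • N - tr N • ((innerSL ℝ a).comp N).smulRight ν +
      ((trL E).comp N2).smulRight (a - s • ν) - N2 a + s • N.comp N + s • N2 ν +
      ((innerSL ℝ a).comp N).smulRight (N ν) := by
    refine (hY.fderiv).trans ?_
    ext v
    simp only [add_apply, sub_apply, smul_apply, ContinuousLinearMap.smulRight_apply,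
      ContinuousLinearMap.comp_apply, ContinuousLinearMap.flip_apply, zero_apply, map_zero,
      hsym v, neg_smul, neg_apply, Pi.sub_apply, Pi.smul_apply', ← hν, ← hsdef, ← hNdef]
    module
  have hPN : ∀ v, perp ν (N v) = N v := fun v => perp_of_inner (h0 v)
  have e1 : tr ((perp ν).comp N) = tr N := by rw [tr_perp_comp, h0, sub_zero]
  have e2 : tr ((perp ν).comp (N.comp N)) = tr (N.comp N) := by
    rw [tr_perp_comp, ContinuousLinearMap.comp_apply, h0, sub_zero]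
  have e3 : perp ν (a - s • ν) = a - s • ν := by
    rw [map_sub, map_smul, perp_self hx1, smul_zero, sub_zero, perp_apply]
  have e4 : ⟪a, N (N ν)⟫ = ⟪N a, N ν⟫ - s * ⟪N ν, N ν⟫ := by
    have := hs a (N ν)
    rw [hPN, perp_apply, map_sub, map_smul, inner_sub_left, real_inner_smul_left] at this
    exact this.symm
  rw [hY']
  simp only [ContinuousLinearMap.comp_add, ContinuousLinearMap.comp_sub,
    ContinuousLinearMap.comp_smul, tr_add, tr_sub, tr_smul, tr_comp_smulRight, e1, e2, e3,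
    perp_self hx1, hPN, ContinuousLinearMap.comp_apply, map_zero, innerSL_apply_apply, trL_apply]
  rw [tr_perp_comp, tr_perp_comp, h2, h2, e4, map_sub, map_smul, tr_sub, tr_smul]
  ring

end unit

/-- Cayley-Hamilton in the tangent plane -/
theorem newton_sq (hE : Module.finrank ℝ E = 3) {ν : E} (hν : ‖ν‖ = 1) {A : E →L[ℝ] E}
    (hs : ∀ u v, ⟪A u, v⟫ = ⟪u, A v⟫) (h0 : A ν = 0) (a : E) :
    tr A * ⟪A a, a⟫ - ‖A a‖ ^ 2 = (tr A ^ 2 - tr (A.comp A)) / 2 * ‖perp ν a‖ ^ 2 ∧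
    ‖tr A • perp ν a - A a‖ ^ 2 ≤ tr (A.comp A) * ‖perp ν a‖ ^ 2 ∧
    ‖A a‖ ^ 2 ≤ tr (A.comp A) * ‖perp ν a‖ ^ 2 ∧ tr A ^ 2 ≤ 2 * tr (A.comp A) := by
  have hv : Orthonormal ℝ (({0} : Set (Fin 3)).domRestrict fun _ => ν) := by
    constructor
    · intro i; exact hν
    · intro i j hij
      exact absurd (Subsingleton.elim i j) hij
  obtain ⟨b, hb⟩ := hv.exists_orthonormalBasis_extension_of_card_eq (by simp [hE])
  have hb0 : b 0 = ν := hb 0 rfl
  have htr : ∀ B : E →L[ℝ] E, tr B = ∑ i, ⟪b i, B (b i)⟫ := fun B => by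
    unfold tr
    rw [LinearMap.trace_eq_sum_inner _ b]
    rfl
  have hin : ∀ u v : E, ⟪u, v⟫ = ⟪b 0, u⟫ * ⟪b 0, v⟫ + ⟪b 1, u⟫ * ⟪b 1, v⟫ + ⟪b 2, u⟫ * ⟪b 2, v⟫ :=
    fun u v => by
      rw [← b.sum_inner_mul_inner u v, Fin.sum_univ_three, real_inner_comm u (b 0),
        real_inner_comm u (b 1), real_inner_comm u (b 2)]
  have hA0 : ∀ u, ⟪b 0, A u⟫ = 0 := fun u => by rw [← hs, hb0, h0, inner_zero_left]
  set p := ⟪b 1, A (b 1)⟫ with hp
  set q := ⟪b 1, A (b 2)⟫ with hq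
  set r := ⟪b 2, A (b 2)⟫ with hr
  have hq' : ⟪b 2, A (b 1)⟫ = q := by rw [hq, ← hs, real_inner_comm]
  have o := orthonormal_iff_ite.1 b.orthonormal
  set x := ⟪b 1, a⟫ with hx
  set y := ⟪b 2, a⟫ with hy
  have e1 : ⟪b 1, A a⟫ = p * x + q * y := by
    rw [← hs, hin, hA0, hq']; ring
  have e2 : ⟪b 2, A a⟫ = q * x + r * y := by
    rw [← hs, hin, hA0]; ring
  have e3 : tr A = p + r := by rw [htr, Fin.sum_univ_three, hA0]; ring
  have e4 : tr (A.comp A) = p ^ 2 + 2 * q ^ 2 + r ^ 2 := by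
    rw [htr, Fin.sum_univ_three]
    simp only [ContinuousLinearMap.comp_apply, hA0]
    rw [← hs (b 1), ← hs (b 2), hin (A (b 1)), hin (A (b 2)), hA0, hA0, hq']; ring
  have f0 : ⟪b 0, perp ν a⟫ = 0 := by rw [hb0]; exact inner_perp hν a
  have f1 : ⟪b 1, perp ν a⟫ = x := by
    rw [perp_apply, inner_sub_right, real_inner_smul_right, ← hb0, o]; simp [hx]
  have f2 : ⟪b 2, perp ν a⟫ = y := by
    rw [perp_apply, inner_sub_right, real_inner_smul_right, ← hb0, o]; simp [hy]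
  have e5 : ‖perp ν a‖ ^ 2 = x ^ 2 + y ^ 2 := by
    rw [← real_inner_self_eq_norm_sq, hin, f0, f1, f2]; ring
  have e6 : ‖A a‖ ^ 2 = (p * x + q * y) ^ 2 + (q * x + r * y) ^ 2 := by
    rw [← real_inner_self_eq_norm_sq, hin, hA0, e1, e2]; ring
  have e7 : ⟪A a, a⟫ = (p * x + q * y) * x + (q * x + r * y) * y := by
    rw [hin, hA0, e1, e2]; ring
  have e8 : ‖tr A • perp ν a - A a‖ ^ 2 = (r * x - q * y) ^ 2 + (p * y - q * x) ^ 2 := by
    rw [← real_inner_self_eq_norm_sq, hin]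
    simp only [inner_sub_right, real_inner_smul_right, f0, f1, f2, hA0, e1, e2, e3]; ring
  rw [e8, e3, e4, e5, e6, e7]
  refine ⟨by ring, ?_, ?_, ?_⟩
  · linarith [sq_nonneg (r * y + q * x), sq_nonneg (p * x + q * y)]
  · linarith [sq_nonneg (p * y - q * x), sq_nonneg (q * y - r * x)]
  · linarith [sq_nonneg (p - r), sq_nonneg q]

section W

variable {w : E → ℝ} {x : E}

lemma eventually_grad_ne (hw : ContDiff ℝ ∞ w) (h : grad w x ≠ 0) : ∀ᶠ y in 𝓝 x, grad w y ≠ 0 :=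
  (contDiff_grad_top hw).continuous.continuousAt.eventually_ne h

lemma AW_nuW (h : grad w x ≠ 0) : AW w x (nuW w x) = 0 := by
  rw [← AW_PW h, PW, perp_self (norm_nuW h), map_zero]

lemma inner_nuW_fderiv (hw : ContDiff ℝ ∞ w) (h : grad w x ≠ 0) (v : E) :
    ⟪nuW w x, fderiv ℝ (nuW w) x v⟫ = 0 := by
  rw [(hasFDerivAt_nuW hw h).fderiv, smul_apply, real_inner_smul_right,
    ContinuousLinearMap.comp_apply, PW, inner_perp (norm_nuW h), mul_zero]

lemma tr_fderiv_nuW (hw : ContDiff ℝ ∞ w) (h : grad w x ≠ 0) :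
    tr (fderiv ℝ (nuW w) x) = tr (AW w x) := by
  rw [tr_AW hw h, PW, tr_perp_comp, inner_nuW_fderiv hw h, sub_zero]

lemma tr_fderiv_nuW_sq (hw : ContDiff ℝ ∞ w) (h : grad w x ≠ 0) :
    tr ((fderiv ℝ (nuW w) x).comp (fderiv ℝ (nuW w) x)) = tr ((AW w x).comp (AW w x)) := by
  have e1 : (AW w x).comp (AW w x) =
      ((fderiv ℝ (nuW w) x).comp (fderiv ℝ (nuW w) x)).comp (PW w x) := by
    ext v
    rw [ContinuousLinearMap.comp_apply, AW_eq hw h]
    simp only [ContinuousLinearMap.comp_apply]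
    rw [PW, perp_of_inner (inner_nuW_fderiv hw h _)]
  rw [e1, tr_comm _ (PW w x), PW, tr_perp_comp, ContinuousLinearMap.comp_apply,
    inner_nuW_fderiv hw h, sub_zero]

lemma newt_nuW (hw : ContDiff ℝ ∞ w) (h : grad w x ≠ 0) (a : E) :
    newt (nuW w) a x = tr (AW w x) • PW w x a - AW w x a := by
  unfold newt
  rw [tr_fderiv_nuW hw h, AW_eq hw h, ContinuousLinearMap.comp_apply, PW, perp_apply, map_sub,
    map_smul]
  abel

lemma contDiffAt_two_nuW (hw : ContDiff ℝ ∞ w) (h : grad w x ≠ 0) : ContDiffAt ℝ 2 (nuW w) x :=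
  (contDiffAt_nuW hw h).of_le (show ((2 : ℕ∞) : WithTop ℕ∞) ≤ ((⊤ : ℕ∞) : WithTop ℕ∞) from
    WithTop.coe_le_coe.2 le_top)

theorem tr_newt_nuW (hw : ContDiff ℝ ∞ w) (h : grad w x ≠ 0) (a : E) :
    tr ((PW w x).comp (fderiv ℝ (newt (nuW w) a) x)) =
      ⟪nuW w x, a⟫ * (tr ((AW w x).comp (AW w x)) - tr (AW w x) ^ 2) := by
  rw [PW, tr_newt (contDiffAt_two_nuW hw h) ((eventually_grad_ne hw h).mono fun y hy => norm_nuW hy)
    (fun u v => ?_) a, tr_fderiv_nuW hw h, tr_fderiv_nuW_sq hw h]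
  have := AW_symm hw x u v
  rwa [AW_eq hw h] at this

/-- the field of the cap lemma, for a profile `κ` -/
noncomputable def capW (κ : ℝ → ℝ) (w : E → ℝ) (a y : E) : E :=
  (⟪nuW w y, a⟫ * κ (‖a‖ ^ 2 - ⟪nuW w y, a⟫ ^ 2)) • newt (nuW w) a y

lemma contDiffAt_capW (hw : ContDiff ℝ ∞ w) (h : grad w x ≠ 0) {κ : ℝ → ℝ} {a : E}
    (hκ : ContDiffAt ℝ 1 κ (‖a‖ ^ 2 - ⟪nuW w x, a⟫ ^ 2)) : ContDiffAt ℝ 1 (capW κ w a) x := by
  have h1 : ContDiffAt ℝ 1 (fun y => ⟪nuW w y, a⟫) x :=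
    ((contDiffAt_two_nuW hw h).of_le (by norm_num)).inner ℝ contDiffAt_const
  have h2 : ContDiffAt ℝ 1 (fun y => κ (‖a‖ ^ 2 - ⟪nuW w y, a⟫ ^ 2)) x :=
    ContDiffAt.comp (g := κ) x hκ (contDiffAt_const.sub (h1.pow 2))
  exact (h1.mul h2).smul (contDiffAt_newt (contDiffAt_two_nuW hw h) a)

/-- the tangential divergence of the cap field -/
theorem tr_capW (hE : Module.finrank ℝ E = 3) (hw : ContDiff ℝ ∞ w) (h : grad w x ≠ 0)
    {κ : ℝ → ℝ} {κ' : ℝ} {a : E} {t : ℝ} (ht : t = ‖a‖ ^ 2 - ⟪nuW w x, a⟫ ^ 2)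
    (hκ : HasDerivAt κ κ' t) :
    tr ((PW w x).comp (fderiv ℝ (capW κ w a) x)) =
      (tr (AW w x) ^ 2 - tr ((AW w x).comp (AW w x))) / 2 *
        (t * κ t - 2 * (‖a‖ ^ 2 - t) * (κ t + t * κ')) := by
  have hd : HasFDerivAt (nuW w) (fderiv ℝ (nuW w) x) x :=
    ((contDiffAt_two_nuW hw h).differentiableAt (by simp)).hasFDerivAt
  have hY : HasFDerivAt (newt (nuW w) a) (fderiv ℝ (newt (nuW w) a) x) x :=
    ((contDiffAt_newt (contDiffAt_two_nuW hw h) a).differentiableAt (by simp)).hasFDerivAt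
  set s : ℝ := ⟪nuW w x, a⟫ with hs
  have hS : HasFDerivAt (fun y => ⟪nuW w y, a⟫) ((innerSL ℝ a).comp (fderiv ℝ (nuW w) x)) x := by
    have := (innerSL ℝ a).hasFDerivAt.comp x hd
    refine this.congr_of_eventuallyEq (Eventually.of_forall fun y => ?_)
    simp [real_inner_comm]
  have h1 : HasDerivAt (fun σ : ℝ => σ * κ (‖a‖ ^ 2 - σ ^ 2)) (κ t - 2 * s ^ 2 * κ') s := by
    have e1 : HasDerivAt (fun σ : ℝ => ‖a‖ ^ 2 - σ ^ 2) (-(2 * s)) s := by
      simpa using (hasDerivAt_pow 2 s).const_sub (‖a‖ ^ 2)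
    have e2 := (hasDerivAt_id s).mul (HasDerivAt.comp (h₂ := κ) s (ht ▸ hκ) e1)
    refine e2.congr_deriv ?_
    simp only [Function.comp_apply, id, ← ht]
    ring
  have h2 := (h1.comp_hasFDerivAt x hS).smul hY
  have h3 : fderiv ℝ (capW κ w a) x = _ := h2.fderiv
  obtain ⟨n1, -, -, -⟩ := newton_sq hE (norm_nuW h) (AW_symm hw x) (AW_nuW h) a
  have n2 : ‖perp (nuW w x) a‖ ^ 2 = t := by rw [norm_perp_sq (norm_nuW h), ht]
  have n3 : PW w x (newt (nuW w) a x) = newt (nuW w) a x := by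
    rw [newt_nuW hw h, map_sub, map_smul, PW_PW h, PW_AW h]
  have n4 : ⟪a, fderiv ℝ (nuW w) x (newt (nuW w) a x)⟫ =
      tr (AW w x) * ⟪AW w x a, a⟫ - ‖AW w x a‖ ^ 2 := by
    rw [← n3, ← ContinuousLinearMap.comp_apply, ← AW_eq hw h, ← AW_symm hw, newt_nuW hw h,
      inner_sub_right, real_inner_smul_right, real_inner_self_eq_norm_sq, AW_symm hw, AW_PW h,
      ← AW_symm hw]
  rw [h3, ContinuousLinearMap.comp_add, ContinuousLinearMap.comp_smul, tr_add, tr_smul,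
    tr_comp_smulRight, tr_newt_nuW hw h, n3]
  simp only [smul_apply, ContinuousLinearMap.comp_apply, innerSL_apply_apply, Function.comp_apply,
    smul_eq_mul, n4, n1, n2, ← hs, ← ht]
  have : ‖a‖ ^ 2 - t = s ^ 2 := by rw [ht]; ring
  rw [this]
  ring

end W

end Vale.Agent.P218N.B
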