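import Vale.Agent.P218N.B.Punct

/-! The content of superlevel sets of functions with small Dirichlet energy. -/

open MeasureTheory Set Filter Topology Metric
open scoped ENNReal NNReal RealInnerProductSpace ContDiff

namespace Vale.Agent.P218N.B

open Vale.Agent.P218.H313 Vale.Agent.P218N.H Vale.Agent.P218N.G
open Vale.Agent.P218.H552 (MC)
open Vale.Agent.P214 (proj)

set_option linter.unusedSectionVars false
set_option linter.unusedVariables false

section mono

variable {E : Type*} [NormedAddCommGroup E] [InnerProductSpace ℝ E] [FiniteDimensional ℝ E]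
  [MeasurableSpace E] [BorelSpace E] {m : ℕ} {μ : Measure E} {T : E → Submodule ℝ E} {H : E → E}

theorem JJ_mono' (hS : Slice m μ T H) {h : E → ℝ} (hh : ContDiff ℝ 1 h) (h0 : ∀ y, 0 ≤ h y)
    {x : E} {φ φ' : ℝ → ℝ} (hφ : ∀ t, 0 < t → HasDerivAt φ (φ' t) t) {r₀ r : ℝ} (hr₀ : 0 < r₀)
    (hr : r₀ ≤ r)
    (hA : ∀ t, r₀ < t → t < r → ∫ y in closedBall x t, err T H h y ∂μ ≤ φ' t * t ^ m) :
    JJ m μ h x r₀ + φ r₀ ≤ JJ m μ h x r + φ r := by
  have hfin := hS.mc.fin
  set G : ℝ → ℝ := fun t => JJ m μ h x t + φ t with hG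
  have hder : ∀ t, 0 < t → HasDerivAt G (t⁻¹ * (∫ y, (-(m * psi (‖y - x‖ ^ 2 / t ^ 2))
        - 2 * (‖y - x‖ ^ 2 / t ^ 2) * psi' (‖y - x‖ ^ 2 / t ^ 2)) * h y ∂μ) / t ^ m
        + φ' t) t := fun t ht => (hasDerivAt_JJ hh.continuous x ht).add (hφ t ht)
  have hmono : MonotoneOn G (Icc r₀ r) := by
    refine monotoneOn_of_deriv_nonneg (convex_Icc r₀ r) ?_ ?_ ?_
    · intro t ht
      exact (hder t (lt_of_lt_of_le hr₀ ht.1)).continuousAt.continuousWithinAt
    · intro t ht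
      rw [interior_Icc] at ht
      exact (hder t (lt_trans hr₀ ht.1)).differentiableAt.differentiableWithinAt
    · intro t ht
      rw [interior_Icc] at ht
      have ht0 : 0 < t := lt_trans hr₀ ht.1
      rw [(hder t ht0).deriv]
      have k1 := key_ineq hS hh h0 x ht0
      have k2 := hA t ht.1 ht.2
      have hp : 0 < t ^ m := by positivity
      have k3 : -(t * (φ' t * t ^ m)) ≤ ∫ y, (-(m * psi (‖y - x‖ ^ 2 / t ^ 2))
        - 2 * (‖y - x‖ ^ 2 / t ^ 2) * psi' (‖y - x‖ ^ 2 / t ^ 2)) * h y ∂μ := by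
        refine le_trans ?_ k1
        have := mul_le_mul_of_nonneg_left k2 ht0.le
        linarith
      have k4 : -φ' t ≤ t⁻¹ * (∫ y, (-(m * psi (‖y - x‖ ^ 2 / t ^ 2))
        - 2 * (‖y - x‖ ^ 2 / t ^ 2) * psi' (‖y - x‖ ^ 2 / t ^ 2)) * h y ∂μ) / t ^ m := by
        rw [le_div_iff₀ hp, ← div_eq_inv_mul, le_div_iff₀ ht0]
        linarith
      linarith
  exact hmono (left_mem_Icc.2 hr) (right_mem_Icc.2 hr) hr

theorem om_mul_le' (hS : Slice m μ T H) {h : E → ℝ} (hh : ContDiff ℝ 1 h) (h0 : ∀ y, 0 ≤ h y)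
    {x : E} (hx : ∀ c < om m, ∀ᶠ r in 𝓝[>] (0 : ℝ),
      c ≤ (∫ y, P218.H313.ker (r⁻¹ • (y - x)) ∂μ) / r ^ m)
    {φ φ' : ℝ → ℝ} (hφ : ∀ t, 0 < t → HasDerivAt φ (φ' t) t) (hφ0 : ∀ t, 0 < t → 0 ≤ φ t)
    {r : ℝ} (hr : 0 < r)
    (hA : ∀ t, 0 < t → t < r → ∫ y in closedBall x t, err T H h y ∂μ ≤ φ' t * t ^ m) :
    om m * h x ≤ JJ m μ h x r + φ r := by
  have hfin := hS.mc.fin
  have hprop : ProperSpace E := FiniteDimensional.proper_real E
  have hJ : 0 ≤ JJ m μ h x r :=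
    div_nonneg (integral_nonneg fun y => mul_nonneg (kern_nonneg _) (h0 y)) (by positivity)
  have hom := om_pos m
  rcases (h0 x).eq_or_lt with hx0 | hx0
  · rw [← hx0, mul_zero]
    exact add_nonneg hJ (hφ0 r hr)
  have key : ∀ᶠ δ in 𝓝[>] (0 : ℝ), (om m - δ) * (h x - δ) ≤ JJ m μ h x r + φ r := by
    have hmin : 0 < min (om m) (h x) := lt_min hom hx0
    filter_upwards [Ioo_mem_nhdsGT hmin] with δ hδ
    have hδ1 : δ < om m := lt_of_lt_of_le hδ.2 (min_le_left _ _)
    have hδ2 : δ < h x := lt_of_lt_of_le hδ.2 (min_le_right _ _)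
    have e1 := hx (om m - δ) (by linarith [hδ.1])
    have e2 : ∀ᶠ s in 𝓝[>] (0 : ℝ), ∀ y ∈ closedBall x s, h x - δ ≤ h y := by
      have hc := hh.continuous.tendsto x
      have h3 : {y | h x - δ < h y} ∈ 𝓝 x :=
        hc (Ioi_mem_nhds (by linarith [hδ.1]))
      obtain ⟨ε, hε, hεs⟩ := Metric.mem_nhds_iff.1 h3
      filter_upwards [Ioo_mem_nhdsGT hε] with s hs y hy
      have : y ∈ ball x ε := by
        rw [mem_ball]
        exact lt_of_le_of_lt (mem_closedBall.1 hy) hs.2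
      exact le_of_lt (hεs this)
    have e3 : ∀ᶠ s in 𝓝[>] (0 : ℝ), s ∈ Ioc 0 r := Ioc_mem_nhdsGT hr
    obtain ⟨s, hs1, hs2, hs3⟩ := (e1.and (e2.and e3)).exists
    have hs0 : 0 < s := hs3.1
    have hm := JJ_mono' hS hh h0 hφ hs0 hs3.2 fun t ht ht' => hA t (hs0.trans ht) ht'
    have h4 : (h x - δ) * ((∫ y, P218.H313.ker (s⁻¹ • (y - x)) ∂μ) / s ^ m) ≤ JJ m μ h x s := by
      unfold JJ
      rw [← mul_div_assoc]
      refine div_le_div_of_nonneg_right ?_ (by positivity)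
      rw [← integral_const_mul]
      refine integral_mono ((integrable_ker_scale x hs0).const_mul _)
        (integrable_ker_mul hh.continuous x hs0) fun y => ?_
      by_cases hy : y ∈ closedBall x s
      · have := hs2 y hy
        simp only
        rw [mul_comm]
        exact mul_le_mul_of_nonneg_left this (kern_nonneg _)
      · simp only
        rw [ker_scale_zero' hs0 hy]
        simp
    have h5 : (om m - δ) * (h x - δ) ≤ (h x - δ) * ((∫ y, P218.H313.ker (s⁻¹ • (y - x)) ∂μ) / s ^ m) := by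
      rw [mul_comm]
      exact mul_le_mul_of_nonneg_left hs1 (by linarith)
    linarith [hφ0 s hs0]
  have hlim : Tendsto (fun δ : ℝ => (om m - δ) * (h x - δ)) (𝓝[>] 0) (𝓝 (om m * h x)) := by
    have : Continuous fun δ : ℝ => (om m - δ) * (h x - δ) := by fun_prop
    have h1 := this.tendsto 0
    simp only [sub_zero] at h1
    exact h1.mono_left nhdsWithin_le_nhds
  exact le_of_tendsto hlim key

end mono

variable {M : Set E3}

lemma integrableOn_mu {F : Type*} [NormedAddCommGroup F] (hM : Surf M) (hc : IsClosed M)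
    {f : E3 → F} (hf : ContinuousOn f M) {K : Set E3} (hK : IsCompact K) :
    IntegrableOn f K (mu M) := by
  have h := hM.integrableOn_compact finrank_E3 (hK.inter_right hc) inter_subset_right
    (hf.mono inter_subset_right)
  rwa [IntegrableOn, Measure.restrict_restrict hK.measurableSet]

lemma ae_mem_mu (hM : Surf M) : ∀ᵐ x ∂(mu M), x ∈ M := ae_restrict_mem hM.measurableSet

lemma integral_le_of_lintegral (hM : Surf M) (hc : IsClosed M) {f : E3 → ℝ}
    (hf : ContinuousOn f M) (h0 : ∀ x ∈ M, 0 ≤ f x) {K : Set E3} (hK : IsCompact K) {c : ℝ}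
    (hc0 : 0 ≤ c) (h : ∫⁻ x in K, ENNReal.ofReal (f x) ∂(mu M) ≤ ENNReal.ofReal c) :
    ∫ x in K, f x ∂(mu M) ≤ c := by
  rw [← ofReal_integral_eq_lintegral_ofReal (integrableOn_mu hM hc hf hK)
    (ae_restrict_of_ae ((ae_mem_mu hM).mono h0))] at h
  exact (ENNReal.ofReal_le_ofReal_iff hc0).1 h

lemma cov_of_finset {α : Type*} (s : Finset α) (x : α → E3) (r : α → ℝ) (hr : ∀ a ∈ s, 0 < r a)
    {K : Set E3} (hK : K ⊆ ⋃ a ∈ s, ball (x a) (r a)) {ε : ℝ} (h : ∑ a ∈ s, √(r a) ≤ ε) :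
    Cov K ε :=
  (Cov.biUnion s fun a ha => cov_ball (x a) (hr a ha)).mono hK h

/-- at a point where `g ≥ 1` and the mean of `g` is small, the energy concentrates at some scale -/
lemma exists_scale {Λ : ℝ} (hΛ : 0 < Λ) (hM : Good Λ M) {g : E3 → ℝ} (hg : ContDiff ℝ 1 g)
    (h0 : ∀ x, 0 ≤ g x) {r : ℝ} (hr : 0 < r) (hr1 : r ≤ 1) {x : E3} (hx : x ∈ M) (h1 : 1 ≤ g x)
    (h2 : ∫⁻ y in closedBall x r, ENNReal.ofReal (g y) ∂(mu M)
      ≤ ENNReal.ofReal (om 2 / 4 * r ^ 2)) :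
    ∃ t, 0 < t ∧ t < r ∧ ENNReal.ofReal (om 2 ^ 2 / (512 * Λ) * (t ^ (1 / 8 : ℝ)) ^ 2) <
      ∫⁻ y in closedBall x t, ENNReal.ofReal (‖gradM M g y‖ ^ 2 + g y ^ 2 * ‖Hv M y‖ ^ 2)
        ∂(mu M) := by
  by_contra hcon
  push Not at hcon
  have hom := om_pos 2
  have hfin := hM.finite
  have hcg := hM.surf.continuousOn_gradM hg
  have hcH := hM.surf.continuousOn_Hv
  have hcf : ContinuousOn (fun y => ‖gradM M g y‖ ^ 2 + g y ^ 2 * ‖Hv M y‖ ^ 2) M :=
    (hcg.norm.pow 2).add ((hg.continuous.continuousOn.pow 2).mul (hcH.norm.pow 2))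
  have key : om 2 * g x ≤ JJ 2 (mu M) g x r + om 2 / 2 * r ^ (1 / 8 : ℝ) := ?_
  · have h3 := JJ_le (m := 2) (μ := mu M) hg.continuous h0 (x := x) hr
    have h4 := integral_le_of_lintegral hM.surf hM.closed hg.continuous.continuousOn
      (fun y _ => h0 y) (isCompact_closedBall x r) (by positivity) h2
    have h5 : JJ 2 (mu M) g x r ≤ om 2 / 4 :=
      h3.trans ((div_le_iff₀ (by positivity)).2 h4)
    have h6 : r ^ (1 / 8 : ℝ) ≤ 1 := Real.rpow_le_one hr.le hr1 (by norm_num)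
    nlinarith
  · refine om_mul_le' hM.slice hg h0 (densStmt M hM.surf hM.closed x hx)
      (φ := fun t => om 2 / 2 * t ^ (1 / 8 : ℝ))
      (φ' := fun t => om 2 / 2 * (1 / 8 * t ^ (1 / 8 - 1 : ℝ)))
      (fun t ht => (Real.hasDerivAt_rpow_const (Or.inl ht.ne')).const_mul _)
      (fun t ht => by positivity) hr (fun t ht htr => ?_)
    set u := t ^ (1 / 8 : ℝ) with hu
    have hu0 : 0 < u := by positivity
    have h3 : t ^ (1 / 8 - 1 : ℝ) = u / t := by rw [Real.rpow_sub_one ht.ne']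
    have h4 := integral_le_of_lintegral hM.surf hM.closed hcf
      (fun y _ => by positivity) (isCompact_closedBall x t) (by positivity) (hcon t ht htr)
    have h5 := hM.ratio_real hΛ.le x t ht (htr.le.trans hr1)
    set s := u * (om 2 / (32 * Λ)) / t with hs
    have hs0 : 0 < s := by positivity
    have h6 : ∫ y in closedBall x t, err (tanP M) (Hv M) g y ∂(mu M) ≤ ∫ y in closedBall x t,
        ((2 * s)⁻¹ * (‖gradM M g y‖ ^ 2 + g y ^ 2 * ‖Hv M y‖ ^ 2) + s) ∂(mu M) := by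
      refine integral_mono_ae (hM.slice.err_integrableOn hg (isCompact_closedBall x t))
        (integrableOn_mu hM.surf hM.closed ((continuousOn_const.mul hcf).add continuousOn_const)
          (isCompact_closedBall x t)) ?_
      filter_upwards [ae_restrict_of_ae (ae_mem_mu hM.surf)] with y hy
      have e1 : err (tanP M) (Hv M) g y = ‖gradM M g y‖ + g y * ‖Hv M y‖ := by
        rw [err, hM.surf.proj_tanP hy, gradM]
      rw [e1, ← mul_pow, ← div_eq_inv_mul, div_add' _ _ _ (by positivity),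
        le_div_iff₀ (by positivity)]
      nlinarith [sq_nonneg (‖gradM M g y‖ - s), sq_nonneg (g y * ‖Hv M y‖ - s)]
    rw [integral_add ((integrableOn_mu hM.surf hM.closed hcf (isCompact_closedBall x t)).const_mul _)
      (integrableOn_mu hM.surf hM.closed continuousOn_const (isCompact_closedBall x t)),
      integral_const_mul, setIntegral_const, smul_eq_mul] at h6
    calc _ ≤ _ := h6
      _ ≤ (2 * s)⁻¹ * (om 2 ^ 2 / (512 * Λ) * u ^ 2) + Λ * t ^ 2 * s := by gcongr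
      _ = om 2 / 2 * (1 / 8 * (u / t)) * t ^ 2 := by
          rw [hs]; field_simp; ring
      _ = _ := by rw [h3]

theorem contentStmt : ContentStmt := by
  classical
  intro Λ hΛ
  have hom := om_pos 2
  set c := om 2 ^ 2 / (512 * Λ) with hc
  have hc0 : 0 < c := by positivity
  refine ⟨om 2 / 4, √6 / c ^ 2, by positivity, by positivity, ?_⟩
  intro M K O g r I hM hK hKM hO hg h0 hr hr1 hKO h1 h2 hI h3
  have h4 := fun x (hx : x ∈ K) => exists_scale hΛ hM hg h0 hr hr1 (hKM hx) (h1 x hx) (h2 x hx)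
  choose! t ht0 htr ht using h4
  obtain ⟨u, huK, hud, hu⟩ := Vitali.exists_disjoint_subfamily_covering_enlargement_closedBall K
    (fun x => x) t r (fun x hx => (htr x hx).le) 5 (by norm_num)
  have h5 : K ⊆ ⋃ b ∈ u, ball b (6 * t b) := by
    intro x hx
    obtain ⟨b, hb, hxb⟩ := hu x hx
    have h6 := hxb (mem_closedBall_self (ht0 x hx).le)
    exact mem_biUnion hb (closedBall_subset_ball (by linarith [ht0 b (huK hb)]) h6)
  obtain ⟨s, hsu, hsf, hs⟩ := hK.elim_finite_subcover_image (fun _ _ => isOpen_ball) h5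
  lift s to Finset E3 using hsf
  have hsK : ∀ b ∈ s, b ∈ K := fun b hb => huK (hsu hb)
  refine cov_of_finset s (fun x => x) (fun b => 6 * t b) (fun b hb => by linarith [ht0 b (hsK b hb)]) hs ?_
  have h6 : ∑ b ∈ s, ENNReal.ofReal (c * (t b ^ (1 / 8 : ℝ)) ^ 2) ≤ ENNReal.ofReal I := by
    refine le_trans (Finset.sum_le_sum fun b hb => (ht b (hsK b hb)).le) (le_trans ?_ h3)
    rw [← lintegral_biUnion_finset (hud.subset hsu) fun _ _ => measurableSet_closedBall]
    refine lintegral_mono_set (iUnion₂_subset fun b hb => ?_)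
    exact (closedBall_subset_closedBall (htr b (hsK b hb)).le).trans (hKO b (hsK b hb))
  rw [← ENNReal.ofReal_sum_of_nonneg fun b _ => by positivity, ENNReal.ofReal_le_ofReal_iff hI,
    ← Finset.mul_sum] at h6
  have h7 : ∑ b ∈ s, (t b ^ (1 / 8 : ℝ)) ^ 2 ≤ I / c := by
    rw [le_div_iff₀ hc0]; linarith
  calc ∑ b ∈ s, √(6 * t b) = √6 * ∑ b ∈ s, ((t b ^ (1 / 8 : ℝ)) ^ 2) ^ 2 := by
        rw [Finset.mul_sum]
        refine Finset.sum_congr rfl fun b hb => ?_
        have hb0 := ht0 b (hsK b hb)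
        rw [Real.sqrt_mul (by norm_num), ← pow_mul, ← Real.rpow_natCast, ← Real.rpow_mul hb0.le,
          Real.sqrt_eq_rpow (t b)]
        norm_num
    _ ≤ √6 * (∑ b ∈ s, (t b ^ (1 / 8 : ℝ)) ^ 2) ^ 2 := by
        gcongr
        exact Finset.sum_sq_le_sq_sum_of_nonneg fun _ _ => by positivity
    _ ≤ √6 * (I / c) ^ 2 := by gcongr
    _ = √6 / c ^ 2 * I ^ 2 := by ring

end Vale.Agent.P218N.B
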