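import Vale.Agent.P218N.B.Content
import Vale.Agent.P218N.H.TwoSided

/-! Coverings of the steep points and of parts with small area. -/

open MeasureTheory Set Filter Topology Metric
open scoped ENNReal NNReal RealInnerProductSpace ContDiff

namespace Vale.Agent.P218N.B

open Vale.Agent.P218.H313 Vale.Agent.P218N.H Vale.Agent.P218N.G
open Vale.Agent.P218.H552 (MC)
open Vale.Agent.P214 (proj)

set_option linter.unusedSectionVars false
set_option linter.unusedVariables false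

lemma exists_cutoff {X : Type*} [NormedAddCommGroup X] [NormedSpace ℝ X] [FiniteDimensional ℝ X]
    {K O : Set X} (hK : IsCompact K) (hO : IsOpen O) (h : K ⊆ O) :
    ∃ (ζ : X → ℝ) (D : ℝ), ContDiff ℝ ∞ ζ ∧ HasCompactSupport ζ ∧ tsupport ζ ⊆ O ∧
      (∀ x, 0 ≤ ζ x) ∧ (∀ x, ζ x ≤ 1) ∧ (∀ x ∈ K, ∀ᶠ y in 𝓝 x, ζ y = 1) ∧ 0 < D ∧
      ∀ x, ‖fderiv ℝ ζ x‖ ≤ D := by
  obtain ⟨χ, h1, h2, h3, h4, h5, h6⟩ := exists_pou hK (ι := Unit) (U := fun _ => O) (fun _ => hO)
    (by simpa [iUnion_const] using h)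
  obtain ⟨D, hD⟩ := ((h1 ()).continuous_fderiv (by simp)).bounded_above_of_compact_support
    ((h2 ()).fderiv (𝕜 := ℝ))
  refine ⟨χ (), |D| + 1, h1 (), h2 (), h3 (), h4 (), fun x => by simpa using h5 x,
    fun x hx => by simpa using h6 x hx, by positivity, fun x => ?_⟩
  linarith [hD x, le_abs_self D]

lemma lint_le_add {X : Type*} [MeasurableSpace X] {μ : Measure X} {f g h : X → ℝ}
    (hg : AEMeasurable g μ) (H : ∀ᵐ x ∂μ, f x ≤ g x + h x) :
    ∫⁻ x, ENNReal.ofReal (f x) ∂μ ≤ ∫⁻ x, ENNReal.ofReal (g x) ∂μ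
      + ∫⁻ x, ENNReal.ofReal (h x) ∂μ := by
  rw [← lintegral_add_left' hg.ennreal_ofReal]
  exact lintegral_mono_ae (H.mono fun x hx =>
    (ENNReal.ofReal_le_ofReal hx).trans ENNReal.ofReal_add_le)

lemma lint_const_mul {X : Type*} [MeasurableSpace X] (μ : Measure X) {c : ℝ} (hc : 0 ≤ c)
    (f : X → ℝ) : ∫⁻ x, ENNReal.ofReal (c * f x) ∂μ
      = ENNReal.ofReal c * ∫⁻ x, ENNReal.ofReal (f x) ∂μ := by
  simp_rw [ENNReal.ofReal_mul hc]
  exact lintegral_const_mul' _ _ ENNReal.ofReal_ne_top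

lemma ofReal_mul_le {c a : ℝ} (hc : 0 ≤ c) {x : ℝ≥0∞} (h : x ≤ ENNReal.ofReal a) :
    ENNReal.ofReal c * x ≤ ENNReal.ofReal (c * a) := by
  rw [ENNReal.ofReal_mul hc]; gcongr

lemma ofReal_add_le' {a b : ℝ} (ha : 0 ≤ a) (hb : 0 ≤ b) {x y : ℝ≥0∞} (h : x ≤ ENNReal.ofReal a)
    (h' : y ≤ ENNReal.ofReal b) : x + y ≤ ENNReal.ofReal (a + b) := by
  rw [ENNReal.ofReal_add ha hb]; gcongr

lemma lint_sqrt_le {X : Type*} [MeasurableSpace X] {μ : Measure X} {f : X → ℝ} {a b : ℝ}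
    (ha : 0 < a) (hb : 0 ≤ b) (h1 : ∫⁻ x, ENNReal.ofReal (f x) ∂μ ≤ ENNReal.ofReal a)
    (h2 : μ univ ≤ ENNReal.ofReal b) :
    ∫⁻ x, ENNReal.ofReal √(f x) ∂μ ≤ ENNReal.ofReal (√a * √b) := by
  rcases hb.eq_or_lt with rfl | hb
  · have : μ = 0 := by simpa using h2
    simp [this]
  have ha' := Real.sqrt_pos.2 ha
  have hb' := Real.sqrt_pos.2 hb
  set s := √b / √a with hs
  have hs0 : 0 < s := by positivity
  have h3 : ∀ x, ENNReal.ofReal √(f x) ≤ ENNReal.ofReal (2 * s)⁻¹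
      + ENNReal.ofReal (s / 2) * ENNReal.ofReal (f x) := by
    intro x
    rcases le_total (f x) 0 with h | h
    · simp [Real.sqrt_eq_zero'.2 h]
    rw [← ENNReal.ofReal_mul (by positivity), ← ENNReal.ofReal_add (by positivity) (by positivity)]
    refine ENNReal.ofReal_le_ofReal ?_
    have h4 := Real.sq_sqrt h
    rw [inv_eq_one_div, div_add' _ _ _ (by positivity), le_div_iff₀ (by positivity)]
    have h5 : s / 2 * f x * (2 * s) = (s * √(f x)) ^ 2 := by rw [mul_pow, h4]; ring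
    nlinarith [sq_nonneg (s * √(f x) - 1)]
  calc _ ≤ _ := lintegral_mono h3
    _ = ENNReal.ofReal (2 * s)⁻¹ * μ univ
        + ENNReal.ofReal (s / 2) * ∫⁻ x, ENNReal.ofReal (f x) ∂μ := by
        rw [lintegral_add_left measurable_const, lintegral_const,
          lintegral_const_mul' _ _ ENNReal.ofReal_ne_top]
    _ ≤ ENNReal.ofReal ((2 * s)⁻¹ * b + s / 2 * a) :=
        ofReal_add_le' (by positivity) (by positivity) (ofReal_mul_le (by positivity) h2)
          (ofReal_mul_le (by positivity) h1)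
    _ = _ := by
        congr 1
        have e1 := Real.sq_sqrt ha.le
        have e2 := Real.sq_sqrt hb.le
        rw [hs]
        field_simp
        nlinarith

variable {M : Set E3}

lemma aemeas_mu {F : Type*} [TopologicalSpace F] [MeasurableSpace F] [BorelSpace F] (hM : Surf M)
    {f : E3 → F} (hf : ContinuousOn f M) (A : Set E3) : AEMeasurable f ((mu M).restrict A) :=
  (hf.aemeasurable hM.measurableSet).restrict

lemma norm_gradM_le (hM : Surf M) {x : E3} (hx : x ∈ M) {g : E3 → ℝ} {c : ℝ} (hc : 0 ≤ c)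
    (h : ∀ v, |fderiv ℝ g x (PT M x v)| ≤ c * ‖v‖) : ‖gradM M g x‖ ≤ c := by
  have h1 : ‖gradM M g x‖ ^ 2 = fderiv ℝ g x (PT M x (gradM M g x)) := by
    rw [← inner_grad, ← PT_symm, ← real_inner_self_eq_norm_sq]; rfl
  have h2 := (le_abs_self _).trans (h (gradM M g x))
  rcases (norm_nonneg (gradM M g x)).eq_or_lt with h3 | h3
  · rwa [← h3]
  · nlinarith

lemma norm_gradM_le_fderiv (hM : Surf M) {x : E3} (hx : x ∈ M) (g : E3 → ℝ) :
    ‖gradM M g x‖ ≤ ‖fderiv ℝ g x‖ :=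
  norm_gradM_le hM hx (norm_nonneg _) fun v => ((fderiv ℝ g x).le_opNorm _).trans
    (mul_le_mul_of_nonneg_left (hM.norm_PT_apply_le hx v) (norm_nonneg _))

/-- a smooth extension of a unit normal -/
lemma exists_normal (hM : Surf M) (hc : IsClosed M) : ∃ N : E3 → E3, ContDiff ℝ ∞ N ∧ ∀ x ∈ M,
    (∃ σ : ℝ, σ * σ = 1 ∧ nu M x = σ • N x ∧
      sff M x = σ • (fderiv ℝ N x).comp (PT M x)) ∧
      ∀ v, ‖fderiv ℝ N x (PT M x v)‖ ≤ √(Asq M x) * ‖v‖ := by
  obtain ⟨w, hw, h1, h2⟩ := hM.exists_global hc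
  have hne : ∀ x ∈ M, grad w x ≠ 0 := fun x hx h => by simpa [h] using h2 x hx
  have hL : LocDef M {y | grad w y ≠ 0} w := (locDef_level hw).congr fun y _ => h1 y
  have h3 : ∀ x ∈ M, nuW w x = grad w x := fun x hx => by rw [nuW, h2 x hx, inv_one, one_smul]
  refine ⟨grad w, contDiff_grad_top hw, fun x hx => ?_⟩
  obtain ⟨σ, h4, h5, h6⟩ := hL.exists_sign (hne x hx) hx
  have h7 : AW w x = (fderiv ℝ (grad w) x).comp (PT M x) := by
    rw [AW_eq hw (hne x hx), ← hL.PT_eq (hne x hx) hx]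
    exact hM.fderiv_comp_PT hx ((contDiffAt_nuW hw (hne x hx)).differentiableAt (by simp))
      ((contDiff_grad_top hw).differentiable (by simp) x)
      (eventually_nhdsWithin_of_forall h3)
  refine ⟨⟨σ, h4, by rw [h5, h3 x hx], by rw [h6, h7]⟩, fun v => ?_⟩
  have h8 : ‖AW w x‖ ≤ √(Asq M x) := by
    rw [← hL.norm_sff_eq (hne x hx) hx]
    exact Real.le_sqrt_of_sq_le (hM.norm_sff_sq_le hx)
  calc _ = ‖AW w x v‖ := by rw [h7]; rfl
    _ ≤ _ := (AW w x).le_opNorm v
    _ ≤ _ := by gcongr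

lemma abs_inner_sign {σ : ℝ} (h : σ * σ = 1) (n e : E3) : |⟪σ • n, e⟫| = |⟪n, e⟫| := by
  have h1 : |σ| = 1 := by
    have h2 : |σ| * |σ| = 1 := by rw [← abs_mul, h, abs_one]
    nlinarith [abs_nonneg σ]
  rw [real_inner_smul_left, abs_mul, h1, one_mul]

theorem covLidStmt : CovLidStmt := by
  intro Λ K O hΛ hK hO hKO
  obtain ⟨c₀, C, hc₀, hC, H⟩ := contentStmt Λ hΛ
  obtain ⟨ζ, D, h1, h2, h3, h4, h5, h6, hD0, hD⟩ := exists_cutoff hK hO hKO
  refine ⟨C * (D ^ 2 + 1) ^ 2, min 1 c₀, by positivity, by positivity, ?_⟩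
  intro M A hM hA0 hA h7 h8
  have hA1 : A ≤ 1 := hA.trans (min_le_left _ _)
  have hz : ∀ x, x ∉ O → ζ x = 0 ∧ fderiv ℝ ζ x = 0 := fun x hx =>
    ⟨image_eq_zero_of_notMem_tsupport fun h => hx (h3 h),
      image_eq_zero_of_notMem_tsupport fun h => hx (h3 (tsupport_fderiv_subset ℝ h))⟩
  refine (H M (M ∩ K) univ ζ 1 ((D ^ 2 + 1) * A) hM (hK.inter_left hM.closed) inter_subset_left
    isOpen_univ (contDiff_one' h1) h4 one_pos le_rfl (fun _ _ => subset_univ _)
    (fun x hx => (h6 x hx.2).self_of_nhds.ge) (fun x hx => ?_) (by positivity) ?_).mono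
    subset_rfl ?_
  · calc _ ≤ ∫⁻ y, O.indicator 1 y ∂(mu M) := by
          refine (setLIntegral_le_lintegral _ _).trans (lintegral_mono fun y => ?_)
          by_cases hy : y ∈ O
          · simpa [hy] using h5 y
          · simp [hy, (hz y hy).1]
      _ = mu M O := lintegral_indicator_one hO.measurableSet
      _ ≤ _ := h7.trans (ENNReal.ofReal_le_ofReal (by simpa using hA.trans (min_le_right _ _)))
  · rw [Measure.restrict_univ]
    calc _ ≤ ∫⁻ y, O.indicator (fun y => ENNReal.ofReal (D ^ 2 + ‖Hv M y‖ ^ 2)) y ∂(mu M) := by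
          refine lintegral_mono_ae ((ae_mem_mu hM.surf).mono fun y hyM => ?_)
          have h9 := norm_gradM_le_fderiv hM.surf hyM ζ
          by_cases hy : y ∈ O
          · rw [indicator_of_mem hy]
            refine ENNReal.ofReal_le_ofReal (add_le_add ?_ ?_)
            · gcongr; exact h9.trans (hD y)
            · exact mul_le_of_le_one_left (sq_nonneg _) (pow_le_one₀ (h4 y) (h5 y))
          · rw [(hz y hy).2, norm_zero] at h9
            simp [hy, (hz y hy).1, norm_le_zero_iff.1 h9]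
      _ = ∫⁻ y in O, ENNReal.ofReal (D ^ 2 + ‖Hv M y‖ ^ 2) ∂(mu M) :=
          lintegral_indicator hO.measurableSet _
      _ ≤ ∫⁻ y in O, ENNReal.ofReal (D ^ 2) ∂(mu M) + Hn M O :=
          lint_le_add aemeasurable_const (Eventually.of_forall fun _ => le_rfl)
      _ ≤ ENNReal.ofReal (D ^ 2 * A + A) := by
          refine ofReal_add_le' (by positivity) hA0 ?_ h8
          rw [setLIntegral_const]
          exact ofReal_mul_le (by positivity) h7
      _ = _ := by congr 1; ring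
  · rw [mul_pow, ← mul_assoc]
    gcongr
    nlinarith

/-- covering of the steep points where a cut-off function is one -/
theorem cov_band (hB : BandStmt) {Λ b b' : ℝ} (hΛ : 0 < Λ) (hb : 0 ≤ b) (hbb : b < b') :
    ∃ ε₀ : ℝ, 0 < ε₀ ∧ ∀ D : ℝ, 0 < D → ∃ C a₀ : ℝ, 0 < C ∧ 0 < a₀ ∧
      ∀ (M K O : Set E3) (e : E3) (ζ : E3 → ℝ) (A : ℝ), Good Λ M → ‖e‖ = 1 → IsCompact K →
        MeasurableSet O → ContDiff ℝ 1 ζ → HasCompactSupport ζ → tsupport ζ ⊆ O →
        (∀ x, 0 ≤ ζ x) → (∀ x, ζ x ≤ 1) → (∀ x ∈ K, ζ x = 1) → (∀ x, ‖fderiv ℝ ζ x‖ ≤ D) →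
        0 ≤ A → A ≤ a₀ → En M (O ∩ band M e b') ≤ ENNReal.ofReal ε₀ →
        mu M (O ∩ band M e b') ≤ ENNReal.ofReal A → Hn M (O ∩ band M e b') ≤ ENNReal.ofReal A →
        Cov (K ∩ bandc M e b) (C * A) := by
  obtain ⟨c₀, C, hc₀, hC, H⟩ := contentStmt Λ hΛ
  set b₂ := (b + b') / 2 with hb₂
  obtain ⟨ε₀, C₁, hε₀, hC₁, HB⟩ := hB b₂ b' (by linarith) (by linarith)
  obtain ⟨χ, D₁, c1, c2, c3, c4, c5, c6, hD₁, c7⟩ := exists_cutoff (isCompact_closedBall (0 : ℝ) b)
    (isOpen_ball (x := (0 : ℝ)) (ε := b₂)) (closedBall_subset_ball (by linarith))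
  refine ⟨ε₀, hε₀, fun D hD0 => ?_⟩
  set C₂ := 2 * D₁ ^ 2 * (C₁ * (1 + D * √ε₀)) + (2 * D ^ 2 + 1) with hC₂
  refine ⟨C * C₂ ^ 2, min 1 c₀, by positivity, by positivity, ?_⟩
  intro M K O e ζ A hM he hK hO h1 h2 h3 h4 h5 h6 hD hA0 hA h7 h8 h9
  have hA1 : A ≤ 1 := hA.trans (min_le_left _ _)
  have hAs : A ≤ √A := Real.le_sqrt_of_sq_le (by nlinarith)
  obtain ⟨N, hN, hN'⟩ := exists_normal hM.surf hM.closed
  have hNe : ∀ x ∈ M, |⟪N x, e⟫| = |⟪nu M x, e⟫| := fun x hx => by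
    obtain ⟨σ, s1, s2, -⟩ := (hN' x hx).1
    rw [s2, abs_inner_sign s1]
  have hz : ∀ x, x ∉ O → ζ x = 0 ∧ fderiv ℝ ζ x = 0 := fun x hx =>
    ⟨image_eq_zero_of_notMem_tsupport fun h => hx (h3 h),
      image_eq_zero_of_notMem_tsupport fun h => hx (h3 (tsupport_fderiv_subset ℝ h))⟩
  have hz' : ∀ x ∈ M, x ∉ bandc M e b₂ → χ ⟪N x, e⟫ = 0 ∧ fderiv ℝ χ ⟪N x, e⟫ = 0 := by
    intro x hx hx'
    have k1 : ⟪N x, e⟫ ∉ tsupport χ := fun h => hx' ⟨hx, by
      have := c3 h
      rw [mem_ball_zero_iff, Real.norm_eq_abs, hNe x hx] at this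
      exact this.le⟩
    exact ⟨image_eq_zero_of_notMem_tsupport k1,
      image_eq_zero_of_notMem_tsupport fun h => k1 (tsupport_fderiv_subset ℝ h)⟩
  have hq : ContDiff ℝ 1 fun x => ⟪N x, e⟫ := (contDiff_one' hN).inner ℝ contDiff_const
  set g : E3 → ℝ := fun x => χ ⟪N x, e⟫ * ζ x with hg
  have hgc : ContDiff ℝ 1 g := ((c1.of_le (by exact_mod_cast le_top)).comp hq).mul h1
  have hg1 : ∀ x, g x ≤ 1 := fun x => mul_le_one₀ (c5 _) (h4 x) (h5 x)
  have hg0 : ∀ x, 0 ≤ g x := fun x => mul_nonneg (c4 _) (h4 x)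
  have hgr : ∀ x ∈ M, ‖gradM M g x‖ ≤ ‖fderiv ℝ χ ⟪N x, e⟫‖ * √(Asq M x) * ζ x
      + χ ⟪N x, e⟫ * ‖fderiv ℝ ζ x‖ := by
    intro x hx
    have k0 := c4 ⟪N x, e⟫
    have k0' := h4 x
    refine norm_gradM_le hM.surf hx (by positivity) fun v => ?_
    have k1 : HasFDerivAt (fun x => ⟪N x, e⟫) ((innerSL ℝ e).comp (fderiv ℝ N x)) x := by
      simp_rw [real_inner_comm e]
      exact (innerSL ℝ e).hasFDerivAt.comp x (hN.differentiable (by simp) x).hasFDerivAt
    have k2 := ((c1.differentiable (by simp) ⟪N x, e⟫).hasFDerivAt.comp x k1).mul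
      (h1.differentiable one_ne_zero x).hasFDerivAt
    have k3 : fderiv ℝ g x (PT M x v) = χ ⟪N x, e⟫ * fderiv ℝ ζ x (PT M x v)
        + ζ x * fderiv ℝ χ ⟪N x, e⟫ ⟪e, fderiv ℝ N x (PT M x v)⟫ := by
      rw [show fderiv ℝ g x = _ from k2.fderiv]
      simp
    have k4 : |fderiv ℝ ζ x (PT M x v)| ≤ ‖fderiv ℝ ζ x‖ * ‖v‖ :=
      ((fderiv ℝ ζ x).le_opNorm _).trans
        (mul_le_mul_of_nonneg_left (hM.surf.norm_PT_apply_le hx v) (norm_nonneg _))
    have k5 : |fderiv ℝ χ ⟪N x, e⟫ ⟪e, fderiv ℝ N x (PT M x v)⟫|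
        ≤ ‖fderiv ℝ χ ⟪N x, e⟫‖ * (√(Asq M x) * ‖v‖) := by
      refine ((fderiv ℝ χ ⟪N x, e⟫).le_opNorm _).trans
        (mul_le_mul_of_nonneg_left ?_ (norm_nonneg _))
      refine (norm_inner_le_norm _ _).trans ?_
      rw [he, one_mul]
      exact (hN' x hx).2 v
    rw [k3]
    refine (abs_add_le _ _).trans ?_
    rw [abs_mul, abs_mul, abs_of_nonneg k0, abs_of_nonneg k0']
    nlinarith [mul_le_mul_of_nonneg_left k4 k0, mul_le_mul_of_nonneg_left k5 k0']
  have hS : MeasurableSet (O ∩ bandc M e b₂) :=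
    hO.inter (isClosed_bandc hM.surf hM.closed e b₂).measurableSet
  have hS' : MeasurableSet (O ∩ band M e b') := hO.inter (measurableSet_band hM.surf e b')
  have hSS : O ∩ bandc M e b₂ ⊆ O ∩ band M e b' :=
    inter_subset_inter_right _ (bandc_subset_band (by linarith))
  have hcH := hM.surf.continuousOn_Hv
  have hcA := hM.surf.continuousOn_Asq
  have hband : ∫⁻ x in bandc M e b₂, ENNReal.ofReal (ζ x ^ 2 * Asq M x) ∂(mu M)
      ≤ ENNReal.ofReal (C₁ * ((1 + D * √ε₀) * √A)) := by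
    refine (HB M e ζ hM.surf hM.closed he h1 h2
      ((En_mono (inter_subset_inter_left _ h3)).trans h7)).trans (ofReal_mul_le hC₁.le ?_)
    calc _ ≤ ∫⁻ x in band M e b', O.indicator
          (fun x => ENNReal.ofReal (‖Hv M x‖ ^ 2 + D * √(Asq M x))) x ∂(mu M) := by
          refine lintegral_mono fun y => ?_
          by_cases hy : y ∈ O
          · rw [indicator_of_mem hy]
            refine ENNReal.ofReal_le_ofReal (add_le_add ?_ ?_)
            · exact mul_le_of_le_one_left (sq_nonneg _) (pow_le_one₀ (h4 y) (h5 y))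
            · refine mul_le_mul_of_nonneg_right ?_ (Real.sqrt_nonneg _)
              rw [abs_of_nonneg (h4 y)]
              exact (mul_le_of_le_one_left (norm_nonneg _) (h5 y)).trans (hD y)
          · simp [hy, (hz y hy).1]
      _ = ∫⁻ x in O ∩ band M e b', ENNReal.ofReal (‖Hv M x‖ ^ 2 + D * √(Asq M x)) ∂(mu M) := by
          rw [lintegral_indicator hO, Measure.restrict_restrict hO]
      _ ≤ Hn M (O ∩ band M e b')
          + ∫⁻ x in O ∩ band M e b', ENNReal.ofReal (D * √(Asq M x)) ∂(mu M) :=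
          lint_le_add (aemeas_mu hM.surf (hcH.norm.pow 2) _) (Eventually.of_forall fun _ => le_rfl)
      _ ≤ ENNReal.ofReal (√A + D * (√ε₀ * √A)) := by
          refine ofReal_add_le' (by positivity) (by positivity)
            (h9.trans (ENNReal.ofReal_le_ofReal hAs)) ?_
          rw [lint_const_mul _ hD0.le]
          exact ofReal_mul_le hD0.le (lint_sqrt_le hε₀ hA0 h7 (by simpa using h8))
      _ = _ := by congr 1; ring
  refine (H M (K ∩ bandc M e b) univ g 1 (C₂ * √A) hM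
    (hK.inter_right (isClosed_bandc hM.surf hM.closed e b)) (fun x hx => hx.2.1)
    isOpen_univ hgc hg0 one_pos le_rfl (fun _ _ => subset_univ _)
    (fun x hx => ?_) (fun x hx => ?_) (by positivity) ?_).mono subset_rfl (le_of_eq ?_)
  · have k1 : χ ⟪N x, e⟫ = 1 := (c6 _ (by
      rw [mem_closedBall_zero_iff, Real.norm_eq_abs, hNe x hx.2.1]; exact hx.2.2)).self_of_nhds
    simp [hg, k1, h6 x hx.1]
  · calc _ ≤ ∫⁻ y, (O ∩ bandc M e b₂).indicator 1 y ∂(mu M) := by
          refine (setLIntegral_le_lintegral _ _).trans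
            (lintegral_mono_ae ((ae_mem_mu hM.surf).mono fun y hyM => ?_))
          by_cases hy : y ∈ O ∩ bandc M e b₂
          · simpa [hy] using hg1 y
          · rcases not_and_or.1 hy with k | k
            · simp [hg, (hz y k).1]
            · simp [hg, (hz' y hyM k).1]
      _ = mu M (O ∩ bandc M e b₂) := lintegral_indicator_one hS
      _ ≤ _ := (measure_mono hSS).trans (h8.trans
          (ENNReal.ofReal_le_ofReal (by simpa using hA.trans (min_le_right _ _))))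
  · rw [Measure.restrict_univ]
    calc _ ≤ ∫⁻ y, (O ∩ bandc M e b₂).indicator (fun y => ENNReal.ofReal
          (2 * D₁ ^ 2 * (ζ y ^ 2 * Asq M y) + (2 * D ^ 2 + ‖Hv M y‖ ^ 2))) y ∂(mu M) := by
          refine lintegral_mono_ae ((ae_mem_mu hM.surf).mono fun y hyM => ?_)
          have k1 := hgr y hyM
          by_cases hy : y ∈ O ∩ bandc M e b₂
          · rw [indicator_of_mem hy, ← add_assoc]
            refine ENNReal.ofReal_le_ofReal (add_le_add ?_ ?_)
            · have k2 : ‖gradM M g y‖ ≤ D₁ * √(Asq M y) * ζ y + D := by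
                refine k1.trans (add_le_add ?_ ?_)
                · have := h4 y
                  gcongr
                  exact c7 _
                · exact (mul_le_of_le_one_left (norm_nonneg _) (c5 _)).trans (hD y)
              have k3 := Real.sq_sqrt (hM.surf.Asq_nonneg hyM)
              calc _ ≤ (D₁ * √(Asq M y) * ζ y + D) ^ 2 := by gcongr
                _ ≤ 2 * (D₁ * √(Asq M y) * ζ y) ^ 2 + 2 * D ^ 2 := by
                    nlinarith [sq_nonneg (D₁ * √(Asq M y) * ζ y - D)]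
                _ = _ := by rw [mul_pow, mul_pow, k3]; ring
            · exact mul_le_of_le_one_left (sq_nonneg _) (pow_le_one₀ (hg0 y) (hg1 y))
          · rw [indicator_of_notMem hy]
            rcases not_and_or.1 hy with k | k
            · rw [(hz y k).1, (hz y k).2] at k1
              have k2 : gradM M g y = 0 := by simpa using k1
              rw [k2]
              simp [hg, (hz y k).1]
            · rw [(hz' y hyM k).1, (hz' y hyM k).2] at k1
              have k2 : gradM M g y = 0 := by simpa using k1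
              rw [k2]
              simp [hg, (hz' y hyM k).1]
      _ = ∫⁻ y in O ∩ bandc M e b₂, ENNReal.ofReal
          (2 * D₁ ^ 2 * (ζ y ^ 2 * Asq M y) + (2 * D ^ 2 + ‖Hv M y‖ ^ 2)) ∂(mu M) :=
          lintegral_indicator hS _
      _ ≤ ∫⁻ y in O ∩ bandc M e b₂, ENNReal.ofReal (2 * D₁ ^ 2 * (ζ y ^ 2 * Asq M y)) ∂(mu M)
          + (∫⁻ y in O ∩ bandc M e b₂, ENNReal.ofReal (2 * D ^ 2) ∂(mu M)
            + Hn M (O ∩ bandc M e b₂)) :=
          (lint_le_add (aemeas_mu hM.surf (continuousOn_const.mul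
            ((h1.continuous.continuousOn.pow 2).mul hcA)) _)
            (Eventually.of_forall fun _ => le_rfl)).trans (add_le_add le_rfl
              (lint_le_add aemeasurable_const (Eventually.of_forall fun _ => le_rfl)))
      _ ≤ ENNReal.ofReal (2 * D₁ ^ 2 * (C₁ * ((1 + D * √ε₀) * √A)) + (2 * D ^ 2 * √A + √A)) := by
          refine ofReal_add_le' (by positivity) (by positivity) ?_
            (ofReal_add_le' (by positivity) (by positivity) ?_ ?_)
          · rw [lint_const_mul _ (by positivity)]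
            exact ofReal_mul_le (by positivity) ((lintegral_mono_set inter_subset_right).trans hband)
          · rw [setLIntegral_const]
            exact ofReal_mul_le (by positivity) ((measure_mono hSS).trans
              (h8.trans (ENNReal.ofReal_le_ofReal hAs)))
          · exact (Hn_mono hSS).trans (h9.trans (ENNReal.ofReal_le_ofReal hAs))
      _ = _ := by congr 1; rw [hC₂]; ring
  · rw [mul_pow, Real.sq_sqrt hA0, mul_assoc]

theorem covLocStmt (hB : BandStmt) : CovLocStmt := by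
  intro Λ b b' hΛ hb hbb
  obtain ⟨ε₀, hε₀, H⟩ := cov_band hB hΛ hb hbb
  refine ⟨ε₀, hε₀, fun r t ht htr => ?_⟩
  obtain ⟨ζ, D, h1, h2, h3, h4, h5, h6, hD0, hD⟩ := exists_cutoff
    ((isCompact_closedBall (0 : E3) r).diff (isOpen_ball (x := 0) (ε := t)))
    ((isOpen_ball (x := (0 : E3)) (ε := 2 * r)).sdiff (isClosed_closedBall (x := 0) (ε := t / 2)))
    (sdiff_subset_sdiff (closedBall_subset_ball (by linarith))
      (closedBall_subset_ball (by linarith)))
  obtain ⟨C, a₀, hC, ha₀, H'⟩ := H D hD0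
  refine ⟨C, a₀, hC, ha₀, fun M p e A hM he hA0 hA k1 k2 k3 => ?_⟩
  have hτ : Continuous fun x : E3 => x - p := by fun_prop
  refine H' M _ (ball p (2 * r) \ closedBall p (t / 2)) e (fun x => ζ (x - p)) A hM he
    ((isCompact_closedBall p r).diff isOpen_ball)
    (measurableSet_ball.diff measurableSet_closedBall)
    ((contDiff_one' h1).comp (contDiff_id.sub contDiff_const))
    (h2.comp_homeomorph (Homeomorph.subRight p)) (fun x hx => ?_) (fun x => h4 _) (fun x => h5 _)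
    (fun x hx => (h6 _ ?_).self_of_nhds) (fun x => ?_) hA0 hA
    ((En_mono inter_subset_left).trans k1) k2 k3
  · have := h3 (tsupport_comp_subset_preimage ζ hτ hx)
    simpa [dist_eq_norm] using this
  · simpa [dist_eq_norm] using hx
  · rw [fderiv_comp_sub]
    exact hD _

end Vale.Agent.P218N.B
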