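import Vale.Agent.P218N.B.Stmt
import Vale.Agent.P218N.H.Slice

/-! The inputs from block H, and small energy in punctured balls. -/

open MeasureTheory Set Filter Topology Metric
open scoped ENNReal NNReal RealInnerProductSpace ContDiff

namespace Vale.Agent.P218N.B

open Vale.Agent.P218.H313 Vale.Agent.P218N.H Vale.Agent.P218N.G
open Vale.Agent.P218.H552 (MC)
open Vale.Agent.P214 (proj)

set_option linter.unusedSectionVars false
set_option linter.unusedVariables false

theorem bridgeStmt : BridgeStmt := by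
  intro M T H hM hc h
  filter_upwards [hM.tan_unique finrank_E3 h, hM.mean_unique finrank_E3 h,
    ae_restrict_mem hM.measurableSet] with x h1 h2 h3
  exact ⟨by rw [h1, hM.proj_tanP h3], h2⟩

theorem densStmt : DensStmt := by
  intro M hM hc x hx c hc
  have h2 := hM.approxTangent finrank_E3 hx
  have h3 := h2.2 P218.H313.ker continuous_ker ker_compact
  rw [A1.integral_ker_plane h2.1, Nat.cast_one, one_mul] at h3
  exact (h3.eventually (lt_mem_nhds hc)).mono fun r hr => le_of_lt hr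

lemma Good.slice {Λ : ℝ} {M : Set E3} (h : Good Λ M) : Slice 2 (mu M) (tanP M) (Hv M) :=
  h.surf.slice finrank_E3 h.closed

/-- measures with locally bounded mass have small mass in suitable punctured balls -/
theorem exists_punct_measure {ι X : Type*} [PseudoMetricSpace X] [MeasurableSpace X]
    [OpensMeasurableSpace X] (U : Ultrafilter ι) (ν : ι → Measure X) (p : X) {C : ℝ≥0∞}
    (hC : C ≠ ⊤) {r₀ : ℝ} (hr₀ : 0 < r₀) (h : ∀ᶠ i in (U : Filter ι), ν i (ball p r₀) ≤ C)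
    {ε : ℝ≥0∞} (hε : ε ≠ 0) : ∃ r₁ : ℝ, 0 < r₁ ∧ ∀ t : ℝ, 0 < t →
      ∀ᶠ i in (U : Filter ι), ν i (ball p r₁ \ closedBall p t) ≤ ε := by
  have hl : ∀ t : ℝ, ∃ e : ℝ≥0∞, Tendsto (fun i => ν i (ball p t)) U (𝓝 e) := fun t => by
    obtain ⟨e, -, he⟩ := isCompact_univ.ultrafilter_le_nhds (U.map fun i => ν i (ball p t))
      (by simp)
    exact ⟨e, he⟩
  choose e he using hl
  set m := ⨅ t ∈ Ioi (0 : ℝ), e t with hm
  have hmC : m ≤ C := (iInf₂_le r₀ hr₀).trans (le_of_tendsto (he r₀) h)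
  have hmt : m ≠ ⊤ := ne_top_of_le_ne_top hC hmC
  obtain ⟨δ, hδ0, hδt, hδ⟩ : ∃ δ : ℝ≥0∞, δ ≠ 0 ∧ δ ≠ ⊤ ∧ δ + δ ≤ ε :=
    ⟨min (ε / 2) 1, by simp [hε], by simp, by
      calc min (ε / 2) 1 + min (ε / 2) 1 ≤ ε / 2 + ε / 2 :=
            add_le_add (min_le_left _ _) (min_le_left _ _)
        _ = ε := ENNReal.add_halves ε⟩
  have h1 : m < m + δ := ENNReal.lt_add_right hmt hδ0
  obtain ⟨r₁, hr₁⟩ := iInf_lt_iff.1 h1
  obtain ⟨hr₁0, hr₁⟩ := iInf_lt_iff.1 hr₁
  refine ⟨r₁, hr₁0, fun t ht => ?_⟩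
  have ht' : 0 < min t r₁ := lt_min ht hr₁0
  have h2 : m < e (min t r₁) + δ :=
    h1.trans_le (add_le_add (iInf₂_le (min t r₁) ht') le_rfl)
  filter_upwards [(he r₁).eventually (gt_mem_nhds hr₁),
    ((he (min t r₁)).add_const δ).eventually (lt_mem_nhds h2)] with i h3 h4
  have h5 : ν i (ball p r₁ \ closedBall p t) + ν i (ball p (min t r₁)) ≤ ν i (ball p r₁) := by
    rw [← measure_union ?_ measurableSet_ball]
    · exact measure_mono (union_subset sdiff_subset (ball_subset_ball (min_le_right _ _)))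
    · exact disjoint_left.2 fun x hx hx' => hx.2
        (ball_subset_closedBall (ball_subset_ball (min_le_left _ _) hx'))
  have h6 : ν i (ball p (min t r₁)) ≠ ⊤ :=
    ne_top_of_le_ne_top h3.ne_top (measure_mono (ball_subset_ball (min_le_right _ _)))
  have h7 : ν i (ball p r₁ \ closedBall p t) + ν i (ball p (min t r₁))
      ≤ ε + ν i (ball p (min t r₁)) := by
    calc _ ≤ m + δ := h5.trans h3.le
      _ ≤ ν i (ball p (min t r₁)) + δ + δ := add_le_add h4.le le_rfl
      _ = (δ + δ) + ν i (ball p (min t r₁)) := by ring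
      _ ≤ _ := add_le_add hδ le_rfl
  exact (ENNReal.add_le_add_iff_right h6).1 h7

lemma En_mono {M A B : Set E3} (h : A ⊆ B) : En M A ≤ En M B := lintegral_mono_set h

lemma Hn_mono {M A B : Set E3} (h : A ⊆ B) : Hn M A ≤ Hn M B := lintegral_mono_set h

lemma Vn_mono {M A B : Set E3} (h : A ⊆ B) : Vn M A ≤ Vn M B := lintegral_mono_set h

/-- small total curvature in punctured balls: all radii `r ≤ r₁` work -/
theorem exists_punct {ι : Type*} (U : Ultrafilter ι) (M : ι → Set E3)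
    (h : ∀ R : ℝ, ∃ C : ℝ, ∀ᶠ i in (U : Filter ι), En (M i) (ball 0 R) ≤ ENNReal.ofReal C)
    (p : E3) {ε : ℝ} (hε : 0 < ε) : ∃ r₁ : ℝ, 0 < r₁ ∧ ∀ t : ℝ, 0 < t →
      ∀ᶠ i in (U : Filter ι), En (M i) (ball p r₁ \ closedBall p t) ≤ ENNReal.ofReal ε := by
  obtain ⟨C, hC⟩ := h (‖p‖ + 1)
  obtain ⟨r₁, h1, h2⟩ := exists_punct_measure U
    (fun i => (mu (M i)).withDensity fun x => ENNReal.ofReal (Asq (M i) x)) p
    (C := ENNReal.ofReal C) ENNReal.ofReal_ne_top one_pos (hC.mono fun i hi => by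
      rw [withDensity_apply _ measurableSet_ball]
      refine le_trans (En_mono (M := M i) ?_) hi
      intro x hx
      rw [mem_ball_zero_iff]
      calc ‖x‖ ≤ ‖p‖ + ‖x - p‖ := norm_le_norm_add_norm_sub' _ _
        _ < ‖p‖ + 1 := by rw [← dist_eq_norm]; linarith [mem_ball.1 hx])
    (ε := ENNReal.ofReal ε) (by simpa using hε)
  refine ⟨r₁, h1, fun t ht => (h2 t ht).mono fun i hi => ?_⟩
  rwa [withDensity_apply _ (measurableSet_ball.diff measurableSet_closedBall)] at hi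

end Vale.Agent.P218N.B
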