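import Vale.Agent.P218N.B.Band
import Vale.Agent.P218N.B.CovLoc
import Vale.Agent.P218N.B.Punct

/-! De Giorgi iteration, part 1: cut-off functions and the two one-step estimates. -/

open MeasureTheory Set Filter Topology Metric
open scoped ENNReal NNReal RealInnerProductSpace

namespace Vale.Agent.P218N.B

open Vale.Agent.P218.H313 Vale.Agent.P218N.H

set_option linter.unusedSectionVars false
set_option linter.unusedVariables false

lemma one_le_psi {u : ℝ} (hu : u ≤ 0) : 1 ≤ psi u := by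
  have := le_max_left (1 - u) 0
  unfold psi; nlinarith

/-- radial cut-off functions with an explicit gradient bound -/
lemma exists_rad {X : Type*} [NormedAddCommGroup X] [InnerProductSpace ℝ X] (p : X) {a b : ℝ}
    (ha : 0 ≤ a) (hab : a < b) : ∃ ζ : X → ℝ, ContDiff ℝ 1 ζ ∧ (∀ x, 0 ≤ ζ x) ∧ (∀ x, ζ x ≤ 1) ∧
      (∀ x, ‖x - p‖ ≤ a → ζ x = 1 ∧ fderiv ℝ ζ x = 0) ∧
      (∀ x, b ≤ ‖x - p‖ → ζ x = 0 ∧ fderiv ℝ ζ x = 0) ∧ ∀ x, ‖fderiv ℝ ζ x‖ ≤ 8 / (b - a) := by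
  have hd : 0 < b ^ 2 - a ^ 2 := by nlinarith
  set u : X → ℝ := fun x => (b ^ 2 - ‖x - p‖ ^ 2) / (b ^ 2 - a ^ 2) with hu
  have hD : ∀ x, fderiv ℝ (fun x => psi (psi (u x))) x = (psi' (psi (u x)) * psi' (u x) *
      (-2 / (b ^ 2 - a ^ 2))) • innerSL ℝ (x - p) := by
    intro x
    have h1 := (((hasFDerivAt_id x).sub_const p).norm_sq.const_sub (b ^ 2)).mul_const
      (b ^ 2 - a ^ 2)⁻¹
    have h2 := (hasDerivAt_psi _).comp_hasFDerivAt x ((hasDerivAt_psi _).comp_hasFDerivAt x h1)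
    refine (HasFDerivAt.fderiv h2).trans ?_
    ext v
    simp [hu, div_eq_mul_inv]
    ring
  have h1 : ∀ x, ‖x - p‖ ≤ a → 1 ≤ u x := fun x hx => by
    rw [hu, one_le_div hd]; nlinarith [norm_nonneg (x - p)]
  have h2 : ∀ x, b ≤ ‖x - p‖ → u x ≤ 0 := fun x hx =>
    div_nonpos_of_nonpos_of_nonneg (by nlinarith) hd.le
  refine ⟨fun x => psi (psi (u x)), contDiff_psi.comp (contDiff_psi.comp
    ((contDiff_const.sub ((contDiff_norm_sq ℝ).comp (contDiff_id.sub contDiff_const))).div_const _)),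
    fun x => psi_nonneg _, fun x => psi_le_one (psi_nonneg _), fun x hx => ⟨?_, ?_⟩,
    fun x hx => ⟨psi_zero (one_le_psi (h2 x hx)), ?_⟩, fun x => ?_⟩
  · simp only [psi_zero (h1 x hx)]; simp [psi]
  · rw [hD, psi'_zero (h1 x hx)]; simp
  · rw [hD, psi'_zero (one_le_psi (h2 x hx))]; simp
  · rcases le_total b ‖x - p‖ with hx | hx
    · rw [hD, psi'_zero (one_le_psi (h2 x hx))]
      have : 0 < b - a := sub_pos.2 hab
      simp; positivity
    · have h3 : 0 ≤ u x := div_nonneg (by nlinarith [norm_nonneg (x - p)]) hd.le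
      rw [hD, norm_smul, innerSL_apply_norm, Real.norm_eq_abs, abs_mul, abs_mul, abs_div,
        abs_of_pos hd, abs_neg, abs_two]
      calc _ ≤ 2 * 2 * (2 / (b ^ 2 - a ^ 2)) * b := by
            gcongr
            exacts [psi'_bound (psi_nonneg _), psi'_bound h3]
        _ ≤ _ := by
            rw [show 2 * 2 * (2 / (b ^ 2 - a ^ 2)) * b = 8 * b / (b ^ 2 - a ^ 2) by ring,
              div_le_div_iff₀ hd (sub_pos.2 hab)]
            nlinarith [mul_nonneg ha (sub_pos.2 hab).le]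

/-- closed annuli -/
def An (p : E3) (t R : ℝ) : Set E3 := {x | t ≤ ‖x - p‖ ∧ ‖x - p‖ ≤ R}

lemma isClosed_An (p : E3) (t R : ℝ) : IsClosed (An p t R) :=
  isClosed_Icc.preimage (f := fun x : E3 => ‖x - p‖) (by fun_prop)

lemma An_subset (p : E3) (t R : ℝ) : An p t R ⊆ closedBall p R := fun x hx =>
  mem_closedBall_iff_norm.2 hx.2

lemma exists_ann (p : E3) {t₀ t₁ R₁ R₀ : ℝ} (h0 : 0 ≤ t₀) (ht : t₀ < t₁) (h1 : 0 ≤ R₁)
    (hR : R₁ < R₀) : ∃ ζ : E3 → ℝ, ContDiff ℝ 1 ζ ∧ HasCompactSupport ζ ∧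
      tsupport ζ ⊆ An p t₀ R₀ ∧ (∀ x, 0 ≤ ζ x) ∧ (∀ x, ζ x ≤ 1) ∧ (∀ x ∈ An p t₁ R₁, ζ x = 1) ∧
      ∀ x, ‖fderiv ℝ ζ x‖ ≤ 8 / (R₀ - R₁) + (An p t₀ t₁).indicator (fun _ => 8 / (t₁ - t₀)) x := by
  obtain ⟨f, f1, f2, f3, f4, f5, f6⟩ := exists_rad p h1 hR
  obtain ⟨g, g1, g2, g3, g4, g5, g6⟩ := exists_rad p h0 ht
  have hs : tsupport (fun x => f x * (1 - g x)) ⊆ An p t₀ R₀ := by
    refine closure_minimal (fun x hx => ⟨?_, ?_⟩) (isClosed_An _ _ _)
    · by_contra h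
      exact hx (by simp [(g4 x (not_le.1 h).le).1])
    · by_contra h
      exact hx (by simp [(f5 x (not_le.1 h).le).1])
  refine ⟨fun x => f x * (1 - g x), f1.mul (contDiff_const.sub g1),
    (isCompact_closedBall p R₀).of_isClosed_subset (isClosed_tsupport _)
      (hs.trans (An_subset _ _ _)), hs, fun x => mul_nonneg (f2 x) (sub_nonneg.2 (g3 x)),
    fun x => mul_le_one₀ (f3 x) (sub_nonneg.2 (g3 x)) (by linarith [g2 x]),
    fun x hx => by simp [(f4 x hx.2).1, (g5 x hx.1).1], fun x => ?_⟩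
  have k1 := (f1.differentiable one_ne_zero x).hasFDerivAt.mul
    ((g1.differentiable one_ne_zero x).hasFDerivAt.const_sub 1)
  have k2 : ‖fderiv ℝ g x‖ ≤ (An p t₀ t₁).indicator (fun _ => 8 / (t₁ - t₀)) x := by
    by_cases hx : x ∈ An p t₀ t₁
    · rw [indicator_of_mem hx]; exact g6 x
    · rw [indicator_of_notMem hx]
      rcases not_and_or.1 hx with h | h
      · rw [(g4 x (not_le.1 h).le).2, norm_zero]
      · rw [(g5 x (not_le.1 h).le).2, norm_zero]
  rw [show fderiv ℝ (fun x => f x * (1 - g x)) x = _ from k1.fderiv]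
  refine (norm_add_le _ _).trans ?_
  rw [norm_smul, norm_smul, norm_neg, Real.norm_of_nonneg (f2 x),
    Real.norm_of_nonneg (sub_nonneg.2 (g3 x)), add_comm]
  exact add_le_add ((mul_le_of_le_one_left (norm_nonneg _) (by linarith [g2 x])).trans (f6 x))
    ((mul_le_of_le_one_left (norm_nonneg _) (f3 x)).trans k2)

variable {M : Set E3} {Λ : ℝ}

lemma lint_sqrt_set {A : Set E3} {f : E3 → ℝ} {c a b : ℝ} (hc : 0 ≤ c) (ha : 0 < a) (hb : 0 ≤ b)
    (h1 : ∫⁻ x in A, ENNReal.ofReal (f x) ∂mu M ≤ ENNReal.ofReal a)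
    (h2 : mu M A ≤ ENNReal.ofReal b) :
    ∫⁻ x in A, ENNReal.ofReal (c * √(f x)) ∂mu M ≤ ENNReal.ofReal (c * (√a * √b)) := by
  rw [lint_const_mul _ hc]
  exact ofReal_mul_le hc (lint_sqrt_le ha hb h1 (by simpa using h2))

lemma lint_two {A B : Set E3} (hA : MeasurableSet A) (hB : MeasurableSet B) {f g h : E3 → ℝ}
    (hg : ContinuousOn g M) (hM : Surf M)
    (H : ∀ x ∈ M, f x ≤ A.indicator g x + B.indicator h x) :
    ∫⁻ x, ENNReal.ofReal (f x) ∂mu M ≤
      ∫⁻ x in A, ENNReal.ofReal (g x) ∂mu M + ∫⁻ x in B, ENNReal.ofReal (h x) ∂mu M := by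
  refine (lint_le_add ((hg.aemeasurable hM.measurableSet).indicator hA)
    ((ae_mem_mu hM).mono H)).trans (le_of_eq ?_)
  simp only [ofReal_ind]
  rw [lintegral_indicator hA, lintegral_indicator hB]

/-- the energy step -/
theorem step_E (hM : Good Λ M) {p e : E3} (he : ‖e‖ = 1) {t₀ t₁ R₁ R₀ b η m E H m' E' : ℝ}
    (h0 : 0 ≤ t₀) (ht : t₀ < t₁) (h1 : 0 ≤ R₁) (hR : R₁ < R₀) (hη : 0 < η) (hη1 : η ≤ 1)
    (hm0 : 0 ≤ m) (hE0 : 0 < E) (hH0 : 0 ≤ H) (hm0' : 0 ≤ m') (hE0' : 0 < E')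
    (hm : mu M (An p t₀ R₀ ∩ band M e (b + η)) ≤ ENNReal.ofReal m)
    (hE : En M (An p t₀ R₀ ∩ band M e (b + η)) ≤ ENNReal.ofReal E)
    (hH : Hn M (An p t₀ R₀ ∩ band M e (b + η)) ≤ ENNReal.ofReal H)
    (hm' : mu M (An p t₀ t₁) ≤ ENNReal.ofReal m') (hE' : En M (An p t₀ t₁) ≤ ENNReal.ofReal E')
    (hs : E ≤ cS * η ^ 2) :
    En M (An p t₁ R₁ ∩ band M e b) ≤ ENNReal.ofReal (300000 *
      (H + η * (8 / (R₀ - R₁)) * (√E * √m) + η * (8 / (t₁ - t₀)) * (√E' * √m'))) := by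
  obtain ⟨ζ, z1, z2, z3, z4, z5, z6, z7⟩ := exists_ann p h0 ht h1 hR
  have d1 : 0 ≤ η * (8 / (R₀ - R₁)) := by have := sub_pos.2 hR; positivity
  have d2 : 0 ≤ η * (8 / (t₁ - t₀)) := by have := sub_pos.2 ht; positivity
  have hB := measurableSet_band hM.surf e (b + η)
  have hA := (isClosed_An p t₀ R₀).measurableSet.inter hB
  have k1 := (sf_of_closed hM.surf hM.closed).band (tst_of_closed hM.closed z1 z2) he hη hη1
    (b := b) (((En_mono (inter_subset_inter_left _ z3)).trans hE).trans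
      (ENNReal.ofReal_le_ofReal hs))
  calc _ = ∫⁻ x in An p t₁ R₁ ∩ band M e b, ENNReal.ofReal (ζ x ^ 2 * Asq M x) ∂mu M :=
        setLIntegral_congr_fun ((isClosed_An _ _ _).measurableSet.inter
          (measurableSet_band hM.surf e b)) fun x hx => by simp [z6 x hx.1]
    _ ≤ _ := lintegral_mono_set (inter_subset_right.trans band_subset_bandc)
    _ ≤ _ := k1
    _ ≤ _ := ?_
  rw [← ENNReal.ofReal_ofNat 300000]
  refine ofReal_mul_le (by norm_num) ?_
  rw [← lintegral_indicator hB]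
  simp only [← ofReal_ind]
  refine (lint_two hA (isClosed_An p t₀ t₁).measurableSet
    (g := fun x => ‖Hv M x‖ ^ 2 + η * (8 / (R₀ - R₁)) * √(Asq M x))
    (h := fun x => η * (8 / (t₁ - t₀)) * √(Asq M x))
    ((hM.surf.continuousOn_Hv.norm.pow 2).add
      (continuousOn_const.mul hM.surf.continuousOn_Asq.sqrt)) hM.surf fun x hx => ?_).trans ?_
  · have n2 : 0 ≤ (An p t₀ t₁).indicator (fun x => η * (8 / (t₁ - t₀)) * √(Asq M x)) x :=
      indicator_nonneg (fun _ _ => by positivity) x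
    by_cases hx' : x ∈ An p t₀ R₀ ∩ band M e (b + η)
    · rw [indicator_of_mem hx'.2, indicator_of_mem hx']
      have k2 : bdT M ζ x ≤ ‖fderiv ℝ ζ x‖ * √(Asq M x) := by
        refine (bdT_le hM.surf hx).trans (mul_le_mul_of_nonneg_right ?_ (Real.sqrt_nonneg _))
        rw [abs_of_nonneg (z4 x)]
        exact mul_le_of_le_one_left (norm_nonneg _) (z5 x)
      have k3 : ζ x ^ 2 * ‖Hv M x‖ ^ 2 ≤ ‖Hv M x‖ ^ 2 :=
        mul_le_of_le_one_left (sq_nonneg _) (pow_le_one₀ (z4 x) (z5 x))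
      have k4 := mul_le_mul_of_nonneg_left (k2.trans (mul_le_mul_of_nonneg_right (z7 x)
        (Real.sqrt_nonneg _))) hη.le
      have k5 : (An p t₀ t₁).indicator (fun x => η * (8 / (t₁ - t₀)) * √(Asq M x)) x =
          η * ((An p t₀ t₁).indicator (fun _ => 8 / (t₁ - t₀)) x * √(Asq M x)) := by
        by_cases h : x ∈ An p t₀ t₁ <;> simp [h, mul_assoc]
      rw [k5]
      linarith
    · rw [indicator_of_notMem hx', zero_add]
      refine le_trans (indicator_apply_nonpos fun h => ?_) n2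
      have : ζ x = 0 := image_eq_zero_of_notMem_tsupport fun h' => hx' ⟨z3 h', h⟩
      simp [bdT, this]
  · refine ofReal_add_le' (by positivity) (by positivity) ?_ (lint_sqrt_set d2 hE0' hm0' hE' hm')
    refine (lint_le_add (aemeas_mu hM.surf (hM.surf.continuousOn_Hv.norm.pow 2) _)
      (Eventually.of_forall fun _ => le_rfl)).trans ?_
    exact ofReal_add_le' hH0 (by positivity) hH (lint_sqrt_set d1 hE0 hm0 hE hm)

/-- the constant in the weak Michael-Simon inequality -/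
noncomputable def cM : ℝ := 500 * √(2 / om 2) / om 2

lemma cM_pos : 0 < cM := by
  have := om_pos 2
  unfold cM; positivity

/-- **weak Michael-Simon inequality** -/
theorem weak_ms (hΛ : 0 < Λ) (hM : Good Λ M) {g : E3 → ℝ} (hg : ContDiff ℝ 1 g)
    (h0 : ∀ x, 0 ≤ g x) (hc : HasCompactSupport g) {G I : ℝ} (hG0 : 0 ≤ G) (hI0 : 0 < I)
    (hI1 : 2 * I ≤ om 2)
    (hG : ∫⁻ x, ENNReal.ofReal (‖gradM M g x‖ + g x * ‖Hv M x‖) ∂mu M ≤ ENNReal.ofReal G)
    (hI : ∫⁻ x, ENNReal.ofReal (g x) ∂mu M ≤ ENNReal.ofReal I) :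
    mu M {x | 1 ≤ g x} ≤ ENNReal.ofReal (cM * Λ * G * √I) := by
  have hS := hM.slice
  have hfin := hS.mc.fin
  have hom := om_pos 2
  obtain ⟨R, hR⟩ := hc.isCompact.isBounded.subset_closedBall (0 : E3)
  set r : ℝ := √(2 / om 2) * √I with hr
  have hr0 : 0 < r := by positivity
  have hr2 : r ^ 2 = 2 * I / om 2 := by
    rw [hr, mul_pow, Real.sq_sqrt (by positivity), Real.sq_sqrt hI0.le]; ring
  have hr1 : r ≤ 1 := by
    refine le_of_sq_le_sq ?_ zero_le_one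
    rw [hr2, one_pow, div_le_one hom]; exact hI1
  have he : ∀ K, IsCompact K → ∫ y in K, err (tanP M) (Hv M) g y ∂mu M ≤ G := by
    intro K hK
    rw [setIntegral_congr_ae (g := fun x => ‖gradM M g x‖ + g x * ‖Hv M x‖) hK.measurableSet
      ((ae_mem_mu hM.surf).mono fun x hx _ => by rw [err, hM.surf.proj_tanP hx, gradM])]
    refine integral_le_of_lintegral hM.surf hM.closed
      ((hM.surf.continuousOn_gradM hg).norm.add (hg.continuous.continuousOn.mul
        hM.surf.continuousOn_Hv.norm)) (fun x _ => add_nonneg (norm_nonneg _) (mul_nonneg (h0 x) (norm_nonneg _))) hK hG0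
      ((setLIntegral_le_lintegral _ _).trans hG)
  have hbad := bad_set (m := 2) (μ := mu M) (lam := om 2 / (4 * r)) (R := R) hΛ (by positivity) hr1
    (hM.ratio_real hΛ.le) (fun y => err_nonneg h0 y)
    (hS.err_integrableOn hg (isCompact_closedBall _ _)) (he _ (isCompact_closedBall _ _))
    {x | x ∈ closedBall (0 : E3) R ∧ ∃ t, 0 < t ∧ t ≤ r ∧
      om 2 / (4 * r) * t ^ 2 < ∫ y in closedBall x t, err (tanP M) (Hv M) g y ∂mu M}
    fun x hx => hx
  refine le_trans (measure_mono_ae ?_) (hbad.trans (le_of_eq ?_))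
  · filter_upwards [hS.dens] with x hx hx1
    have hx2 : 1 ≤ g x := hx1
    refine ⟨hR (subset_tsupport _ (by rw [Function.mem_support]; linarith)), ?_⟩
    by_contra hcon
    push Not at hcon
    have k1 := om_mul_le hS hg h0 hx hr0 hcon
    have k2 := JJ_le (m := 2) (μ := mu M) hg.continuous h0 (x := x) hr0
    have k3 := integral_le_of_lintegral hM.surf hM.closed hg.continuous.continuousOn
      (fun x _ => h0 x) (isCompact_closedBall x r) hI0.le ((setLIntegral_le_lintegral _ _).trans hI)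
    have k4 := k2.trans (div_le_div_of_nonneg_right k3 (by positivity))
    have k5 : I / r ^ 2 = om 2 / 2 := by rw [hr2]; field_simp
    have k6 : om 2 / (4 * r) * r = om 2 / 4 := by field_simp
    nlinarith
  · congr 1
    rw [P214.BES.nB, fr3, cM, hr]
    field_simp
    norm_num
    ring

/-- the area step -/
theorem step_m (hΛ : 0 < Λ) (hM : Good Λ M) {p e : E3} (he : ‖e‖ = 1)
    {t₀ t₁ R₁ R₀ b η m E H m' : ℝ} (h0 : 0 ≤ t₀) (ht : t₀ < t₁) (h1 : 0 ≤ R₁) (hR : R₁ < R₀)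
    (hb : 0 ≤ b) (hη : 0 < η) (hm0 : 0 < m) (hE0 : 0 < E) (hH0 : 0 < H) (hm0' : 0 ≤ m')
    (hm : mu M (An p t₀ R₀ ∩ band M e (b + η)) ≤ ENNReal.ofReal m)
    (hE : En M (An p t₀ R₀ ∩ band M e (b + η)) ≤ ENNReal.ofReal E)
    (hH : Hn M (An p t₀ R₀ ∩ band M e (b + η)) ≤ ENNReal.ofReal H)
    (hm' : mu M (An p t₀ t₁) ≤ ENNReal.ofReal m') (hs : 2 * m ≤ om 2) :
    mu M (An p t₁ R₁ ∩ band M e b) ≤ ENNReal.ofReal (cM * Λ * (8 / η * (√E * √m) +
      (8 / (R₀ - R₁) * m + √H * √m) + 8 / (t₁ - t₀) * m') * √m) := by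
  obtain ⟨ζ, z1, z2, z3, z4, z5, z6, z7⟩ := exists_ann p h0 ht h1 hR
  obtain ⟨χ, c1, c4, c5, c6, c3, c7⟩ := exists_rad (0 : ℝ) hb (lt_add_of_pos_right b hη)
  simp only [sub_zero, Real.norm_eq_abs, add_sub_cancel_left] at c6 c3 c7
  have d1 : 0 ≤ 8 / (R₀ - R₁) := by have := sub_pos.2 hR; positivity
  have d2 : 0 ≤ 8 / (t₁ - t₀) := by have := sub_pos.2 ht; positivity
  have hA := (isClosed_An p t₀ R₀).measurableSet.inter (measurableSet_band hM.surf e (b + η))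
  obtain ⟨N, hN, hN'⟩ := exists_normal hM.surf hM.closed
  have hNe : ∀ x ∈ M, |⟪N x, e⟫| = |⟪nu M x, e⟫| := fun x hx => by
    obtain ⟨σ, s1, s2, -⟩ := (hN' x hx).1
    rw [s2, abs_inner_sign s1]
  have hq : ContDiff ℝ 1 fun x => ⟪N x, e⟫ := (contDiff_one' hN).inner ℝ contDiff_const
  have hgc : ContDiff ℝ 1 fun x => χ ⟪N x, e⟫ * ζ x := (c1.comp hq).mul z1
  have hg1 : ∀ x, χ ⟪N x, e⟫ * ζ x ≤ 1 := fun x => mul_le_one₀ (c5 _) (z4 x) (z5 x)
  have hg0 : ∀ x, 0 ≤ χ ⟪N x, e⟫ * ζ x := fun x => mul_nonneg (c4 _) (z4 x)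
  have hgr : ∀ x ∈ M, ‖gradM M (fun x => χ ⟪N x, e⟫ * ζ x) x‖ ≤
      ‖fderiv ℝ χ ⟪N x, e⟫‖ * √(Asq M x) * ζ x + χ ⟪N x, e⟫ * ‖fderiv ℝ ζ x‖ := by
    intro x hx
    have k0 := c4 ⟪N x, e⟫
    have k0' := z4 x
    refine norm_gradM_le hM.surf hx (by positivity) fun v => ?_
    have k1 : HasFDerivAt (fun x => ⟪N x, e⟫) ((innerSL ℝ e).comp (fderiv ℝ N x)) x := by
      simp_rw [real_inner_comm e]
      exact (innerSL ℝ e).hasFDerivAt.comp x (hN.differentiable (by simp) x).hasFDerivAt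
    have k2 := ((c1.differentiable (by simp) ⟪N x, e⟫).hasFDerivAt.comp x k1).mul
      (z1.differentiable one_ne_zero x).hasFDerivAt
    have k3 : fderiv ℝ (fun x => χ ⟪N x, e⟫ * ζ x) x (PT M x v) =
        χ ⟪N x, e⟫ * fderiv ℝ ζ x (PT M x v)
        + ζ x * fderiv ℝ χ ⟪N x, e⟫ ⟪e, fderiv ℝ N x (PT M x v)⟫ := by
      rw [show fderiv ℝ (fun x => χ ⟪N x, e⟫ * ζ x) x = _ from k2.fderiv]
      simp
    have k4 : |fderiv ℝ ζ x (PT M x v)| ≤ ‖fderiv ℝ ζ x‖ * ‖v‖ :=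
      ((fderiv ℝ ζ x).le_opNorm _).trans
        (mul_le_mul_of_nonneg_left (hM.surf.norm_PT_apply_le hx v) (norm_nonneg _))
    have k5 : |fderiv ℝ χ ⟪N x, e⟫ ⟪e, fderiv ℝ N x (PT M x v)⟫|
        ≤ ‖fderiv ℝ χ ⟪N x, e⟫‖ * (√(Asq M x) * ‖v‖) := by
      refine ((fderiv ℝ χ ⟪N x, e⟫).le_opNorm _).trans
        (mul_le_mul_of_nonneg_left ?_ (norm_nonneg _))
      refine (norm_inner_le_norm _ _).trans ?_
      rw [he, one_mul]
      exact (hN' x hx).2 v
    rw [k3]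
    refine (abs_add_le _ _).trans ?_
    rw [abs_mul, abs_mul, abs_of_nonneg k0, abs_of_nonneg k0']
    nlinarith [mul_le_mul_of_nonneg_left k4 k0, mul_le_mul_of_nonneg_left k5 k0']
  have hout : ∀ x ∈ M, x ∉ An p t₀ R₀ ∩ band M e (b + η) → χ ⟪N x, e⟫ * ζ x = 0 ∧
      ‖gradM M (fun x => χ ⟪N x, e⟫ * ζ x) x‖ ≤ 0 := by
    intro x hx hx'
    have k := hgr x hx
    rcases not_and_or.1 hx' with h | h
    · have k1 : ζ x = 0 := image_eq_zero_of_notMem_tsupport fun h' => h (z3 h')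
      have k2 : fderiv ℝ ζ x = 0 :=
        image_eq_zero_of_notMem_tsupport fun h' => h (z3 (tsupport_fderiv_subset ℝ h'))
      exact ⟨by simp [k1], by simpa [k1, k2] using k⟩
    · obtain ⟨k1, k2⟩ := c3 ⟪N x, e⟫ (by rw [hNe x hx]; exact not_lt.1 fun h' => h ⟨hx, h'⟩)
      exact ⟨by simp [k1], by simpa [k1, k2] using k⟩
  refine le_trans (measure_mono fun x hx => ?_) (weak_ms hΛ hM hgc hg0 (z2.mul_left)
    (by positivity) hm0 hs ?_ ?_)
  · change 1 ≤ χ ⟪N x, e⟫ * ζ x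
    rw [(c6 _ (by rw [hNe x hx.2.1]; exact hx.2.2.le)).1, z6 x hx.1, one_mul]
  · have hcH := hM.surf.continuousOn_Hv.norm
    have hcA : ContinuousOn (fun x => 8 / η * √(Asq M x)) M :=
      continuousOn_const.mul hM.surf.continuousOn_Asq.sqrt
    refine (lint_two hA (isClosed_An p t₀ t₁).measurableSet
      (g := fun x => 8 / η * √(Asq M x) + (8 / (R₀ - R₁) + ‖Hv M x‖))
      (h := fun _ => 8 / (t₁ - t₀)) (hcA.add (continuousOn_const.add hcH)) hM.surf
      fun x hx => ?_).trans ?_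
    · by_cases hx' : x ∈ An p t₀ R₀ ∩ band M e (b + η)
      · rw [indicator_of_mem hx']
        have k1 := hgr x hx
        have k2 := mul_le_of_le_one_left (norm_nonneg (Hv M x)) (hg1 x)
        have k3 := (mul_le_of_le_one_left (norm_nonneg (fderiv ℝ ζ x)) (c5 ⟪N x, e⟫)).trans (z7 x)
        have k4 : ‖fderiv ℝ χ ⟪N x, e⟫‖ * √(Asq M x) * ζ x ≤ 8 / η * √(Asq M x) :=
          (mul_le_of_le_one_right (by positivity) (z5 x)).trans
            (mul_le_mul_of_nonneg_right (c7 _) (Real.sqrt_nonneg _))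
        linarith
      · obtain ⟨k1, k2⟩ := hout x hx hx'
        rw [indicator_of_notMem hx', k1, zero_mul, add_zero, zero_add]
        exact k2.trans (indicator_nonneg (fun _ _ => d2) x)
    · refine ofReal_add_le' (by positivity) (by positivity) ?_
        (by rw [setLIntegral_const]; exact ofReal_mul_le d2 hm')
      refine (lint_le_add (aemeas_mu hM.surf hcA _) (Eventually.of_forall fun _ => le_rfl)).trans
        (ofReal_add_le' (by positivity) (by positivity)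
          (lint_sqrt_set (by positivity) hE0 hm0.le hE hm) ?_)
      refine (lint_le_add aemeasurable_const (Eventually.of_forall fun _ => le_rfl)).trans
        (ofReal_add_le' (by positivity) (by positivity)
          (by rw [setLIntegral_const]; exact ofReal_mul_le d1 hm) ?_)
      simpa using lint_sqrt_set zero_le_one hH0 hm0.le hH hm
  · refine le_trans (lintegral_mono_ae ((ae_mem_mu hM.surf).mono fun x hx => ?_))
      ((lintegral_indicator_one hA).le.trans hm)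
    by_cases hx' : x ∈ An p t₀ R₀ ∩ band M e (b + η)
    · simpa [hx'] using hg1 x
    · simp [(hout x hx hx').1]

end Vale.Agent.P218N.B
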