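import Vale.Agent.P218N.H.Basic
import Vale.Agent.P218N.B.CapAlg
import Vale.Agent.P218.H313.C1
import Mathlib.Geometry.Manifold.PartitionOfUnity

/-! Gluing local extensions, local Lipschitz bounds on a surface, and the integrated divergence
identity for the cap field. -/

open MeasureTheory Set Filter Topology Metric
open scoped ENNReal NNReal RealInnerProductSpace Manifold

namespace Vale.Agent.P218N.B

open Vale.Agent.P218.H313 Vale.Agent.P218N.H
open Vale.Agent.P218.H552 (MC)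

set_option linter.unusedSectionVars false
set_option linter.unusedVariables false

section glue

variable {E : Type*} [NormedAddCommGroup E] [InnerProductSpace ℝ E] [FiniteDimensional ℝ E]
variable {F : Type*} [NormedAddCommGroup F] [NormedSpace ℝ F]

/-- local `C¹` extensions glue to a global one -/
theorem glue {M K : Set E} (hK : IsCompact K) {Y : E → F}
    (hY : ∀ x ∈ K, ∃ Y' : E → F, ContDiffAt ℝ 1 Y' x ∧ ∀ᶠ y in 𝓝[M] x, Y y = Y' y) :
    ∃ X : E → F, ContDiff ℝ 1 X ∧ ∀ x ∈ K, ∀ᶠ y in 𝓝[M] x, X y = Y y := by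
  have hprop : ProperSpace E := FiniteDimensional.proper_real E
  have h1 : ∀ x ∈ K, ∃ (U : Set E) (Y' : E → F), IsOpen U ∧ x ∈ U ∧ ContDiffOn ℝ 1 Y' U ∧
      ∀ y ∈ U, y ∈ M → Y y = Y' y := by
    intro x hx
    obtain ⟨Y', h2, h3⟩ := hY x hx
    obtain ⟨U, h4, h5, h6⟩ := _root_.mem_nhds_iff.1
      ((h2.eventually (by simp)).and (eventually_nhdsWithin_iff.1 h3))
    exact ⟨U, Y', h5, h6, fun y hy => (h4 hy).1.contDiffWithinAt, fun y hy => (h4 hy).2⟩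
  choose! U Y' hU hx hd he using h1
  obtain ⟨L, hL, hKL, hLO⟩ := exists_compact_between hK (isOpen_biUnion hU)
    (fun x h => mem_biUnion h (hx x h))
  obtain ⟨g, hg⟩ := exists_contMDiffMap_forall_mem_convex_of_local (n := (1 : ℕ∞)) 𝓘(ℝ, E)
    (t := fun y => {v : F | y ∈ L → y ∈ M → v = Y y})
    (fun y u hu v hv a b ha hb hab h1 h2 => by
      rw [hu h1 h2, hv h1 h2, ← add_smul, hab, one_smul])
    (fun x => by
      by_cases h : x ∈ L
      · obtain ⟨p, hp, hxp⟩ := mem_iUnion₂.1 (hLO h)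
        exact ⟨U p, (hU p hp).mem_nhds hxp, Y' p, contMDiffOn_iff_contDiffOn.2 (hd p hp),
          fun y hy _ h2 => (he p hp y hy h2).symm⟩
      · exact ⟨Lᶜ, hL.isClosed.isOpen_compl.mem_nhds h, fun _ => 0, contMDiffOn_const,
          fun y hy h1 _ => absurd h1 hy⟩)
  refine ⟨g, contMDiff_iff_contDiff.1 g.contMDiff, fun x hx => ?_⟩
  filter_upwards [self_mem_nhdsWithin,
    mem_nhdsWithin_of_mem_nhds (mem_interior_iff_mem_nhds.1 (hKL hx))] with y h1 h2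
  exact hg y h2 h1

/-- the local Lipschitz constant on `M` is the norm of the tangential derivative -/
theorem loc_lip {M U : Set E} {w : E → ℝ} (h : LocDef M U w) {p : E} (hp : p ∈ U) {f : E → F}
    (hf : ContDiffAt ℝ 1 f p) {ε : ℝ} (hε : 0 < ε) :
    ∃ r > 0, ∀ y ∈ M ∩ ball p r, ∀ y' ∈ M ∩ ball p r,
      ‖f y - f y'‖ ≤ (‖(fderiv ℝ f p).comp (PW w p)‖ + ε) * ‖y - y'‖ := by
  have hg : 0 < ‖grad w p‖ := norm_pos_iff.2 (h.ne p hp)
  set c : ℝ := ε / (1 + ‖fderiv ℝ f p‖ / ‖grad w p‖) with hc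
  have hc0 : 0 < c := by positivity
  have h1 := (hf.hasStrictFDerivAt one_ne_zero).isLittleO.bound hc0
  have h2 := ((contDiff_one' h.smooth).contDiffAt.hasStrictFDerivAt (x := p)
    one_ne_zero).isLittleO.bound hc0
  have h3 : ∀ᶠ q : E × E in 𝓝 (p, p), q.1 ∈ U ∧ q.2 ∈ U :=
    (continuousAt_fst.eventually (h.isOpen.mem_nhds hp)).and
      (continuousAt_snd.eventually (h.isOpen.mem_nhds hp))
  obtain ⟨r, hr, h4⟩ := Metric.eventually_nhds_iff_ball.1 (h1.and (h2.and h3))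
  refine ⟨r, hr, fun y hy y' hy' => ?_⟩
  obtain ⟨h5, h6, h7, h8⟩ := h4 (y, y') (by rw [← ball_prod_same]; exact ⟨hy.2, hy'.2⟩)
  simp only [h.zero h7 hy.1, h.zero h8 hy'.1, sub_self, zero_sub, norm_neg] at h5 h6
  set d := y - y' with hd
  have h9 : |⟪nuW w p, d⟫| ≤ c * ‖d‖ / ‖grad w p‖ := by
    rw [nuW, real_inner_smul_left, inner_grad, abs_mul, abs_inv, abs_norm, inv_mul_eq_div]
    gcongr
    exact h6
  have h10 : fderiv ℝ f p d = (fderiv ℝ f p).comp (PW w p) d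
      + ⟪nuW w p, d⟫ • fderiv ℝ f p (nuW w p) := by
    rw [ContinuousLinearMap.comp_apply, PW, perp_apply, map_sub _ d, map_smul, sub_add_cancel]
  have h11 : ‖fderiv ℝ f p d‖ ≤ ‖(fderiv ℝ f p).comp (PW w p)‖ * ‖d‖
      + c * ‖d‖ / ‖grad w p‖ * ‖fderiv ℝ f p‖ := by
    rw [h10]
    refine (norm_add_le _ _).trans (add_le_add (ContinuousLinearMap.le_opNorm _ _) ?_)
    rw [norm_smul, Real.norm_eq_abs]
    refine mul_le_mul h9 ?_ (norm_nonneg _) (by positivity)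
    simpa [h.norm_nuW hp] using (fderiv ℝ f p).le_opNorm (nuW w p)
  have h12 : c * ‖d‖ + c * ‖d‖ / ‖grad w p‖ * ‖fderiv ℝ f p‖ = ε * ‖d‖ := by
    rw [hc]; field_simp
  have h13 := norm_add_le (f y - f y' - fderiv ℝ f p d) (fderiv ℝ f p d)
  rw [sub_add_cancel] at h13
  linarith

end glue

/-- the area measure of `M` -/
noncomputable abbrev ar (M : Set E3) : Measure E3 := (μH[2] : Measure E3).restrict M

/-- a smooth surface with the first variation formula -/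
structure Sf (M : Set E3) : Prop where
  surf : Surf M
  mc : MC 2 (ar M) (tanP M) (Hv M)

/-- admissible test functions -/
structure Tst (M : Set E3) (ζ : E3 → ℝ) : Prop where
  cd : ContDiff ℝ 1 ζ
  cs : HasCompactSupport ζ
  cpt : IsCompact (tsupport ζ ∩ M)

lemma lint_le_of_div {X : Type*} [MeasurableSpace X] {μ : Measure X} {u v D : X → ℝ}
    (hD : Integrable D μ) (hD0 : ∫ x, D x ∂μ = 0) (hv : AEMeasurable v μ)
    (h : ∀ᵐ x ∂μ, 0 ≤ u x ∧ 0 ≤ v x ∧ u x ≤ v x - D x) :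
    ∫⁻ x, ENNReal.ofReal (u x) ∂μ ≤ ∫⁻ x, ENNReal.ofReal (v x) ∂μ := by
  by_cases hi : ∫⁻ x, ENNReal.ofReal (v x) ∂μ = ∞
  · rw [hi]; exact le_top
  have h0 : 0 ≤ᵐ[μ] v := h.mono fun x hx => hx.2.1
  have hvi : Integrable v μ := ⟨hv.aestronglyMeasurable,
    (hasFiniteIntegral_iff_ofReal h0).2 (lt_top_iff_ne_top.2 hi)⟩
  calc _ ≤ ∫⁻ x, ENNReal.ofReal (v x - D x) ∂μ :=
        lintegral_mono_ae (h.mono fun x hx => ENNReal.ofReal_le_ofReal hx.2.2)
    _ = ENNReal.ofReal (∫ x, (v x - D x) ∂μ) :=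
        (ofReal_integral_eq_lintegral_ofReal (hvi.sub hD)
          (h.mono fun x hx => hx.1.trans hx.2.2)).symm
    _ = _ := by rw [integral_sub hvi hD, hD0, sub_zero, ofReal_integral_eq_lintegral_ofReal hvi h0]

variable {M : Set E3} {ζ : E3 → ℝ}

lemma Sf.ae_mem (h : Sf M) : ∀ᵐ x ∂ar M, x ∈ M := ae_restrict_mem h.surf.measurableSet

lemma Sf.aemeas {F : Type*} [TopologicalSpace F] [MeasurableSpace F] [BorelSpace F] (h : Sf M)
    {f : E3 → F} (hf : ContinuousOn f M) : AEMeasurable f (ar M) :=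
  hf.aemeasurable h.surf.measurableSet

lemma Sf.fin (h : Sf M) {K : Set E3} (hK : IsCompact K) (hKM : K ⊆ M) :
    (μH[2] : Measure E3) K ≠ ∞ := by
  have := h.mc.fin
  have h1 : ar M K < ∞ := hK.measure_lt_top
  rw [Measure.restrict_apply hK.measurableSet, inter_eq_left.2 hKM] at h1
  exact h1.ne

lemma Sf.integrable (h : Sf M) {K : Set E3} (hK : IsCompact K) (hKM : K ⊆ M) {f : E3 → ℝ}
    (hf : ContinuousOn f M) (h0 : ∀ x ∈ M, x ∉ K → f x = 0) : Integrable f (ar M) := by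
  have := h.mc.fin
  have h1 : IntegrableOn f K (ar M) := (hf.mono hKM).integrableOn_compact hK
  refine (integrableOn_iff_integrable_of_support_subset (s := univ) (subset_univ _)).1 ?_
  refine h1.of_ae_sdiff_eq_zero MeasurableSet.univ.nullMeasurableSet ?_
  filter_upwards [h.ae_mem] with x hx hx' using h0 x hx hx'.2

/-- the first variation formula for `ζ² Y`, `Y` a tangent field on `M` -/
theorem Sf.div_zero (h : Sf M) (hζ : Tst M ζ) {Y : E3 → E3} {D : E3 → ℝ}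
    (hY : ∀ x ∈ tsupport ζ ∩ M, ∃ Y' : E3 → E3, ContDiffAt ℝ 1 Y' x ∧
      (∀ᶠ y in 𝓝[M] x, Y y = Y' y) ∧ divM M Y' x = D x)
    (hT : ∀ x ∈ M, PT M x (Y x) = Y x) :
    Integrable (fun x => ζ x ^ 2 * D x + 2 * ζ x * ⟪gradM M ζ x, Y x⟫) (ar M) ∧
      ∫ x, (ζ x ^ 2 * D x + 2 * ζ x * ⟪gradM M ζ x, Y x⟫) ∂ar M = 0 := by
  obtain ⟨X, hX, hXY⟩ := glue (M := M) hζ.cpt
    (fun x hx => (hY x hx).imp fun Y' h' => ⟨h'.1, h'.2.1⟩)
  have hZ : ContDiff ℝ 1 fun z => ζ z ^ 2 • X z := (hζ.cd.pow 2).smul hX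
  have hz : ∀ x, x ∉ tsupport ζ → ζ x = 0 := fun x hx => image_eq_zero_of_notMem_tsupport hx
  have hZc : HasCompactSupport fun z => ζ z ^ 2 • X z :=
    HasCompactSupport.intro hζ.cs fun x hx => by simp [hz x hx]
  have h1 : ∀ x ∈ M, divM M (fun z => ζ z ^ 2 • X z) x =
      ζ x ^ 2 * D x + 2 * ζ x * ⟪gradM M ζ x, Y x⟫ := by
    intro x hx
    have hd := hζ.cd.differentiable one_ne_zero x
    rw [h.surf.divM_smul (F := fun z => ζ z ^ 2) hx (hd.pow 2) (hX.differentiable one_ne_zero x), gradM, grad_sq hd,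
      map_smul, real_inner_smul_left]
    by_cases hx' : x ∈ tsupport ζ
    · obtain ⟨Y', h2, h3, h4⟩ := hY x ⟨hx', hx⟩
      have h5 := hXY x ⟨hx', hx⟩
      rw [h.surf.divM_congr hx (hX.differentiable one_ne_zero x)
        (h2.differentiableAt one_ne_zero) ((h5.and h3).mono fun y hy => hy.1.trans hy.2), h4,
        h5.self_of_nhdsWithin hx, gradM]
    · simp [hz x hx']
  have h2 : ∀ x ∈ M, ⟪ζ x ^ 2 • X x, Hv M x⟫ = 0 := by
    intro x hx
    by_cases hx' : x ∈ tsupport ζ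
    · rw [(hXY x ⟨hx', hx⟩).self_of_nhdsWithin hx, ← hT x hx, real_inner_smul_left, PT_symm,
        h.surf.PT_Hv hx, inner_zero_right, mul_zero]
    · simp [hz x hx']
  refine ⟨h.integrable hζ.cpt inter_subset_right
    ((h.surf.continuousOn_divM hZ).congr fun x hx => (h1 x hx).symm) fun x hx hx' => ?_, ?_⟩
  · simp [hz x fun h3 => hx' ⟨h3, hx⟩]
  · have h3 := h.mc.fv _ hZ hZc
    rw [integral_congr_ae (h.ae_mem.mono fun x hx => h2 x hx), integral_zero, neg_zero] at h3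
    rw [← h3]
    refine integral_congr_ae (h.ae_mem.mono fun x hx => ?_)
    simp only
    rw [← h1 x hx, h.surf.divM_eq_divAlong hx]

/-- the cap field on `M` -/
noncomputable def capM (κ : ℝ → ℝ) (M : Set E3) (a x : E3) : E3 :=
  (⟪nu M x, a⟫ * κ (‖PT M x a‖ ^ 2)) • (tr (sff M x) • PT M x a - sff M x a)

lemma capM_eq {U : Set E3} {w : E3 → ℝ} (h : LocDef M U w) {x : E3} (hx : x ∈ U) (hM : x ∈ M)
    (κ : ℝ → ℝ) (a : E3) : capM κ M a x = capW κ w a x := by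
  obtain ⟨σ, h1, h2, h3⟩ := h.exists_sign hx hM
  rw [capM, capW, newt_nuW h.smooth (h.ne x hx), h.PT_eq hx hM, h2, h3, tr_smul, PW,
    norm_perp_sq (h.norm_nuW hx), real_inner_smul_left, smul_apply, mul_smul σ, ← smul_sub,
    smul_smul]
  congr 1
  linear_combination (⟪nuW w x, a⟫ * κ (‖a‖ ^ 2 - ⟪nuW w x, a⟫ ^ 2)) * h1

lemma fr3 : Module.finrank ℝ E3 = 3 := finrank_euclideanSpace_fin

theorem Sf.cap_div (h : Sf M) (hζ : Tst M ζ) {a : E3} {g g' : ℝ → ℝ} (hg : ContDiff ℝ 1 g)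
    (hg' : ∀ t, HasDerivAt g (g' t) t) (ha : ∀ x ∈ tsupport ζ ∩ M, PT M x a ≠ 0) :
    Integrable (fun x => ζ x ^ 2 * (Kg M x * (g (‖PT M x a‖ ^ 2)
      - 2 * (‖a‖ ^ 2 - ‖PT M x a‖ ^ 2) * g' (‖PT M x a‖ ^ 2)))
      + 2 * ζ x * ⟪gradM M ζ x, capM (fun t => g t / t) M a x⟫) (ar M) ∧
    ∫ x, (ζ x ^ 2 * (Kg M x * (g (‖PT M x a‖ ^ 2)
      - 2 * (‖a‖ ^ 2 - ‖PT M x a‖ ^ 2) * g' (‖PT M x a‖ ^ 2)))
      + 2 * ζ x * ⟪gradM M ζ x, capM (fun t => g t / t) M a x⟫) ∂ar M = 0 := by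
  refine h.div_zero hζ (fun x hx => ?_) fun x hx => ?_
  · obtain ⟨w, U, h1, h2⟩ := h.surf x hx.2
    have ht : ‖PT M x a‖ ^ 2 = ‖a‖ ^ 2 - ⟪nuW w x, a⟫ ^ 2 := by
      rw [h2.PT_eq h1 hx.2, PW, norm_perp_sq (h2.norm_nuW h1)]
    have ht0 : ‖PT M x a‖ ^ 2 ≠ 0 := pow_ne_zero 2 (norm_ne_zero_iff.2 (ha x hx))
    refine ⟨capW (fun t => g t / t) w a, contDiffAt_capW h2.smooth (h2.ne x h1)
      (hg.contDiffAt.div contDiffAt_id (ht ▸ ht0)), ?_, ?_⟩
    · filter_upwards [self_mem_nhdsWithin, mem_nhdsWithin_of_mem_nhds (h2.isOpen.mem_nhds h1)]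
        with y h3 h4 using capM_eq h2 h4 h3 _ a
    · rw [h2.divM_eq h1 hx.2, tr_capW (κ := fun t => g t / t) fr3 h2.smooth (h2.ne x h1) ht
        ((hg' _).div (hasDerivAt_id _) ht0), h2.Kg_eq h1 hx.2]
      congr 1
      generalize ‖PT M x a‖ ^ 2 = t at ht0 ⊢
      field_simp
      ring
  · rw [capM, map_smul, map_sub, map_smul, h.surf.PT_PT hx, h.surf.PT_sff hx]

end Vale.Agent.P218N.B
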