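import Vale.Agent.P218N.B.Limit1

/-! Sheets over a frame: decomposition of the area measure and estimates. -/

open MeasureTheory Set Filter Topology Metric
open scoped ENNReal NNReal RealInnerProductSpace ContDiff

namespace Vale.Agent.P218N.B.Lim

open Vale.Agent.P218.H313 Vale.Agent.P218N.H Vale.Agent.P218N.G
open Vale.Agent.P218GA (cH cH_pos')

set_option linter.unusedSectionVars false
set_option linter.unusedVariables false

/-- coordinates adapted to a frame -/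
noncomputable def Ph (f : Frame 2 E3) (p : E3) (q : E2 × ℝ) : E3 := p + (f.ι q.1 + q.2 • f.n)

/-- the closed tube over `G` -/
def tube (f : Frame 2 E3) (p : E3) (G : Set E2) (h : ℝ) : Set E3 :=
  {x | f.π (x - p) ∈ G ∧ |⟪f.n, x - p⟫| ≤ h}

variable {f : Frame 2 E3} {p : E3}

lemma π_Ph (z : E2) (t : ℝ) : f.π (Ph f p (z, t) - p) = z := f.π_gr p (fun _ => t) z

lemma inner_Ph (z : E2) (t : ℝ) : ⟪f.n, Ph f p (z, t) - p⟫ = t := f.inner_gr p (fun _ => t) z

lemma Ph_coord (x : E3) : Ph f p (f.π (x - p), ⟪f.n, x - p⟫) = x := by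
  unfold Ph
  rw [← f.decomp]; abel

lemma Ph_sub (z z' : E2) (t t' : ℝ) :
    Ph f p (z, t) - Ph f p (z', t') = f.ι (z - z') + (t - t') • f.n := by
  unfold Ph
  rw [map_sub, sub_smul]; abel

lemma contDiff_Ph {n : WithTop ℕ∞} : ContDiff ℝ n (Ph f p) := by
  unfold Ph; fun_prop

lemma fderiv_Ph (q : E2 × ℝ) (v : E2) (s : ℝ) :
    fderiv ℝ (Ph f p) q (v, s) = f.ι v + s • f.n := by
  have h : HasFDerivAt (Ph f p) (f.ι.comp (ContinuousLinearMap.fst ℝ E2 ℝ)
      + (ContinuousLinearMap.snd ℝ E2 ℝ).smulRight f.n) q :=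
    ((f.ι.comp (ContinuousLinearMap.fst ℝ E2 ℝ)
      + (ContinuousLinearMap.snd ℝ E2 ℝ).smulRight f.n).hasFDerivAt).const_add p
  rw [h.fderiv]
  simp

lemma norm_le_Ph (z z' : E2) (t t' : ℝ) : ‖z - z'‖ ≤ 1 * ‖Ph f p (z, t) - Ph f p (z', t')‖ := by
  rw [one_mul, Ph_sub]
  refine le_of_sq_le_sq ?_ (norm_nonneg _)
  rw [f.norm_sq]
  nlinarith [sq_nonneg (t - t')]

lemma Ph_lip (z z' : E2) (t t' : ℝ) :
    ‖Ph f p (z, t) - Ph f p (z', t')‖ ≤ 1 * (‖z - z'‖ + |t - t'|) := by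
  rw [one_mul, Ph_sub]
  refine (norm_add_le _ _).trans (le_of_eq ?_)
  rw [f.norm_ι, norm_smul, f.norm_n, mul_one, Real.norm_eq_abs]

lemma measurableSet_tube {G : Set E2} (hG : MeasurableSet G) (h : ℝ) :
    MeasurableSet (tube f p G h) := by
  have h1 : Continuous fun x : E3 => f.π (x - p) := by fun_prop
  have h2 : Continuous fun x : E3 => |⟪f.n, x - p⟫| := by fun_prop
  exact (h1.measurable hG).inter (measurableSet_le h2.measurable measurable_const)

lemma tube_subset {G : Set E2} {ρ h : ℝ} (hG : G ⊆ ball 0 ρ) :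
    tube f p G h ⊆ ball 0 (‖p‖ + ρ + h) := by
  rintro x ⟨h1, h2⟩
  have h3 := mem_ball_zero_iff.1 (hG h1)
  have h4 : ‖x - p‖ ≤ ‖f.π (x - p)‖ + |⟪f.n, x - p⟫| := by
    conv_lhs => rw [f.decomp (x - p)]
    refine (norm_add_le _ _).trans (le_of_eq ?_)
    rw [f.norm_ι, norm_smul, f.norm_n, mul_one, Real.norm_eq_abs]
  have h5 := norm_le_norm_add_norm_sub' x p
  rw [mem_ball_zero_iff]
  linarith

lemma GG_subset (ρ : ℝ) (s : Finset (E2 × ℝ)) : GG ρ s ⊆ ball 0 ρ := sdiff_subset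

/-- the area of the enlarged holes -/
lemma vol_holes {s : Finset (E2 × ℝ)} (hs : ∀ c ∈ s, 0 < c.2) {δ : ℝ} (hδ : ∑ c ∈ s, c.2 ≤ δ)
    (hδ1 : δ ≤ 1) :
    volume (⋃ c ∈ s, closedBall c.1 (3 * c.2)) ≤ ENNReal.ofReal (9 * Real.pi * δ) := by
  refine (measure_biUnion_finset_le _ _).trans ?_
  have h1 : ∀ c ∈ s, volume (closedBall c.1 (3 * c.2)) ≤ ENNReal.ofReal (9 * Real.pi * c.2) := by
    intro c hc
    have h2 := hs c hc
    have h3 : c.2 ≤ 1 :=
      ((Finset.single_le_sum (fun c hc => (hs c hc).le) hc).trans hδ).trans hδ1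
    rw [EuclideanSpace.volume_closedBall_fin_two, ← ENNReal.ofReal_pow (by positivity),
      ← ENNReal.ofReal_mul (by positivity)]
    refine ENNReal.ofReal_le_ofReal ?_
    have := Real.pi_pos
    have h4 : c.2 * c.2 ≤ c.2 := by nlinarith
    nlinarith
  refine (Finset.sum_le_sum h1).trans ?_
  rw [← ENNReal.ofReal_sum_of_nonneg fun c hc => by have := hs c hc; positivity,
    ← Finset.mul_sum]
  exact ENNReal.ofReal_le_ofReal (by gcongr)

lemma sdiff_GG {s : Finset (E2 × ℝ)} (hs : ∀ c ∈ s, 0 < c.2) (ρ : ℝ) :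
    ball 0 ρ \ GG ρ s ⊆ ⋃ c ∈ s, closedBall c.1 (3 * c.2) := by
  rintro y ⟨h1, h2⟩
  have h3 : y ∈ ⋃ c ∈ s, closedBall c.1 c.2 := by
    by_contra h
    exact h2 ⟨h1, h⟩
  obtain ⟨c, hc, hy⟩ := mem_iUnion₂.1 h3
  exact mem_iUnion₂.2 ⟨c, hc, closedBall_subset_closedBall (by linarith [hs c hc]) hy⟩

/-- the mass over the holes -/
lemma mass_holes {M : Set E3} {s : Finset (E2 × ℝ)} (hs : ∀ c ∈ s, 0 < c.2) {ρ h C δ : ℝ}
    (hC : 0 < C) (hδ : ∑ c ∈ s, c.2 ≤ δ)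
    (hm : ∀ z r, 0 < r → r ≤ δ → mu M (Ph f p '' ((univ ∩ closedBall z r) ×ˢ Icc (-h) h))
      ≤ ENNReal.ofReal (C * r)) :
    mu M (f.cyl p ρ h \ tube f p (GG ρ s) h) ≤ ENNReal.ofReal (C * δ) := by
  have h0 : f.cyl p ρ h \ tube f p (GG ρ s) h
      ⊆ ⋃ c ∈ s, Ph f p '' ((univ ∩ closedBall c.1 c.2) ×ˢ Icc (-h) h) := by
    rintro x ⟨h1, h2⟩
    have h3 : f.π (x - p) ∈ ⋃ c ∈ s, closedBall c.1 c.2 := by
      by_contra h
      exact h2 ⟨⟨mem_ball_zero_iff.2 h1.1, h⟩, h1.2.le⟩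
    obtain ⟨c, hc, hy⟩ := mem_iUnion₂.1 h3
    exact mem_iUnion₂.2 ⟨c, hc, (f.π (x - p), ⟪f.n, x - p⟫),
      mk_mem_prod ⟨mem_univ _, hy⟩ (abs_le.1 h1.2.le), Ph_coord x⟩
  refine (measure_mono h0).trans ((measure_biUnion_finset_le _ _).trans ?_)
  refine (Finset.sum_le_sum fun c hc => hm c.1 c.2 (hs c hc)
    ((Finset.single_le_sum (fun c hc => (hs c hc).le) hc).trans hδ)).trans ?_
  rw [← ENNReal.ofReal_sum_of_nonneg fun c hc => by have := hs c hc; positivity,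
    ← Finset.mul_sum]
  exact ENNReal.ofReal_le_ofReal (by gcongr)

variable {M K : Set E3} {ρ h' h L : ℝ} {s : Finset (E2 × ℝ)} {k : ℕ} {τ : ℕ → E2 → ℝ}

lemma sh_mem (S : Sheets ⊤ M K (Ph f p) ρ h' h L s k τ) {x : E3}
    (hx : x ∈ tube f p (GG ρ s) h) : x ∈ M ↔ ∃ l < k, f.gw p (τ l) x = 0 := by
  have h1 := S.fib _ hx.1 _ hx.2
  rw [Ph_coord] at h1
  simpa only [Frame.gw, sub_eq_zero] using h1

lemma sh_gr_mem (S : Sheets ⊤ M K (Ph f p) ρ h' h L s k τ) (hh : h' < h) {l : ℕ} (hl : l < k) :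
    f.gr p (τ l) '' GG ρ s ⊆ tube f p (GG ρ s) h ∩ M := by
  rintro _ ⟨z, hz, rfl⟩
  have h1 : f.gr p (τ l) z ∈ tube f p (GG ρ s) h :=
    ⟨by rwa [f.π_gr], by rw [f.inner_gr]; exact (S.bd l z).trans hh.le⟩
  exact ⟨h1, (sh_mem S h1).2 ⟨l, hl, f.gw_gr p _ z⟩⟩

lemma sh_ne (S : Sheets ⊤ M K (Ph f p) ρ h' h L s k τ) {z : E2} (hz : z ∈ GG ρ s) {l l' : ℕ}
    (hl : l < k) (hl' : l' < k) (hne : l ≠ l') : τ l z ≠ τ l' z := by
  rcases lt_or_gt_of_ne hne with h1 | h1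
  · exact (S.smono z hz l l' h1 hl').ne
  · exact (S.smono z hz l' l h1 hl).ne'

/-- near a point of a sheet the surface is the sheet -/
lemma sh_near (S : Sheets ⊤ M K (Ph f p) ρ h' h L s k τ) (hh : h' < h) {z : E2}
    (hz : z ∈ GG ρ s) {l : ℕ} (hl : l < k) :
    ∀ᶠ x in 𝓝 (f.gr p (τ l) z), x ∈ M ↔ f.gw p (τ l) x = 0 := by
  have c1 : Continuous fun x : E3 => f.π (x - p) := by fun_prop
  have c2 : Continuous fun x : E3 => |⟪f.n, x - p⟫| := by fun_prop
  have h1 : ∀ᶠ x in 𝓝 (f.gr p (τ l) z), f.π (x - p) ∈ GG ρ s :=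
    c1.continuousAt.eventually ((isOpen_GG ρ s).mem_nhds (by simpa only [f.π_gr] using hz))
  have h2 : ∀ᶠ x in 𝓝 (f.gr p (τ l) z), |⟪f.n, x - p⟫| < h :=
    c2.continuousAt.eventually_lt continuousAt_const
      (by rw [f.inner_gr]; exact (S.bd l z).trans_lt hh)
  filter_upwards [h1, h2, eventually_ne (f := f) (p := p) (k := k) (τ := τ)
    fun l _ => (continuous_of_lip (S.lip l)).continuousAt] with x k1 k2 k3
  rw [sh_mem S ⟨k1, k2.le⟩]
  refine ⟨fun ⟨l', hl', h0⟩ => ?_, fun h0 => ⟨l, hl, h0⟩⟩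
  by_cases hll : l = l'
  · rwa [hll]
  · refine absurd h0 (k3 l' hl' ?_)
    rw [Frame.gw, f.inner_gr, f.π_gr]
    exact sub_ne_zero.2 (sh_ne S hz hl hl' hll)

/-- the area measure over the good set is the sum of the area measures of the sheets -/
lemma sh_restrict (S : Sheets ⊤ M K (Ph f p) ρ h' h L s k τ) (hh : h' < h) :
    (mu M).restrict (tube f p (GG ρ s) h)
      = ∑ l ∈ Finset.range k, mu (f.gr p (τ l) '' GG ρ s) := by
  have hG := (isOpen_GG ρ s).measurableSet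
  have hm : ∀ l, MeasurableSet (f.gr p (τ l) '' GG ρ s) := fun l =>
    measurableSet_gr (continuous_of_lip (S.lip l)).continuousOn hG
  have e : tube f p (GG ρ s) h ∩ M = ⋃ l ∈ Finset.range k, f.gr p (τ l) '' GG ρ s := by
    refine Subset.antisymm (fun x hx => ?_)
      (iUnion₂_subset fun l hl => sh_gr_mem S hh (Finset.mem_range.1 hl))
    obtain ⟨l, hl, h0⟩ := (sh_mem S hx.1).1 hx.2
    exact mem_iUnion₂.2 ⟨l, Finset.mem_range.2 hl, mem_gr.2 ⟨hx.1.1, h0⟩⟩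
  rw [Measure.restrict_restrict (measurableSet_tube hG h), e,
    Measure.restrict_biUnion_finset ?_ hm,
    Measure.sum_coe_finset (Finset.range k) fun l => mu (f.gr p (τ l) '' GG ρ s)]
  intro l hl l' hl' hne
  refine disjoint_left.2 fun x h1 h2 => ?_
  obtain ⟨a1, a2⟩ := mem_gr.1 h1
  obtain ⟨-, a3⟩ := mem_gr.1 h2
  refine sh_ne S a1 (Finset.mem_range.1 hl) (Finset.mem_range.1 hl') hne ?_
  unfold Frame.gw at a2 a3
  linarith

lemma sh_c1 (S : Sheets ⊤ M K (Ph f p) ρ h' h L s k τ) {l : ℕ} (hl : l < k) :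
    ContDiffOn ℝ 1 (τ l) (GG ρ s) := (S.smooth l hl).of_le (by exact_mod_cast le_top)

/-- integrals over the base are bounded by integrals over the surface -/
lemma sh_lint (S : Sheets ⊤ M K (Ph f p) ρ h' h L s k τ) (hh : h' < h) {l : ℕ} (hl : l < k)
    {F : E2 → ℝ} {g : E3 → ℝ} {A C : ℝ} (hA : 0 ≤ A)
    (hF : ∀ y ∈ GG ρ s, F y ≤ A * g (f.gr p (τ l) y))
    (hg : ∫⁻ x in ball 0 (‖p‖ + ρ + h), ENNReal.ofReal (g x) ∂(mu M) ≤ ENNReal.ofReal C) :
    ∫⁻ y in GG ρ s, ENNReal.ofReal (F y) ≤ ENNReal.ofReal (A / cH 2 * C) := by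
  have hc := cH_pos' 2
  have h1 := lintegral_base_le (f := f) (p := p) (isOpen_GG ρ s) (sh_c1 S hl)
    fun x => ENNReal.ofReal (g x)
  have h2 : mu (f.gr p (τ l) '' GG ρ s) ≤ (mu M).restrict (ball 0 (‖p‖ + ρ + h)) := by
    rw [Measure.restrict_restrict measurableSet_ball]
    exact Measure.restrict_mono ((sh_gr_mem S hh hl).trans
      (inter_subset_inter_left _ (tube_subset (GG_subset ρ s)))) le_rfl
  have h3 := (h1.trans (lintegral_mono' h2 le_rfl)).trans hg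
  calc ∫⁻ y in GG ρ s, ENNReal.ofReal (F y)
      ≤ ∫⁻ y in GG ρ s, ENNReal.ofReal (A / cH 2) * (ENNReal.ofReal (cH 2)
          * ENNReal.ofReal (g (f.gr p (τ l) y))) := by
        refine setLIntegral_mono' (isOpen_GG ρ s).measurableSet fun y hy => ?_
        rw [← mul_assoc, ← ENNReal.ofReal_mul (by positivity), div_mul_cancel₀ _ hc.ne',
          ← ENNReal.ofReal_mul hA]
        exact ENNReal.ofReal_le_ofReal (hF y hy)
    _ = ENNReal.ofReal (A / cH 2) * (ENNReal.ofReal (cH 2)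
          * ∫⁻ y in GG ρ s, ENNReal.ofReal (g (f.gr p (τ l) y))) := by
        rw [lintegral_const_mul' _ _ ENNReal.ofReal_ne_top,
          lintegral_const_mul' _ _ ENNReal.ofReal_ne_top]
    _ ≤ ENNReal.ofReal (A / cH 2) * ENNReal.ofReal C := by gcongr
    _ = _ := (ENNReal.ofReal_mul (by positivity)).symm

/-- the number of sheets is bounded by the mass -/
lemma sh_count (S : Sheets ⊤ M K (Ph f p) ρ h' h L s k τ) (hh : h' < h) :
    (k : ℝ≥0∞) * (ENNReal.ofReal (cH 2) * volume (GG ρ s)) ≤ mu M (ball 0 (‖p‖ + ρ + h)) := by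
  refine le_trans ?_ (measure_mono (tube_subset (f := f) (GG_subset ρ s)))
  rw [← Measure.restrict_apply_univ (μ := mu M), sh_restrict S hh, Measure.finsetSum_apply]
  refine le_trans (le_of_eq (by simp)) (Finset.sum_le_sum
    (f := fun _ => ENNReal.ofReal (cH 2) * volume (GG ρ s)) fun l hl => ?_)
  have h2 := lintegral_base_le (f := f) (p := p) (isOpen_GG ρ s)
    (sh_c1 S (Finset.mem_range.1 hl)) fun _ => 1
  rwa [lintegral_one, lintegral_one, Measure.restrict_apply_univ] at h2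

/-- the Hessian and the residual of a sheet -/
lemma sh_geom (hG : GraphStmt) (hM : Surf M) (hL : 0 ≤ L)
    (S : Sheets ⊤ M K (Ph f p) ρ h' h L s k τ) (hh : h' < h) {l : ℕ} (hl : l < k) {y : E2}
    (hy : y ∈ GG ρ s) :
    ‖fderiv ℝ (grad (τ l)) y‖ ^ 2 ≤ (1 + L ^ 2) ^ 3 * Asq M (f.gr p (τ l) y) ∧
      res (f.π p) ⟪f.n, p⟫ (τ l) y ^ 2 ≤ (1 + L ^ 2) * ‖velM M (f.gr p (τ l) y)‖ ^ 2 := by
  have h1 : ∀ᶠ y' in 𝓝 y, ContDiffAt ℝ ∞ (τ l) y' := by
    filter_upwards [(isOpen_GG ρ s).mem_nhds hy] with y' hy'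
    exact (S.smooth l hl).contDiffAt ((isOpen_GG ρ s).mem_nhds hy')
  obtain ⟨-, h2, h3⟩ := hG M f p (τ l) y hM h1 (sh_near S hh hy hl)
  have h4 := norm_grad_le hL (S.lip l) y
  have h5 := hM.Asq_nonneg (sh_gr_mem S hh hl ⟨y, hy, rfl⟩).2
  refine ⟨h3.trans (by gcongr), ?_⟩
  rw [← sq_abs, ← h2, mul_pow, Real.sq_sqrt (by positivity), mul_comm]
  gcongr

/-- two measures agree on `O` if they agree on test functions vanishing off `O` -/
lemma restrict_ext {μ ν : Measure E3} [IsLocallyFiniteMeasure μ] [IsLocallyFiniteMeasure ν]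
    {O : Set E3} (hO : MeasurableSet O) {d : E3 → ℝ} (hd : Continuous d) (h0 : ∀ x, 0 ≤ d x)
    (h1 : ∀ x, 0 < d x ↔ x ∈ O)
    (h : ∀ ψ : E3 → ℝ, Continuous ψ → HasCompactSupport ψ → (∀ x, x ∉ O → ψ x = 0) →
      ∫ x, ψ x ∂μ = ∫ x, ψ x ∂ν) : μ.restrict O = ν.restrict O := by
  refine Measure.ext_of_integral_eq_on_compactlySupported fun φ => ?_
  have hc : ∀ n : ℕ, Continuous fun x => min 1 (n * d x) * φ x := fun n =>
    (continuous_const.min (continuous_const.mul hd)).mul φ.continuous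
  have hz : ∀ x, x ∉ O → d x = 0 := fun x hx =>
    le_antisymm (not_lt.1 fun h' => hx ((h1 x).1 h')) (h0 x)
  have key : ∀ (m : Measure E3) [IsLocallyFiniteMeasure m],
      Tendsto (fun n : ℕ => ∫ x, min 1 (n * d x) * φ x ∂m) atTop (𝓝 (∫ x in O, φ x ∂m)) := by
    intro m _
    rw [← integral_indicator hO]
    refine tendsto_integral_of_dominated_convergence (fun x => ‖φ x‖)
      (fun n => (hc n).aestronglyMeasurable)
      (φ.continuous.integrable_of_hasCompactSupport φ.hasCompactSupport).norm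
      (fun n => Eventually.of_forall fun x => ?_) (Eventually.of_forall fun x => ?_)
    · rw [norm_mul]
      refine mul_le_of_le_one_left (norm_nonneg _) ?_
      rw [Real.norm_of_nonneg (le_min zero_le_one (mul_nonneg n.cast_nonneg (h0 x)))]
      exact min_le_left _ _
    · by_cases hx : x ∈ O
      · rw [indicator_of_mem hx]
        refine tendsto_const_nhds.congr' ?_
        filter_upwards [(tendsto_natCast_atTop_atTop.atTop_mul_const
          ((h1 x).2 hx)).eventually_ge_atTop 1] with n hn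
        rw [min_eq_left hn, one_mul]
      · simp [indicator_of_notMem hx, hz x hx]
  refine tendsto_nhds_unique (key μ) ((key ν).congr fun n => ?_)
  exact (h _ (hc n) φ.hasCompactSupport.mul_left fun x hx => by simp [hz x hx]).symm

end Vale.Agent.P218N.B.Lim
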