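import Vale.Agent.P218N.G.Static
import Vale.Agent.P218N.G.LIGood

/-! The first variation tested with `ζ ρ ∇W` for a cut-off function `ζ` which is only `C¹`. -/

open MeasureTheory Set Filter Topology Metric
open scoped ENNReal NNReal RealInnerProductSpace

namespace Vale.Agent.P218N.B

open Vale.Agent.P214 (proj divAlong)
open Vale.Agent.P218 Vale.Agent.P218.H313 Vale.Agent.P218N.G

set_option linter.unusedSectionVars false
set_option linter.unusedVariables false

variable {E : Type*} [NormedAddCommGroup E] [InnerProductSpace ℝ E] [FiniteDimensional ℝ E]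
  [MeasurableSpace E] [BorelSpace E]
variable {m : ℕ} {μ : Measure E} {T : E → Submodule ℝ E} {H : E → E} {W g : E → ℝ} {c K : ℝ}

/-- the weight `(|D²W|² + 1/2) ρ` -/
noncomputable def qw (W : E → ℝ) (x : E) : ℝ :=
  (tr ((fderiv ℝ (grad W) x).comp (fderiv ℝ (grad W) x)) + 1 / 2) * rho x

lemma continuous_qw (hW : Tube0 W c K) : Continuous (qw W) := by
  have h1 : Continuous (fderiv ℝ (grad W)) := hW.grad_cd.continuous_fderiv one_ne_zero
  exact (((trL E).continuous.comp (h1.clm_comp h1)).add continuous_const).mul continuous_rho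

lemma qw_bounds (hW : Tube0 W c K) (x : E) :
    rho x / 2 ≤ qw W x ∧ qw W x ≤ Module.finrank ℝ E * K ^ 2 + 1 / 2 := by
  have h1 : 0 ≤ tr ((fderiv ℝ (grad W) x).comp (fderiv ℝ (grad W) x)) := by
    rw [tr_eq_sum]
    refine Finset.sum_nonneg fun i _ => ?_
    rw [ContinuousLinearMap.comp_apply, ← hess_symm hW.smooth]
    exact real_inner_self_nonneg
  have h2 := (le_abs_self _).trans (hW.q_le x)
  have h3 := rho_pos x
  have h4 := rho_le_one x
  unfold qw
  constructor
  · nlinarith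
  · refine (mul_le_of_le_one_right (by linarith) h4).trans (by linarith)

lemma amgm {a b l : ℝ} (hl : 0 < l) : a * b ≤ l * a ^ 2 + l⁻¹ * b ^ 2 := by
  have e : l * a ^ 2 + l⁻¹ * b ^ 2 - a * b = ((l * a - b / 2) ^ 2 + 3 / 4 * b ^ 2) / l := by
    field_simp; ring
  have : 0 ≤ ((l * a - b / 2) ^ 2 + 3 / 4 * b ^ 2) / l := by positivity
  linarith

/-- **the first variation on one sheet** -/
theorem fv_le (hE : Module.finrank ℝ E = m + 1) (hS : GSlice m μ T H)
    (hW : TubeF W (fun _ => 0) g c K) {ζ ψ b : E → ℝ} (hζ : ContDiff ℝ 1 ζ)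
    (hζc : HasCompactSupport ζ) (hψ : ContDiff ℝ 1 ψ) (hψc : HasCompactSupport ψ)
    (hb : Integrable b μ)
    (h : ∀ᵐ x ∂μ, 0 ≤ ζ x ∧ ζ x ≤ 1 ∧ (ζ x ≠ 0 → |W x| < c) ∧ 0 ≤ b x ∧
      ‖proj (T x) (grad ζ x)‖ ≤ ‖grad ψ x‖ + b x) {l l' : ℝ} (hl : 0 < l) (hl' : 0 < l') :
    ∫ x, ζ x * qw W x * W x ∂μ ≤ K * DD μ W 0 + (K + l⁻¹) * TG μ T W 0 + ∫ x, g x * rho x ∂μ
      + K * ∫ x, b x ∂μ + l * ∫ x, ‖grad ψ x‖ ^ 2 * rho x ∂μ + l' * ∫ x, rho x ∂μ
      + l'⁻¹ * K ^ 2 * dis μ T H := by
  have := hS.mc.fin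
  have hT := hW.toTube0
  have hK := hT.K_nonneg
  have hX : PG fun x => ζ x • grad W x := (PG.of_compact hζ hζc).smul hT.pg_grad
  have e0 := hS.wfv hX.cd hX.b0 hX.b1
  have i1 : Integrable (fun x => (divAlong (T x) (fun x => ζ x • grad W x) x
      - 1 / 2 * ⟪x, ζ x • grad W x⟫) * rho x) μ := by
    have j1 := hS.integrable_div hX.cd hX.b1
    have j2 := hS.integrable_PB (((PG.id'.inner' hX).const_mul (1 / 2)).cont.aestronglyMeasurable)
      ((PG.id'.inner' hX).const_mul (1 / 2)).b0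
    refine (j1.sub j2).congr (Eventually.of_forall fun x => ?_)
    simp only [Pi.sub_apply]
    ring
  have i2 := hS.integrable_inner_vel hX.cont.aestronglyMeasurable hX.b0
  have i0 : Integrable (fun x => ζ x * qw W x * W x) μ :=
    ((hζ.continuous.mul (continuous_qw hT)).mul hT.cont).integrable_of_hasCompactSupport
      hζc.mul_right.mul_right
  have k1 := hT.int_DD hS 0
  have k2 := hT.int_TG hS 0
  have k3 := hS.integrable_PB hW.gc.aestronglyMeasurable hW.gb
  have hgc : HasCompactSupport fun x => ‖grad ψ x‖ ^ 2 * rho x := by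
    refine HasCompactSupport.mul_right (HasCompactSupport.intro hψc fun x hx => ?_)
    rw [norm_grad, fderiv_of_notMem_tsupport ℝ hx]
    simp
  have k5 : Integrable (fun x => ‖grad ψ x‖ ^ 2 * rho x) μ :=
    (((continuous_grad hψ).norm.pow 2).mul continuous_rho).integrable_of_hasCompactSupport hgc
  have k6 : Integrable (fun x => rho x) μ := by simpa using hS.mom 0
  have k7 := hS.int_vel_sq
  have s1 := integral_comb k1 k2 k3 K (K + l⁻¹) 1
  have s2 := integral_comb hb k5 k6 K l l'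
  have t1 : Integrable (fun x => K * (W x ^ 2 * wt 0 x * rho x)
      + (K + l⁻¹) * (wt 0 x * ‖proj (T x) (grad W x)‖ ^ 2 * rho x) + 1 * (g x * rho x)) μ :=
    ((k1.const_mul _).add (k2.const_mul _)).add (k3.const_mul _)
  have t2 : Integrable (fun x => K * b x + l * (‖grad ψ x‖ ^ 2 * rho x) + l' * rho x) μ :=
    ((hb.const_mul _).add (k5.const_mul _)).add (k6.const_mul _)
  have t3 : Integrable (fun x => l'⁻¹ * K ^ 2 * (‖vel T H x‖ ^ 2 * rho x)) μ := k7.const_mul _
  have s3 := integral_comb t1 t2 t3 1 1 1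
  have s4 := integral_comb i0 i1 i2 1 1 1
  have key := integral_mono_ae (((i0.const_mul 1).add (i1.const_mul 1)).add (i2.const_mul 1))
    (((t1.const_mul 1).add (t2.const_mul 1)).add (t3.const_mul 1)) (by
      filter_upwards [h, hS.mc.dim] with x ⟨h0, h1, h2, h3, h4⟩ hd
      simp only [Pi.add_apply, wt, pow_zero, one_mul, mul_one, qw]
      rw [divAlong_smul _ (hζ.differentiable one_ne_zero x) (hT.pg_grad.diff x), divAlong_eq,
        real_inner_smul_right, real_inner_smul_left]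
      have r0 := rho_pos x
      have r1 := rho_le_one x
      have g0 := hW.g0 x
      have a1 : ζ x * (tr ((proj (T x)).comp (fderiv ℝ (grad W) x)) - 1 / 2 * ⟪x, grad W x⟫
          + (tr ((fderiv ℝ (grad W) x).comp (fderiv ℝ (grad W) x)) + 1 / 2) * W x)
          ≤ K * (W x ^ 2 + ‖proj (T x) (grad W x)‖ ^ 2) + g x := by
        by_cases hz : ζ x = 0
        · rw [hz, zero_mul]; positivity
        · have a2 := hW.trace_est hE x (T x) hd (h2 hz)
          rw [sub_zero] at a2
          refine (mul_le_mul_of_nonneg_left (le_abs_self _) h0).trans ?_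
          exact (mul_le_of_le_one_left (abs_nonneg _) h1).trans a2
      have a3 : ‖proj (T x) (grad W x)‖ ≤ K := (norm_proj_apply_le _ _).trans (hT.b1 x)
      have a4 : ⟪proj (T x) (grad ζ x), grad W x⟫
          ≤ l * ‖grad ψ x‖ ^ 2 + l⁻¹ * ‖proj (T x) (grad W x)‖ ^ 2 + K * b x := by
        rw [← inner_proj_proj]
        refine (real_inner_le_norm _ _).trans ?_
        have b1 := mul_le_mul_of_nonneg_right h4 (norm_nonneg (proj (T x) (grad W x)))
        have b2 := amgm (a := ‖grad ψ x‖) (b := ‖proj (T x) (grad W x)‖) hl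
        have b3 := mul_le_mul_of_nonneg_left a3 h3
        linarith
      have a5 : ζ x * ⟪grad W x, vel T H x⟫ ≤ l' + l'⁻¹ * K ^ 2 * ‖vel T H x‖ ^ 2 := by
        have b1 : ⟪grad W x, vel T H x⟫ ≤ K * ‖vel T H x‖ := (real_inner_le_norm _ _).trans
          (mul_le_mul_of_nonneg_right (hT.b1 x) (norm_nonneg _))
        have b2 := amgm (a := 1) (b := K * ‖vel T H x‖) hl'
        have b3 := mul_le_mul_of_nonneg_left b1 h0
        have b4 : ζ x * (K * ‖vel T H x‖) ≤ K * ‖vel T H x‖ :=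
          mul_le_of_le_one_left (by positivity) h1
        rw [mul_pow] at b2
        linarith
      have a6 : K * b x * rho x ≤ K * b x := mul_le_of_le_one_right (by positivity) r1
      have a7 := mul_le_mul_of_nonneg_right (add_le_add (add_le_add a1 a4) a5) r0.le
      linarith)
  simp only [Pi.add_apply] at key
  rw [s3, s4, s1, s2, e0, integral_const_mul] at key
  have d1 : DD μ W 0 = ∫ x, W x ^ 2 * wt 0 x * rho x ∂μ := rfl
  unfold TG dis
  rw [d1]
  linarith

/-- local bound for the excess -/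
lemma ex_le (hS : GSlice m μ T H) (hW : Tube0 W c K) (R : ℝ) :
    ∫ y in closedBall 0 R, ex T H W y ∂μ
      ≤ Real.exp (R ^ 2 / 4) * (DD μ W 0 + (1 + R ^ 2) * TG μ T W 0 + dis μ T H) := by
  have hprop : ProperSpace E := FiniteDimensional.proper_real E
  have k1 := hW.int_DD hS 0
  have k2 := hW.int_TG hS 0
  have k7 := hS.int_vel_sq
  have s1 := integral_comb k1 k2 k7 1 (1 + R ^ 2) 1
  have t1 : Integrable (fun x => 1 * (W x ^ 2 * wt 0 x * rho x)
      + (1 + R ^ 2) * (wt 0 x * ‖proj (T x) (grad W x)‖ ^ 2 * rho x)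
      + 1 * (‖vel T H x‖ ^ 2 * rho x)) μ :=
    ((k1.const_mul _).add (k2.const_mul _)).add (k7.const_mul _)
  have d1 : DD μ W 0 = ∫ x, W x ^ 2 * wt 0 x * rho x ∂μ := rfl
  unfold TG dis
  rw [d1, ← one_mul (∫ x, W x ^ 2 * wt 0 x * rho x ∂μ),
    ← one_mul (∫ x, ‖vel T H x‖ ^ 2 * rho x ∂μ), ← s1, ← integral_const_mul]
  refine le_trans (setIntegral_mono_on (ex_integrableOn hS.toSlice hW.pg.cd
    (isCompact_closedBall _ _)) (t1.const_mul _).integrableOn measurableSet_closedBall
    fun x hx => ?_) (setIntegral_le_integral (t1.const_mul _) (Eventually.of_forall fun x => ?_))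
  · have h1 : ‖x‖ ^ 2 ≤ R ^ 2 :=
      pow_le_pow_left₀ (norm_nonneg _) (mem_closedBall_zero_iff.1 hx) 2
    have h2 : 1 ≤ Real.exp (R ^ 2 / 4) * rho x := by
      unfold rho
      rw [← Real.exp_add]
      exact Real.one_le_exp (by linarith)
    have h3 : ex T H W x ≤ W x ^ 2 + (1 + R ^ 2) * ‖proj (T x) (grad W x)‖ ^ 2
        + ‖vel T H x‖ ^ 2 := by
      unfold ex xs tg
      have := mul_le_mul_of_nonneg_right h1 (sq_nonneg ‖proj (T x) (grad W x)‖)
      linarith
    have h4 := le_mul_of_one_le_left (by positivity : 0 ≤ W x ^ 2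
      + (1 + R ^ 2) * ‖proj (T x) (grad W x)‖ ^ 2 + ‖vel T H x‖ ^ 2) h2
    simp only [wt, pow_zero]
    linarith
  · have := rho_pos x
    simp only [wt, pow_zero, Pi.zero_apply]
    positivity

end Vale.Agent.P218N.B
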