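import Vale.Agent.P218N.B.OutAna

/-! From the estimate on the lowest sheet to strong convergence. -/

open MeasureTheory Set Topology Metric
open Filter hiding ker
open scoped ENNReal NNReal RealInnerProductSpace

namespace Vale.Agent.P218N.B

open Vale.Agent.P214 (proj)
open Vale.Agent.P218.H313

set_option linter.unusedSectionVars false
set_option linter.unusedVariables false

variable {E : Type*} [NormedAddCommGroup E] [InnerProductSpace ℝ E] [FiniteDimensional ℝ E]
  [MeasurableSpace E] [BorelSpace E]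
variable {m : ℕ} {ι : Type*} {N : ι → Measure E} {T : ι → E → Submodule ℝ E} {H : ι → E → E}
variable {U : Ultrafilter ι} {w : ι → E → ℝ} {C : ℝ}

lemma Bds.sq_le (h : Bds U m N T H w C) (R : ℝ) : ∃ G : ℝ, 0 < G ∧ ∀ᶠ i in (U : Filter ι),
    ∫ y in closedBall 0 R, w i y ^ 2 ∂(N i) ≤ G ∧
    ∫ y in closedBall 0 R, err (T i) (H i) (fun y => w i y ^ 2) y ∂(N i) ≤ G := by
  have hprop : ProperSpace E := FiniteDimensional.proper_real E
  obtain ⟨C₁, hC₁⟩ := h.bd R
  refine ⟨max C₁ 1, lt_max_of_lt_right one_pos, ?_⟩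
  filter_upwards [h.sl, h.cd, hC₁] with i h1 h2 h5
  have := h1.mc.fin
  have hK' : IsCompact (closedBall (0 : E) R) := isCompact_closedBall _ _
  have i1 : IntegrableOn (fun y => w i y ^ 2) (closedBall (0 : E) R) (N i) :=
    (h2.continuous.pow 2).continuousOn.integrableOn_compact hK'
  have i2 := h1.sq_proj_grad_integrableOn h2 hK'
  have i3 := h1.mc.locL2 _ hK'
  have i4 := h1.sq_mul_H_integrableOn h2.continuous hK'
  have i5 : IntegrableOn (fun x => w i x ^ 2 + ‖proj (T i x) (grad (w i) x)‖ ^ 2 + ‖H i x‖ ^ 2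
      + w i x ^ 2 * ‖H i x‖) (closedBall (0 : E) R) (N i) := ((i1.add i2).add i3).add i4
  refine ⟨le_trans ?_ (h5.trans (le_max_left _ _)), le_trans ?_ (h5.trans (le_max_left _ _))⟩
  · refine integral_mono i1 i5 fun y => ?_
    simp only
    have p2 := sq_nonneg ‖proj (T i y) (grad (w i) y)‖
    have p3 := sq_nonneg ‖H i y‖
    have p4 : 0 ≤ w i y ^ 2 * ‖H i y‖ := by positivity
    linarith
  · exact integral_mono (h1.err_integrableOn (h2.pow 2) hK') i5 fun y => err_sq_le h2 y

lemma exists_mul_le {a ε : ℝ} (ha : 0 ≤ a) (hε : 0 < ε) : ∃ s : ℝ, 0 < s ∧ s ≤ 1 ∧ s * a ≤ ε := by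
  refine ⟨min 1 (ε / (a + 1)), by positivity, min_le_left _ _, ?_⟩
  have h1 := min_le_right 1 (ε / (a + 1))
  rw [le_div_iff₀ (by positivity)] at h1
  have h2 : 0 < min 1 (ε / (a + 1)) := by positivity
  nlinarith

/-- convergence in measure implies strong convergence -/
theorem Bds.strong_of_meas (h : Bds U m N T H w C) (hm : 0 < m)
    (hmeas : ∀ R s δ : ℝ, 0 < s → 0 < δ → ∀ᶠ i in (U : Filter ι),
      N i {x | x ∈ closedBall (0 : E) R ∧ s ≤ |w i x|} ≤ ENNReal.ofReal δ)
    (R : ℝ) {ε : ℝ} (hε : 0 < ε) :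
    ∀ᶠ i in (U : Filter ι), ∫ x in closedBall (0 : E) R, w i x ^ 2 ∂(N i) ≤ ε := by
  have hprop : ProperSpace E := FiniteDimensional.proper_real E
  have hom := om_pos m
  have hC := h.pos
  obtain ⟨M, hM0, hM⟩ := h.mass R
  obtain ⟨G, hG0, hG⟩ := h.sq_le (R + 1)
  have hnB : 0 < (Vale.Agent.P214.BES.nB E : ℝ) := by
    unfold Vale.Agent.P214.BES.nB; positivity
  obtain ⟨r, hr, hr1, hQr⟩ := exists_mul_le
    (a := 2 ^ (m + 3) * G / om m * (Vale.Agent.P214.BES.nB E * C)) (by positivity)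
    (by positivity : 0 < ε / 3)
  obtain ⟨s, hs, hs1, hsM⟩ := exists_mul_le hM0.le (by positivity : 0 < ε / 3)
  obtain ⟨S, hS, hS0⟩ : ∃ S : ℝ, S = 4 * G / (om m * r ^ m) ∧ 0 < S := ⟨_, rfl, by positivity⟩
  filter_upwards [h.sl, h.cd, hM, h.ratio, hG, hmeas R s (ε / 3 / S) hs (by positivity)]
    with i h1 h2 h3 h4 h5 h6
  have := h1.mc.fin
  have hK : IsCompact (closedBall (0 : E) R) := isCompact_closedBall _ _
  have htail := tail_int hm h1 (h2.pow 2) (fun y => sq_nonneg _) (R := R) hC hG0 hr hr1 h4 h5.2 h5.1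
  rw [← hS, mul_comm _ r] at htail
  have hc := h2.continuous
  have m1 : MeasurableSet {x | x ∈ closedBall (0 : E) R ∧ S ≤ w i x ^ 2} :=
    (isClosed_closedBall.inter (isClosed_le continuous_const (hc.pow 2))).measurableSet
  have m2 : MeasurableSet {x | x ∈ closedBall (0 : E) R ∧ s ≤ |w i x|} :=
    (isClosed_closedBall.inter (isClosed_le continuous_const hc.abs)).measurableSet
  have i6 : IntegrableOn (fun y => w i y ^ 2) (closedBall (0 : E) R) (N i) :=
    (hc.pow 2).continuousOn.integrableOn_compact hK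
  have i1 : Integrable ({x | x ∈ closedBall (0 : E) R ∧ S ≤ w i x ^ 2}.indicator
      fun y => w i y ^ 2) (N i) := (integrable_indicator_iff m1).2 (i6.mono_set fun x hx => hx.1)
  have i2 := integrable_ind (μ := N i) m2 hK (fun x hx => hx.1) S
  have i3 := integrable_ind (μ := N i) hK.measurableSet hK Subset.rfl s
  have i12 : Integrable (fun y => {x | x ∈ closedBall (0 : E) R ∧ S ≤ w i x ^ 2}.indicator
      (fun y => w i y ^ 2) y + {x | x ∈ closedBall (0 : E) R ∧ s ≤ |w i x|}.indicator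
      (fun _ => S) y) (N i) := i1.add i2
  have q1 : ∫ x in {x | x ∈ closedBall (0 : E) R ∧ S ≤ w i x ^ 2}, w i x ^ 2 ∂(N i) ≤ ε / 3 := by
    rw [← ofReal_integral_eq_lintegral_ofReal (i6.mono_set fun x hx => hx.1)
      (Eventually.of_forall fun y => sq_nonneg _)] at htail
    exact ((ENNReal.ofReal_le_ofReal_iff (by positivity)).1 htail).trans hQr
  have q2 : (N i).real {x | x ∈ closedBall (0 : E) R ∧ s ≤ |w i x|} * S ≤ ε / 3 := by
    rw [← le_div_iff₀ hS0]
    exact ENNReal.toReal_le_of_le_ofReal (by positivity) h6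
  have q3 : (N i).real (closedBall (0 : E) R) * s ≤ ε / 3 := by
    rw [mul_comm]
    exact (mul_le_mul_of_nonneg_left h3 hs.le).trans hsM
  have q4 := integral_mono ((integrable_indicator_iff hK.measurableSet).2 i6) (i12.add i3)
    fun y => by
      simp only [Pi.add_apply]
      have p1 : 0 ≤ {x | x ∈ closedBall (0 : E) R ∧ S ≤ w i x ^ 2}.indicator
        (fun y => w i y ^ 2) y := indicator_nonneg (fun _ _ => sq_nonneg _) y
      have p2 : 0 ≤ {x | x ∈ closedBall (0 : E) R ∧ s ≤ |w i x|}.indicator (fun _ => S) y :=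
        indicator_nonneg (fun _ _ => hS0.le) y
      by_cases hy : y ∈ closedBall (0 : E) R
      · rw [indicator_of_mem hy, indicator_of_mem hy]
        by_cases c1 : S ≤ w i y ^ 2
        · rw [indicator_of_mem (show y ∈ {x | x ∈ closedBall (0 : E) R ∧ S ≤ w i x ^ 2}
            from ⟨hy, c1⟩)]
          linarith
        · by_cases c2 : s ≤ |w i y|
          · rw [indicator_of_mem (show y ∈ {x | x ∈ closedBall (0 : E) R ∧ s ≤ |w i x|}
              from ⟨hy, c2⟩)]
            linarith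
          · have c3 : w i y ^ 2 ≤ s := by
              rw [← sq_abs]
              nlinarith [abs_nonneg (w i y)]
            linarith
      · rw [indicator_of_notMem hy, indicator_of_notMem hy]
        linarith
  simp only [Pi.add_apply] at q4
  rw [integral_add i12 i3, integral_add i1 i2, integral_indicator m1, integral_indicator m2,
    integral_indicator hK.measurableSet, integral_indicator hK.measurableSet, setIntegral_const,
    setIntegral_const, smul_eq_mul, smul_eq_mul] at q4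
  linarith

/-- the weighted positive part is small -/
lemma Bds.pos_part (h : Bds U m N T H w C) {ζ : ι → E → ℝ} {R : ℝ}
    (hζ : ∀ᶠ i in (U : Filter ι), Continuous (ζ i) ∧ (∀ᵐ x ∂(N i), 0 ≤ ζ i x ∧ ζ i x ≤ 1) ∧
      ∀ᵐ x ∂(N i), x ∉ closedBall (0 : E) R → ζ i x = 0)
    (hmeas : ∀ s δ : ℝ, 0 < s → 0 < δ → ∀ᶠ i in (U : Filter ι),
      N i {x | x ∈ closedBall (0 : E) R ∧ 2 * s ≤ ζ i x ∧ 2 * s ≤ w i x} ≤ ENNReal.ofReal δ)
    {ε : ℝ} (hε : 0 < ε) :
    ∀ᶠ i in (U : Filter ι), ∫ x, ζ i x * max (w i x) 0 ∂(N i) ≤ ε := by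
  have hprop : ProperSpace E := FiniteDimensional.proper_real E
  obtain ⟨M, hM0, hM⟩ := h.mass R
  obtain ⟨G, hG0, hG⟩ := h.sq_le R
  obtain ⟨s, hs, hs1, hsM⟩ := exists_mul_le (by positivity : 0 ≤ 2 * M + 3 * G)
    (by positivity : 0 < ε / 2)
  filter_upwards [h.sl, h.cd, hM, hG, hζ, hmeas s (s * (ε / 2)) hs (by positivity)]
    with i h1 h2 h3 h4 ⟨h5, h6, h7⟩ h8
  have := h1.mc.fin
  have hK : IsCompact (closedBall (0 : E) R) := isCompact_closedBall _ _
  have hc := h2.continuous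
  set A := {x | x ∈ closedBall (0 : E) R ∧ 2 * s ≤ ζ i x ∧ 2 * s ≤ w i x} with hA
  have m1 : MeasurableSet A := (isClosed_closedBall.inter
    ((isClosed_le continuous_const h5).inter (isClosed_le continuous_const hc))).measurableSet
  have i1 : Integrable ((closedBall (0 : E) R).indicator fun y => w i y ^ 2) (N i) :=
    (integrable_indicator_iff hK.measurableSet).2 ((hc.pow 2).continuousOn.integrableOn_compact hK)
  have i2 := integrable_ind (μ := N i) hK.measurableSet hK Subset.rfl (2 * s)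
  have i3 := integrable_ind (μ := N i) m1 hK (fun x hx => hx.1) s⁻¹
  have i12 : Integrable (fun y => 3 * s * (closedBall (0 : E) R).indicator (fun y => w i y ^ 2) y
      + (closedBall (0 : E) R).indicator (fun _ => 2 * s) y) (N i) := (i1.const_mul _).add i2
  have q1 : (N i).real A * s⁻¹ ≤ ε / 2 := by
    rw [mul_inv_le_iff₀ hs, mul_comm]
    exact ENNReal.toReal_le_of_le_ofReal (by positivity) h8
  have q2 : ∫ x, ζ i x * max (w i x) 0 ∂(N i) ≤ ∫ y, (3 * s * (closedBall (0 : E) R).indicator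
      (fun y => w i y ^ 2) y + (closedBall (0 : E) R).indicator (fun _ => 2 * s) y
      + A.indicator (fun _ => s⁻¹) y) ∂(N i) := by
    refine integral_mono_of_nonneg ?_ (i12.add i3) ?_
    · filter_upwards [h6] with y hy using mul_nonneg hy.1 (le_max_right _ _)
    filter_upwards [h6, h7] with y hy hy'
    have p2 : 0 ≤ A.indicator (fun _ => s⁻¹) y := indicator_nonneg (fun _ _ => by positivity) y
    have p3 : 0 ≤ max (w i y) 0 := le_max_right _ _
    have p4 : 0 ≤ s * w i y ^ 2 := by positivity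
    by_cases hyR : y ∈ closedBall (0 : E) R
    · rw [indicator_of_mem hyR, indicator_of_mem hyR]
      have p5 : ζ i y * max (w i y) 0 ≤ max (w i y) 0 := mul_le_of_le_one_left p3 hy.2
      by_cases c1 : 2 * s ≤ w i y
      · by_cases c2 : 2 * s ≤ ζ i y
        · rw [indicator_of_mem (show y ∈ A from ⟨hyR, c2, c1⟩)]
          have p6 : w i y ≤ s * w i y ^ 2 + s⁻¹ := by
            have e : s * w i y ^ 2 + s⁻¹ - w i y
                = ((s * w i y - 1 / 2) ^ 2 + 3 / 4) / s := by field_simp; ring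
            have : 0 ≤ ((s * w i y - 1 / 2) ^ 2 + 3 / 4) / s := by positivity
            linarith
          rw [max_eq_left (by linarith)] at p5 ⊢
          linarith
        · rw [max_eq_left (by linarith)]
          have p6 : ζ i y * w i y ≤ 2 * s * w i y :=
            mul_le_mul_of_nonneg_right (not_le.1 c2).le (by linarith)
          have p7 : s * (2 * w i y) ≤ s * (1 + w i y ^ 2) :=
            mul_le_mul_of_nonneg_left (by nlinarith [sq_nonneg (w i y - 1)]) hs.le
          linarith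
      · have p6 : max (w i y) 0 ≤ 2 * s := max_le (not_le.1 c1).le (by linarith)
        linarith
    · rw [indicator_of_notMem hyR, indicator_of_notMem hyR, hy' hyR]
      linarith
  rw [integral_add i12 i3, integral_add (i1.const_mul _) i2, integral_const_mul,
    integral_indicator m1, integral_indicator hK.measurableSet,
    integral_indicator hK.measurableSet, setIntegral_const, setIntegral_const, smul_eq_mul,
    smul_eq_mul] at q2
  have q3 := mul_le_mul_of_nonneg_left h4.1 (by positivity : 0 ≤ 3 * s)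
  have q4 := mul_le_mul_of_nonneg_right h3 (by positivity : 0 ≤ 2 * s)
  linarith

lemma cheb {μ : Measure E} {f : E → ℝ} (hf : Integrable f μ) (f0 : ∀ᵐ x ∂μ, 0 ≤ f x) {A : Set E}
    (hA : MeasurableSet A) (hA' : μ A ≠ ⊤) {a : ℝ} (h : ∀ x ∈ A, a ≤ f x) :
    a * μ.real A ≤ ∫ x, f x ∂μ := by
  calc a * μ.real A = ∫ _ in A, a ∂μ := by rw [setIntegral_const, smul_eq_mul, mul_comm]
    _ ≤ ∫ x in A, f x ∂μ := setIntegral_mono_on (integrableOn_const hA') hf.integrableOn hA h
    _ ≤ _ := setIntegral_le_integral hf f0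

/-- if the negative part tends to zero in measure then so does the positive part -/
lemma Bds.both (h : Bds U m N T H w C)
    (hneg : ∀ R s δ : ℝ, 0 < s → 0 < δ → ∀ᶠ i in (U : Filter ι),
      N i {x | x ∈ closedBall (0 : E) R ∧ s ≤ -w i x} ≤ ENNReal.ofReal δ)
    (R s δ : ℝ) (hs : 0 < s) (hδ : 0 < δ) : ∀ᶠ i in (U : Filter ι),
      N i {x | x ∈ closedBall (0 : E) R ∧ s ≤ |w i x|} ≤ ENNReal.ofReal δ := by
  have hprop : ProperSpace E := FiniteDimensional.proper_real E
  have hR : 0 < |R| + 1 := by positivity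
  have hc := (P218.H552.contDiff_chi (E := E) (|R| + 1)).continuous
  have hk := P218.H552.chi_compact (E := E) hR
  obtain ⟨R', hR'⟩ := hk.isCompact.isBounded.subset_closedBall (0 : E)
  have h1 := h.neg.pos_part (ζ := fun _ => P218.H552.chi (|R| + 1)) (R := R')
    (Eventually.of_forall fun i => ⟨hc, Eventually.of_forall fun x =>
      ⟨P218.H552.chi_nonneg _ _, P218.H552.chi_le_one _ _⟩, Eventually.of_forall fun x hx =>
      image_eq_zero_of_notMem_tsupport fun h => hx (hR' h)⟩)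
    (fun s δ hs hδ => (hneg R' (2 * s) δ (by positivity) hδ).mono fun i hi =>
      le_trans (measure_mono fun x hx => And.intro hx.1 hx.2.2) hi) (by positivity : 0 < s * δ / 4)
  have h2 := (h.lim _ hc hk).eventually (gt_mem_nhds (by positivity : 0 < s * δ / 4))
  filter_upwards [h1, h2, h.sl, h.cd, hneg R s (δ / 2) hs (by positivity)] with i i1 i2 i3 i4 i5
  have := i3.mc.fin
  have hw := i4.continuous
  have j1 : Integrable (fun x => P218.H552.chi (|R| + 1) x * w i x) (N i) :=
    (hc.mul hw).integrable_of_hasCompactSupport hk.mul_right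
  have j2 : Integrable (fun x => P218.H552.chi (|R| + 1) x * max (-w i x) 0) (N i) :=
    (hc.mul (hw.neg.max continuous_const)).integrable_of_hasCompactSupport hk.mul_right
  have hA : IsCompact {x | x ∈ closedBall (0 : E) R ∧ s ≤ w i x} :=
    (isCompact_closedBall _ _).inter_right (isClosed_le continuous_const hw)
  have j3 := cheb (j1.add j2) (Eventually.of_forall fun x => by
      simp only [Pi.add_apply]
      rw [← mul_add]
      refine mul_nonneg (P218.H552.chi_nonneg _ _) ?_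
      have := le_max_left (-w i x) 0
      linarith) hA.measurableSet hA.measure_lt_top.ne (a := s) fun x hx => by
      simp only [Pi.add_apply]
      rw [P218.H552.chi_eq_one hR ((mem_closedBall_zero_iff.1 hx.1).trans
        (by linarith [le_abs_self R])), one_mul, one_mul]
      have := le_max_right (-w i x) 0
      linarith [hx.2]
  simp only [Pi.add_apply] at j3
  rw [integral_add j1 j2] at j3
  have j4 : N i {x | x ∈ closedBall (0 : E) R ∧ s ≤ w i x} ≤ ENNReal.ofReal (δ / 2) := by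
    rw [← ENNReal.ofReal_toReal hA.measure_lt_top.ne]
    refine ENNReal.ofReal_le_ofReal (le_of_mul_le_mul_left (j3.trans ?_) hs)
    linarith
  rw [← add_halves δ, ENNReal.ofReal_add (by positivity) (by positivity)]
  refine le_trans (measure_mono fun x hx => ?_) ((measure_union_le _ _).trans (add_le_add j4 i5))
  rcases le_abs.1 hx.2 with h3 | h3
  exacts [Or.inl ⟨hx.1, h3⟩, Or.inr ⟨hx.1, h3⟩]

/-- the data of a lowest sheet with a cut-off function -/
structure Low (U : Ultrafilter ι) (m : ℕ) (N : ι → Measure E) (T : ι → E → Submodule ℝ E)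
    (w : ι → E → ℝ) (Cd R γ : ℝ) (ζ a : ι → E → ℝ) (ψ : E → ℝ) (Z : Set E) (R' Q δ : ℝ) :
    Prop where
  cd : ∀ᶠ i in (U : Filter ι), ContDiff ℝ 1 (ζ i) ∧ HasCompactSupport (ζ i) ∧ (∀ x, 0 ≤ ζ i x) ∧
    ∀ᵐ x ∂(N i), ζ i x ≤ ψ x
  cont : Continuous ψ
  le_one : ∀ x, ψ x ≤ 1
  spt : ∀ x, x ∉ closedBall (0 : E) R' → ψ x = 0
  gr : ∀ R : ℝ, ∃ C : ℝ, ∀ᶠ i in (U : Filter ι),
    ∫ x in closedBall (0 : E) R, ‖proj (T i x) (grad (ζ i) x)‖ ∂(N i) ≤ C
  sharp : ∀ (x : E) (ε : ℝ), 0 < ε → ∀ᶠ r in 𝓝[>] (0 : ℝ), ∀ᶠ i in (U : Filter ι),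
    ∫ y in {y | ζ i y ≠ 0}, ker (r⁻¹ • (y - x)) ∂(N i) ≤ (om m + ε) * r ^ m
  dom : Dom U N w ζ ψ Cd
  dpos : 0 < δ
  d1 : δ ≤ 1
  one : ∀ y ∈ closedBall (0 : E) R, y ∉ Z → ∀ y', dist y' y ≤ δ → ψ y' = 1
  small : ∀ᶠ i in (U : Filter ι), N i Z ≤ ENNReal.ofReal γ
  wt : ∀ᶠ i in (U : Filter ι), Continuous (a i) ∧ ∀ x, rho x / 2 ≤ a i x ∧ a i x ≤ Q
  fv : ∀ᶠ i in (U : Filter ι), -γ ≤ ∫ x, ζ i x * a i x * w i x ∂(N i)

theorem Bds.neg_meas (h : Bds U m N T H w C) {Cd : ℝ} (hCd : 0 < Cd)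
    (hl : ∀ R γ : ℝ, 0 < γ → ∃ ζ a ψ Z R' Q δ, Low U m N T w Cd R γ ζ a ψ Z R' Q δ)
    (R s δ : ℝ) (hs : 0 < s) (hδ : 0 < δ) : ∀ᶠ i in (U : Filter ι),
      N i {x | x ∈ closedBall (0 : E) R ∧ s ≤ -w i x} ≤ ENNReal.ofReal δ := by
  have hprop : ProperSpace E := FiniteDimensional.proper_real E
  obtain ⟨a₀, ha₀, ha⟩ : ∃ a₀ : ℝ, 0 < a₀ ∧ ∀ x ∈ closedBall (0 : E) (R + 1), a₀ ≤ rho x / 2 := by
    refine ⟨Real.exp (-(R + 1) ^ 2 / 4) / 2, by positivity, fun x hx => ?_⟩
    have h1 : ‖x‖ ^ 2 ≤ (R + 1) ^ 2 :=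
      pow_le_pow_left₀ (norm_nonneg _) (mem_closedBall_zero_iff.1 hx) 2
    unfold rho
    gcongr
  obtain ⟨γ, hγ, -, hγ1⟩ := exists_mul_le (a := 2 * Cd / (a₀ * s) + 2) (by positivity) hδ
  obtain ⟨ζ, a, ψ, Z, R', Q, δ', L⟩ := hl R γ hγ
  obtain ⟨ε, hε, -, hε1⟩ := exists_mul_le (abs_nonneg Q) hγ
  have h1 := h.pos_part (ζ := ζ) (R := R') (L.cd.mono fun i hi => ⟨hi.1.continuous,
      hi.2.2.2.mono fun x hx => ⟨hi.2.2.1 x, hx.trans (L.le_one x)⟩,
      hi.2.2.2.mono fun x hx hx' => le_antisymm (hx.trans (L.spt x hx').le) (hi.2.2.1 x)⟩)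
    (fun s δ hs hδ => h.sheet hCd (L.cd.mono fun i hi => hi.1) L.cont
      (L.cd.mono fun i hi => hi.2.2.2) L.gr L.sharp L.dom hs R' hδ) hε
  filter_upwards [h1, h.sl, h.cd, L.cd, L.dom R δ' γ L.dpos hγ, L.small, L.wt, L.fv]
    with i i1 i2 i3 ⟨i4, i5, i6, _⟩ i7 i8 ⟨i9, i10⟩ i11
  have := i2.mc.fin
  have hw := i3.continuous
  have hζ := i4.continuous
  have hB : IsCompact {x | x ∈ closedBall (0 : E) (R + 1) ∧ 1 ≤ ζ i x ∧ s ≤ -w i x} :=
    (isCompact_closedBall _ _).inter_right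
      ((isClosed_le continuous_const hζ).inter (isClosed_le continuous_const hw.neg))
  have k1 := i7 ({x | x ∈ closedBall (0 : E) R ∧ s ≤ -w i x} \ Z) _ (fun x hx => hx.1.1) hB
    fun y hy y' f1 f2 f3 => ⟨by
      have := dist_triangle y' y 0
      have := mem_closedBall.1 hy.1.1
      have := L.d1
      rw [mem_closedBall]
      linarith, by rw [f3, L.one y hy.1.1 hy.2 y' f1], by linarith [hy.1.2]⟩
  have j1 : Integrable (fun x => ζ i x * a i x * w i x) (N i) :=
    ((hζ.mul i9).mul hw).integrable_of_hasCompactSupport i5.mul_right.mul_right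
  have j2 : Integrable (fun x => ζ i x * max (w i x) 0) (N i) :=
    (hζ.mul (hw.max continuous_const)).integrable_of_hasCompactSupport i5.mul_right
  have a0 : ∀ x, 0 ≤ a i x := fun x => le_trans (half_pos (rho_pos x)).le (i10 x).1
  have key : ∀ x, ζ i x * a i x * max (-w i x) 0
      ≤ |Q| * (ζ i x * max (w i x) 0) - ζ i x * a i x * w i x := fun x => by
    have e : max (-w i x) 0 = max (w i x) 0 - w i x := by
      rcases le_total (w i x) 0 with h | h
      · rw [max_eq_left (by linarith), max_eq_right h]; ring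
      · rw [max_eq_right (by linarith), max_eq_left h]; ring
    have p1 : a i x * (ζ i x * max (w i x) 0) ≤ |Q| * (ζ i x * max (w i x) 0) :=
      mul_le_mul_of_nonneg_right ((i10 x).2.trans (le_abs_self Q))
        (mul_nonneg (i6 x) (le_max_right _ _))
    rw [e]
    linarith
  have k2 := cheb ((j2.const_mul |Q|).sub j1) (Eventually.of_forall fun x =>
      le_trans (mul_nonneg (mul_nonneg (i6 x) (a0 x)) (le_max_right _ _)) (key x))
    hB.measurableSet hB.measure_lt_top.ne (a := a₀ * s) fun x hx => le_trans (by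
      have p1 : a₀ ≤ ζ i x * a i x :=
        ((ha x hx.1).trans (i10 x).1).trans (le_mul_of_one_le_left (a0 x) hx.2.1)
      exact mul_le_mul p1 (hx.2.2.trans (le_max_left _ _)) hs.le (ha₀.le.trans p1)) (key x)
  simp only [Pi.sub_apply] at k2
  rw [integral_sub (j2.const_mul _) j1, integral_const_mul] at k2
  have k3 := mul_le_mul_of_nonneg_left i1 (abs_nonneg Q)
  have k4 : (N i).real {x | x ∈ closedBall (0 : E) (R + 1) ∧ 1 ≤ ζ i x ∧ s ≤ -w i x}
      ≤ 2 * γ / (a₀ * s) := by
    rw [le_div_iff₀ (by positivity)]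
    linarith
  have k5 := mul_le_mul_of_nonneg_left k4 hCd.le
  have k6 : Cd * (2 * γ / (a₀ * s)) + γ + γ ≤ δ := le_of_eq_of_le (by ring) hγ1
  have k7 : N i ({x | x ∈ closedBall (0 : E) R ∧ s ≤ -w i x} \ Z) ≠ ⊤ :=
    ((measure_mono fun x hx => hx.1.1).trans_lt (isCompact_closedBall (0 : E) R).measure_lt_top).ne
  calc N i {x | x ∈ closedBall (0 : E) R ∧ s ≤ -w i x}
      ≤ N i ({x | x ∈ closedBall (0 : E) R ∧ s ≤ -w i x} \ Z) + N i Z :=
        (measure_mono (by rw [sdiff_union_self]; exact subset_union_left)).trans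
          (measure_union_le _ _)
    _ ≤ ENNReal.ofReal (Cd * (2 * γ / (a₀ * s)) + γ) + ENNReal.ofReal γ := by
        refine add_le_add ?_ i8
        rw [← ENNReal.ofReal_toReal k7]
        exact ENNReal.ofReal_le_ofReal (k1.trans (by linarith))
    _ ≤ ENNReal.ofReal δ := by
        rw [← ENNReal.ofReal_add (by positivity) hγ.le]
        exact ENNReal.ofReal_le_ofReal k6

/-- **Strong convergence** from the existence of lowest sheets. -/
theorem Bds.strong (h : Bds U m N T H w C) (hm : 0 < m) {Cd : ℝ} (hCd : 0 < Cd)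
    (hl : ∀ R γ : ℝ, 0 < γ → ∃ ζ a ψ Z R' Q δ, Low U m N T w Cd R γ ζ a ψ Z R' Q δ)
    {χ : E → ℝ} (hχ : Continuous χ) (hχc : HasCompactSupport χ) :
    Tendsto (fun i => ∫ x, χ x * w i x ^ 2 ∂(N i)) U (𝓝 0) := by
  have hprop : ProperSpace E := FiniteDimensional.proper_real E
  obtain ⟨R, hR⟩ := hχc.isCompact.isBounded.subset_closedBall (0 : E)
  obtain ⟨B, hB⟩ := hχ.bounded_above_of_compact_support hχc
  have hB0 : 0 ≤ B := (norm_nonneg _).trans (hB 0)
  rw [Metric.tendsto_nhds]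
  intro ε hε
  obtain ⟨ε₁, h1, -, h2⟩ := exists_mul_le hB0 (half_pos hε)
  filter_upwards [h.strong_of_meas hm (h.both (h.neg_meas hCd hl)) R h1, h.sl, h.cd]
    with i i1 i2 i3
  have := i2.mc.fin
  have hK : IsCompact (closedBall (0 : E) R) := isCompact_closedBall _ _
  rw [dist_zero_right]
  calc ‖∫ x, χ x * w i x ^ 2 ∂(N i)‖ ≤ ∫ x in closedBall (0 : E) R, B * w i x ^ 2 ∂(N i) := by
        rw [← integral_indicator hK.measurableSet]
        refine norm_integral_le_of_norm_le ?_ (Eventually.of_forall fun y => ?_)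
        · exact (integrable_indicator_iff hK.measurableSet).2
            ((continuous_const.mul (i3.continuous.pow 2)).continuousOn.integrableOn_compact hK)
        · by_cases hy : y ∈ closedBall (0 : E) R
          · rw [indicator_of_mem hy, norm_mul, Real.norm_of_nonneg (sq_nonneg _)]
            exact mul_le_mul_of_nonneg_right (hB y) (sq_nonneg _)
          · rw [indicator_of_notMem hy, image_eq_zero_of_notMem_tsupport fun h => hy (hR h)]
            simp
    _ = B * ∫ x in closedBall (0 : E) R, w i x ^ 2 ∂(N i) := integral_const_mul _ _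
    _ ≤ B * ε₁ := by gcongr
    _ < ε := by linarith

end Vale.Agent.P218N.B
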