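import Vale.Agent.P218N.B.OutZeta
import Vale.Agent.P218N.B.OutFV
import Vale.Agent.P218N.B.OutStrong
import Vale.Agent.P218N.B.Band
import Vale.Agent.P218N.B.CovLoc

/-! Strong compactness of the normalised heights for embedded surfaces with several sheets. -/

open MeasureTheory Set Filter Topology Metric
open scoped ENNReal NNReal RealInnerProductSpace ContDiff

namespace Vale.Agent.P218N.B

open Vale.Agent.P214 (proj)
open Vale.Agent.P218 Vale.Agent.P218.H313 Vale.Agent.P218N.H Vale.Agent.P218N.G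

set_option linter.unusedSectionVars false
set_option linter.unusedVariables false

/-- the data of the blow-up -/
structure Dat {ι : Type} (U : Ultrafilter ι) (M : ι → Set E3) (Wi gi : ι → E3 → ℝ) (W : E3 → ℝ)
    (e : ι → ℝ) (Λ c K b C₀ : ℝ) : Prop where
  pos : 0 < Λ
  K1 : 1 ≤ K
  C0 : 0 < C₀
  good : ∀ᶠ i in (U : Filter ι), B.Good Λ (M i) ∧ EB b (M i)
  sl : ∀ᶠ i in (U : Filter ι), GSlice 2 (mu (M i)) (tanP (M i)) (Hv (M i))
  tube : Tube0 W c K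
  tubeF : ∀ᶠ i in (U : Filter ι), TubeF (Wi i) (fun _ => 0) (gi i) c K
  c2 : C2Lim (U : Filter ι) Wi W
  epos : ∀ᶠ i in (U : Filter ι), 0 < e i
  elim : Tendsto e U (𝓝 0)
  bd : ∀ᶠ i in (U : Filter ι), ∫ x, rho x ∂(mu (M i)) ≤ C₀ ∧ DD (mu (M i)) (Wi i) 0 ≤ e i ^ 2 ∧
    TG (mu (M i)) (tanP (M i)) (Wi i) 0 ≤ C₀ * e i ^ 2
  dlim : Tendsto (fun i => dis (mu (M i)) (tanP (M i)) (Hv (M i)) / e i ^ 2) U (𝓝 0)
  glim : Tendsto (fun i => (∫ x, gi i x * rho x ∂(mu (M i))) / e i) U (𝓝 0)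

lemma aux_fv {K e lam C₀ X D T G β Ψ m d β₀ γ : ℝ} (he : 0 < e) (hl : 0 < lam) (hK : 0 ≤ K)
    (hX : X ≤ K * D + (K + (e / lam)⁻¹) * T + G + K * β + e / lam * Ψ + lam * e * m
      + (lam * e)⁻¹ * K ^ 2 * d) (h1 : D ≤ e ^ 2) (h2 : T ≤ C₀ * e ^ 2) (h3 : β ≤ β₀ * e ^ 4)
    (h4 : Ψ ≤ lam * (γ / 4)) (h5 : m ≤ C₀) (h6 : lam * (2 * C₀) ≤ γ / 4)
    (h7 : K * e + K * C₀ * e + G / e + K * β₀ * e ^ 3 + K ^ 2 / lam * (d / e ^ 2) ≤ γ / 2) :
    -γ ≤ -(e⁻¹ * X) := by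
  rw [neg_le_neg_iff, inv_mul_le_iff₀ he]
  have a1 := mul_le_mul_of_nonneg_left h1 hK
  have a2 := mul_le_mul_of_nonneg_left h2 (by positivity : 0 ≤ K + (e / lam)⁻¹)
  have a3 := mul_le_mul_of_nonneg_left h3 hK
  have a4 := mul_le_mul_of_nonneg_left h4 (by positivity : 0 ≤ e / lam)
  have a5 := mul_le_mul_of_nonneg_left h5 (by positivity : 0 ≤ lam * e)
  have a6 := mul_le_mul_of_nonneg_left h6 he.le
  have a7 := mul_le_mul_of_nonneg_left h7 he.le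
  have e1 : (K + (e / lam)⁻¹) * (C₀ * e ^ 2) = K * C₀ * e ^ 2 + lam * e * C₀ := by field_simp
  have e2 : e / lam * (lam * (γ / 4)) = e * (γ / 4) := by field_simp
  have e3 : e * (K * e + K * C₀ * e + G / e + K * β₀ * e ^ 3 + K ^ 2 / lam * (d / e ^ 2))
      = K * e ^ 2 + K * C₀ * e ^ 2 + G + K * (β₀ * e ^ 4) + (lam * e)⁻¹ * K ^ 2 * d := by
    field_simp
  rw [e1] at a2
  rw [e2] at a4
  rw [e3] at a7
  linarith

/-- the fixed cut-off function -/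
lemma exists_out_cutoff {Λ C₀ γ R : ℝ} (hΛ : 0 < Λ) (hC : 0 < C₀) (hγ : 0 < γ) :
    ∃ R' : ℝ, ∀ (P : Finset E3) (τ : ℝ), 0 < τ → ∃ (ψ : E3 → ℝ) (t : ℝ), 0 < t ∧
      ContDiff ℝ 1 ψ ∧ HasCompactSupport ψ ∧ (∀ x, 0 ≤ ψ x) ∧ (∀ x, ψ x ≤ 1) ∧
      (∀ x ∈ tsupport ψ, ‖x‖ ≤ R' ∧ ∀ p ∈ P, t ≤ dist x p) ∧
      (∀ x, ‖x‖ ≤ R → (∀ p ∈ P, τ ≤ dist x p) → ψ x = 1) ∧
      ∀ M : Set E3, B.Good Λ M → Integrable rho (mu M) → ∫ x, rho x ∂(mu M) ≤ C₀ →
        ∫ x, ‖grad ψ x‖ ^ 2 * rho x ∂(mu M) ≤ γ := by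
  obtain ⟨C, hC0, hcut⟩ := exists_grad_cut (E := E3)
  obtain ⟨n, hn1, hn2⟩ : ∃ n : ℕ, R ≤ (n : ℝ) + 1 ∧ 2 * (C / ((n : ℝ) + 1)) ^ 2 * C₀ ≤ γ / 2 := by
    have h1 : Tendsto (fun n : ℕ => 2 * (C / ((n : ℝ) + 1)) ^ 2 * C₀) atTop
        (𝓝 (2 * 0 ^ 2 * C₀)) :=
      ((((tendsto_natCast_atTop_atTop.atTop_add tendsto_const_nhds).const_div_atTop C).pow
        2).const_mul 2).mul_const C₀
    have h2 := h1.eventually (gt_mem_nhds (by simpa using hγ : 2 * 0 ^ 2 * C₀ < γ / 2))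
    obtain ⟨n, h3, h4⟩ := (h2.and ((tendsto_natCast_atTop_atTop (R := ℝ)).eventually_ge_atTop
      R)).exists
    exact ⟨n, by linarith, h3.le⟩
  obtain ⟨R', hR'⟩ := (cut_compact (E := E3) n).isCompact.isBounded.subset_closedBall (0 : E3)
  refine ⟨R', fun P τ hτ => ?_⟩
  obtain ⟨φ, t, ht, f1, f2, f3, f4, f5, f6⟩ := exists_psi P hΛ hτ (by positivity : 0 < γ / 4)
  have hψ : ContDiff ℝ 1 fun x => cut n x * φ x := (contDiff_cut n).mul f1
  have hψc : HasCompactSupport fun x => cut n x * φ x := (cut_compact n).mul_right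
  refine ⟨fun x => cut n x * φ x, t, ht, hψ, hψc, fun x => mul_nonneg (cut_nonneg n x) (f2 x),
    fun x => mul_le_one₀ (cut_le_one n x) (f2 x) (f3 x), fun x hx => ⟨?_, fun p hp => ?_⟩,
    fun x hx hx' => ?_, fun M hM hi hm => ?_⟩
  · exact mem_closedBall_zero_iff.1 (hR' (tsupport_mul_subset_left hx))
  · by_contra hcon
    refine (notMem_tsupport_iff_eventuallyEq.2 ?_) (tsupport_mul_subset_right hx)
    filter_upwards [isOpen_ball.mem_nhds (mem_ball.2 (not_le.1 hcon))] with y hy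
    exact f4 p hp y (ball_subset_closedBall hy)
  · simp only
    rw [f5 x hx', mul_one]
    exact H552.chi_eq_one (cut_pos_arg n) (hx.trans hn1)
  · have h1 := f6 (mu M) hM.ratio
    have hφ : Integrable (fun x => ‖grad φ x‖ ^ 2) (mu M) :=
      ⟨((continuous_grad f1).norm.pow 2).aestronglyMeasurable,
        (hasFiniteIntegral_iff_ofReal (Eventually.of_forall fun x => sq_nonneg _)).2
          (h1.trans_lt ENNReal.ofReal_lt_top)⟩
    rw [← ofReal_integral_eq_lintegral_ofReal hφ (Eventually.of_forall fun x => sq_nonneg _),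
      ENNReal.ofReal_le_ofReal_iff (by positivity)] at h1
    have h2 : ∫ x, ‖grad (fun x => cut n x * φ x) x‖ ^ 2 * rho x ∂(mu M)
        ≤ ∫ x, (2 * (C / ((n : ℝ) + 1)) ^ 2 * rho x + 2 * ‖grad φ x‖ ^ 2) ∂(mu M) := by
      refine integral_mono_of_nonneg (Eventually.of_forall fun x => ?_)
        ((hi.const_mul _).add (hφ.const_mul _)) (Eventually.of_forall fun x => ?_)
      · exact mul_nonneg (sq_nonneg _) (rho_pos x).le
      · have g1 := (OutCut.grad_mul_le (contDiff_cut n) f1 (cut_nonneg n) (cut_le_one n) f2 f3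
          x).trans (add_le_add (hcut n x) le_rfl)
        have g2 : ‖grad (fun x => cut n x * φ x) x‖ ^ 2
            ≤ 2 * (C / ((n : ℝ) + 1)) ^ 2 + 2 * ‖grad φ x‖ ^ 2 :=
          (pow_le_pow_left₀ (norm_nonneg _) g1 2).trans
            (by nlinarith [sq_nonneg (C / ((n : ℝ) + 1) - ‖grad φ x‖)])
        have g3 := mul_le_mul_of_nonneg_right g2 (rho_pos x).le
        have g4 : 2 * ‖grad φ x‖ ^ 2 * rho x ≤ 2 * ‖grad φ x‖ ^ 2 :=
          mul_le_of_le_one_right (by positivity) (rho_le_one x)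
        simp only
        linarith
    rw [integral_add (hi.const_mul _) (hφ.const_mul _), integral_const_mul, integral_const_mul]
      at h2
    have h3 := mul_le_mul_of_nonneg_left hm (by positivity : 0 ≤ 2 * (C / ((n : ℝ) + 1)) ^ 2)
    linarith

variable {ι : Type} {U : Ultrafilter ι} {M : ι → Set E3} {Wi gi : ι → E3 → ℝ} {W : E3 → ℝ}
  {e : ι → ℝ} {Λ c K b C₀ : ℝ}

lemma Dat.ex_bd (D : Dat U M Wi gi W e Λ c K b C₀) (R : ℝ) : ∃ C : ℝ, ∀ᶠ i in (U : Filter ι),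
    ∫ y in closedBall 0 R, ex (tanP (M i)) (Hv (M i)) (Wi i) y ∂(mu (M i)) ≤ C * e i ^ 2 := by
  refine ⟨Real.exp (R ^ 2 / 4) * (1 + (1 + R ^ 2) * C₀ + 1), ?_⟩
  filter_upwards [D.sl, D.tubeF, D.bd, D.epos, D.dlim.eventually_le_const one_pos]
    with i h1 h2 h3 h4 h5
  rw [div_le_one (by positivity)] at h5
  refine (ex_le h1 h2.toTube0 R).trans ?_
  rw [mul_assoc]
  refine mul_le_mul_of_nonneg_left ?_ (Real.exp_pos _).le
  have := mul_le_mul_of_nonneg_left h3.2.2 (by positivity : 0 ≤ 1 + R ^ 2)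
  linarith [h3.2.1]

lemma Dat.sq_small (D : Dat U M Wi gi W e Λ c K b C₀) (C : ℝ) {ε : ℝ} (hε : 0 < ε) :
    ∀ᶠ i in (U : Filter ι), C * e i ^ 2 ≤ ε := by
  have := (D.elim.pow 2).const_mul C
  exact this.eventually_le_const (by simpa using hε)

lemma Dat.sharp (D : Dat U M Wi gi W e Λ c K b C₀) {h : ℝ} (hh : h * (1 + 2 * K) < c)
    {ζ : ι → E3 → ℝ} (hζ : ∀ᶠ i in (U : Filter ι), Continuous (ζ i) ∧
      ∀ x ∈ M i, ζ i x ≠ 0 → x ∈ top (M i) (Wi i) h) (x : E3) {ε : ℝ} (hε : 0 < ε) :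
    ∀ᶠ r in 𝓝[>] (0 : ℝ), ∀ᶠ i in (U : Filter ι),
      ∫ y in {y | ζ i y ≠ 0}, H313.ker (r⁻¹ • (y - x)) ∂(mu (M i)) ≤ (om 2 + ε) * r ^ 2 := by
  obtain ⟨r₀, hr₀, H⟩ := exists_sharp D.pos D.tube.cpos D.K1 (half_pos hε)
  filter_upwards [Ioc_mem_nhdsGT hr₀] with r hr
  have hr0 := hr.1
  obtain ⟨C, hC, H'⟩ := H r hr.1 hr.2
  obtain ⟨C', hC'⟩ := D.ex_bd (‖x‖ + 1)
  filter_upwards [D.good, D.tubeF, hζ, hC',
    D.sq_small (C * C') (by positivity : 0 < ε / 2 * r ^ 2)] with i ⟨h1, _⟩ h2 ⟨h3, h4⟩ h5 h6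
  have hm := h1.surf.measurableSet
  have k1 := H' (M i) (Wi i) ({y | ζ i y ≠ 0} ∩ M i) x h1 h2.toTube0
    ((isOpen_ne_fun h3 continuous_const).measurableSet.inter hm) inter_subset_right
    ((top_injOn h2.toTube0 hh).mono fun y hy => h4 y hy.2 hy.1)
  have k2 : ∫ y in {y | ζ i y ≠ 0}, H313.ker (r⁻¹ • (y - x)) ∂(mu (M i))
      = ∫ y in {y | ζ i y ≠ 0} ∩ M i, H313.ker (r⁻¹ • (y - x)) ∂(mu (M i)) := by
    refine setIntegral_congr_set ?_
    filter_upwards [ae_restrict_mem hm] with y hy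
    exact propext ⟨fun h => ⟨h, hy⟩, fun h => h.1⟩
  have k3 : ∫ y in closedBall x 1, ex (tanP (M i)) (Hv (M i)) (Wi i) y ∂(mu (M i))
      ≤ C' * e i ^ 2 := le_trans (setIntegral_mono_set (ex_integrableOn h1.slice h2.toTube0.pg.cd
        (isCompact_closedBall _ _)) (Eventually.of_forall fun y => ex_nonneg y)
        (closedBall_subset_closedBall' (by rw [dist_zero_right]; linarith)).eventuallyLE) h5
  have k4 := mul_le_mul_of_nonneg_left k3 hC.le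
  rw [k2]
  linarith

lemma Dat.grad_bd (D : Dat U M Wi gi W e Λ c K b C₀) {ψ : E3 → ℝ} (hψ : ContDiff ℝ 1 ψ)
    (hψc : HasCompactSupport ψ) {ζ β : ι → E3 → ℝ}
    (hζ : ∀ᶠ i in (U : Filter ι), Integrable (β i) (mu (M i)) ∧ ∫ x, β i x ∂(mu (M i)) ≤ 1 ∧
      ∀ x ∈ M i, 0 ≤ β i x ∧ ‖PT (M i) x (grad (ζ i) x)‖ ≤ ‖grad ψ x‖ + β i x) (R : ℝ) :
    ∃ C : ℝ, ∀ᶠ i in (U : Filter ι),
      ∫ x in closedBall (0 : E3) R, ‖proj (tanP (M i) x) (grad (ζ i) x)‖ ∂(mu (M i)) ≤ C := by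
  obtain ⟨Y, hY, hmass⟩ := OutH.mass_bd Λ R
  obtain ⟨G, hG⟩ := (isCompact_closedBall (0 : E3) R).exists_bound_of_continuousOn
    (continuous_grad hψ).continuousOn
  refine ⟨Y.toReal * |G| + 1, ?_⟩
  filter_upwards [D.good, hζ] with i ⟨h1, _⟩ ⟨h2, h3, h4⟩
  have := h1.finite
  have hm := h1.surf.measurableSet
  have i1 : IntegrableOn (fun _ : E3 => |G|) (closedBall (0 : E3) R) (mu (M i)) :=
    (locallyIntegrable_const _).integrableOn_isCompact (isCompact_closedBall _ _)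
  have k1 : ∫ x in closedBall (0 : E3) R, ‖proj (tanP (M i) x) (grad (ζ i) x)‖ ∂(mu (M i))
      ≤ ∫ x in closedBall (0 : E3) R, (|G| + β i x) ∂(mu (M i)) := by
    refine integral_mono_of_nonneg (Eventually.of_forall fun x => norm_nonneg _)
      (i1.add h2.integrableOn) ?_
    filter_upwards [ae_restrict_mem measurableSet_closedBall,
      ae_restrict_of_ae (ae_restrict_mem hm)] with x hx hx'
    rw [h1.surf.proj_tanP hx']
    linarith [(h4 x hx').2, hG x hx, le_abs_self G]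
  rw [integral_add i1 h2.integrableOn, setIntegral_const, smul_eq_mul] at k1
  have k2 : ∫ x in closedBall (0 : E3) R, β i x ∂(mu (M i)) ≤ ∫ x, β i x ∂(mu (M i)) :=
    setIntegral_le_integral h2 ((ae_restrict_mem hm).mono fun x hx => (h4 x hx).1)
  have k3 : (mu (M i)).real (closedBall (0 : E3) R) * |G| ≤ Y.toReal * |G| :=
    mul_le_mul_of_nonneg_right (ENNReal.toReal_mono hY (hmass _ h1)) (abs_nonneg G)
  linarith

/-- **the top sheets** -/
theorem Dat.low (h1 : CovLocStmt) (h2 : CovLidStmt) (D : Dat U M Wi gi W e Λ c K b C₀) :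
    ∃ Cd : ℝ, 0 < Cd ∧ ∀ R γ : ℝ, 0 < γ → ∃ ζ a ψ Z R' Q δ,
      Low U 2 (fun i => mu (M i)) (fun i => tanP (M i)) (fun i x => -sh (e i) (Wi i) x) Cd R γ
        ζ a ψ Z R' Q δ := by
  have hc := D.tube.cpos
  have hK := D.K1
  have hK0 : 0 < K := by linarith
  have hΛ := D.pos
  have hC₀ := D.C0
  obtain ⟨h, h0, -, hh0⟩ := exists_mul_le (by positivity : 0 ≤ 1 + 2 * K)
    (by positivity : 0 < min (c / 2) (1 / 8))
  have hh : h * (1 + 2 * K) < c := (hh0.trans (min_le_left _ _)).trans_lt (by linarith)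
  have hh' := hh0.trans (min_le_right _ _)
  have hhK : 0 ≤ h * K := by positivity
  obtain ⟨Cd, hCd, hdom⟩ := exists_dom hΛ hc hK h0 hh (by linarith)
  obtain ⟨C₂, a₀, hC₂, ha₀, hzeta⟩ := exists_zeta hc hK hh (by linarith)
  refine ⟨Cd, hCd, fun R γ hγ => ?_⟩
  obtain ⟨lam, hlam, -, hlam1⟩ := exists_mul_le (by positivity : 0 ≤ 2 * C₀)
    (by positivity : 0 < γ / 4)
  obtain ⟨R', hcut⟩ := exists_out_cutoff (R := R + 1) hΛ hC₀ (by positivity : 0 < lam * (γ / 4))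
  obtain ⟨P, hP⟩ := exists_holes h1 h2 U M Wi W e hΛ D.good D.tube
    (D.tubeF.mono fun i hi => hi.toTube0) D.c2 D.elim D.ex_bd (R' + 1)
  obtain ⟨τ, hτ, hτ1, hτ2⟩ := exists_mul_le (by positivity : 0 ≤ 4 * (P.card * Λ) + 2)
    (lt_min hγ one_pos)
  have hPΛ : 0 ≤ τ * (P.card * Λ) := by positivity
  have hτ3 : 2 * τ ≤ 1 := by linarith [hτ2.trans (min_le_right _ _)]
  obtain ⟨ψ, t, ht, p1, p2, p3, p4, p5, p6, p7⟩ := hcut P τ hτ
  obtain ⟨C₁, hC₁⟩ := hP (min (t / 3) h) (by positivity)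
  have hev : ∀ᶠ i in (U : Filter ι), ∃ q : (E3 → ℝ) × (E3 → ℝ) × Set E3,
      ContDiff ℝ 1 q.1 ∧ HasCompactSupport q.1 ∧ (∀ x, 0 ≤ q.1 x) ∧
        (∀ x ∈ M i, q.1 x ≤ ψ x ∧ (q.1 x ≠ 0 → x ∈ top (M i) (Wi i) h) ∧ 0 ≤ q.2.1 x ∧
          ‖PT (M i) x (grad q.1 x)‖ ≤ ‖grad ψ x‖ + q.2.1 x) ∧ Integrable q.2.1 (mu (M i)) ∧
        ∫ x, q.2.1 x ∂(mu (M i)) ≤ C₂ * (C₁ * e i ^ 2) ^ 2 ∧ MeasurableSet q.2.2 ∧
        sig 2 (Wi i) q.2.2 ≤ ENNReal.ofReal (C₂ * (C₁ * e i ^ 2) ^ 2) ∧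
        ∀ x ∈ top (M i) (Wi i) h, foot (Wi i) x ∉ q.2.2 → q.1 x = ψ x := by
    filter_upwards [D.good, D.tubeF, hC₁, D.sq_small C₁ ha₀] with i ⟨g1, _⟩ g2 g3 g4
    obtain ⟨ζ, β, S, H⟩ := hzeta (M i) (Wi i) ψ P (R' + 1) (min (t / 3) h) _ g1.surf g1.closed
      g2.toTube0 p1 p2 p3 p4 (by positivity) (min_le_right _ _) (fun x hx =>
        ⟨by linarith [(p5 x hx).1], fun p hp => by
          linarith [(p5 x hx).2 p hp, min_le_left (t / 3) h]⟩) g3 g4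
    exact ⟨(ζ, β, S), H⟩
  obtain ⟨q, hq⟩ := hev.choice
  have hβ : Tendsto (fun i => C₂ * (C₁ * e i ^ 2) ^ 2) U (𝓝 0) := by
    simpa using (((D.elim.pow 2).const_mul C₁).pow 2).const_mul C₂
  refine ⟨fun i => (q i).1, fun i => qw (Wi i), ψ, ⋃ p ∈ P, closedBall p (2 * τ), R',
    Module.finrank ℝ E3 * K ^ 2 + 1 / 2, τ, ?_, p1.continuous, p4, fun x hx => ?_, ?_, ?_, ?_,
    hτ, hτ1, fun y hy hy' y' hd => ?_, ?_, ?_, ?_⟩
  · filter_upwards [hq, D.good] with i hi ⟨g1, _⟩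
    exact ⟨hi.1, hi.2.1, hi.2.2.1,
      (ae_restrict_mem g1.surf.measurableSet).mono fun x hx => (hi.2.2.2.1 x hx).1⟩
  · exact image_eq_zero_of_notMem_tsupport fun h => hx (mem_closedBall_zero_iff.2 (p5 x h).1)
  · refine D.grad_bd p1 p2 (β := fun i => (q i).2.1) ?_
    filter_upwards [hq, hβ.eventually_le_const one_pos] with i hi g1
    exact ⟨hi.2.2.2.2.1, hi.2.2.2.2.2.1.trans g1, fun x hx => (hi.2.2.2.1 x hx).2.2⟩
  · exact fun x ε hε => D.sharp hh (hq.mono fun i hi =>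
      ⟨hi.1.continuous, fun x hx => (hi.2.2.2.1 x hx).2.1⟩) x hε
  · intro R₁ δ ε hδ hε
    obtain ⟨C', hC', H⟩ := hdom R₁ δ hδ
    obtain ⟨C₃, hC₃⟩ := D.ex_bd (R₁ + 1)
    have f1 : Tendsto (fun i => C' * (C₂ * (C₁ * e i ^ 2) ^ 2 + C₃ * e i ^ 2)) U (𝓝 0) := by
      simpa using (hβ.add ((D.elim.pow 2).const_mul C₃)).const_mul C'
    filter_upwards [hq, D.good, D.tubeF, D.epos, hC₃, f1.eventually_le_const hε]
      with i hi ⟨g1, _⟩ g2 g3 g4 g5 D' B' k1 k2 k3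
    refine (H (M i) (Wi i) (q i).1 ψ (q i).2.2 D' B' _ _ g1 g2.toTube0 hi.2.2.2.2.2.2.1
      (by positivity) hi.2.2.2.2.2.2.2.1 hi.2.2.2.2.2.2.2.2 g4 k1 k2
      fun y hy y' f2 f3 f4 => k3 y hy y' f2 ?_ f4).trans (by linarith)
    exact neg_le_neg (mul_le_mul_of_nonneg_left f3 (inv_pos.2 g3).le)
  · refine p6 y' ?_ fun p hp => ?_
    · have := dist_triangle y' y 0
      rw [dist_zero_right y'] at this
      linarith [mem_closedBall.1 hy]
    · have f1 : ¬ dist y p ≤ 2 * τ := fun h => hy' (mem_biUnion hp h)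
      have := dist_triangle y y' p
      rw [dist_comm y y'] at this
      linarith
  · filter_upwards [D.good] with i ⟨g1, _⟩
    refine (measure_biUnion_finset_le _ _).trans ((Finset.sum_le_card_nsmul _ _ _ fun p _ =>
      g1.ratio p _ (by positivity) hτ3).trans ?_)
    rw [nsmul_eq_mul, ← ENNReal.ofReal_natCast, ← ENNReal.ofReal_mul (by positivity)]
    refine ENNReal.ofReal_le_ofReal ?_
    have f1 := mul_le_of_le_one_left hPΛ hτ1
    linarith [hτ2.trans (min_le_left _ _)]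
  · exact D.tubeF.mono fun i hi => ⟨continuous_qw hi.toTube0, qw_bounds hi.toTube0⟩
  · have f1 : Tendsto (fun i => K * e i + K * C₀ * e i + (∫ x, gi i x * rho x ∂(mu (M i))) / e i
        + K * (C₂ * C₁ ^ 2) * e i ^ 3
        + K ^ 2 / lam * (dis (mu (M i)) (tanP (M i)) (Hv (M i)) / e i ^ 2)) U (𝓝 0) := by
      simpa using ((((D.elim.const_mul K).add (D.elim.const_mul (K * C₀))).add D.glim).add
        ((D.elim.pow 3).const_mul (K * (C₂ * C₁ ^ 2)))).add (D.dlim.const_mul (K ^ 2 / lam))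
    filter_upwards [hq, D.good, D.sl, D.tubeF, D.epos, D.bd, f1.eventually_le_const (half_pos hγ)]
      with i hi ⟨g1, _⟩ g2 g3 g4 g5 g6
    have k1 := fv_le finrank_E3 g2 g3 hi.1 hi.2.1 p1 p2 hi.2.2.2.2.1
      ((ae_restrict_mem g1.surf.measurableSet).mono fun x hx => by
        obtain ⟨f2, f3, f4, f5⟩ := hi.2.2.2.1 x hx
        rw [g1.surf.proj_tanP hx]
        exact ⟨hi.2.2.1 x, f2.trans (p4 x), fun hz => lt_c g3.toTube0 hh (f3 hz).2.1, f4, f5⟩)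
      (l := e i / lam) (l' := lam * e i) (by positivity) (by positivity)
    have k2 := aux_fv g4 hlam hK0.le k1 g5.2.1 g5.2.2 (β₀ := C₂ * C₁ ^ 2)
      (hi.2.2.2.2.2.1.trans (le_of_eq (by ring)))
      (p7 (M i) g1 (by simpa using g2.mom 0) g5.1) g5.1 hlam1 g6
    refine k2.trans (le_of_eq ?_)
    rw [← integral_const_mul, ← integral_neg]
    congr 1; ext x
    simp only [sh]
    ring

lemma tube0_mono {W : E3 → ℝ} {c K K' : ℝ} (hW : Tube0 W c K) (h : K ≤ K') : Tube0 W c K' :=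
  ⟨hW.cpos, hW.smooth, fun x => (hW.b0 x).trans h, fun x => (hW.b1 x).trans h,
    fun x => (hW.b2 x).trans h, fun x => (hW.bx x).trans h, hW.eik⟩

lemma gslice_of {M : Set E3} (hM : Surf M) (hc : IsClosed M) {T : E3 → Submodule ℝ E3}
    {H : E3 → E3} (h : GSlice 2 (mu M) T H) : GSlice 2 (mu M) (tanP M) (Hv M) where
  toSlice := hM.slice finrank_E3 hc
  mom := h.mom
  vsq p := (h.vsq p).congr ((hM.vel_unique finrank_E3 h.mc).mono fun x hx => by simp only [hx])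

/-- **B-out** -/
theorem outStmt_of (h1 : CovLocStmt) (h2 : CovLidStmt) : OutStmt := by
  intro b k W c K₀ q hW _ U N T H Wi L e h hM hWi hc2 hric hpos he hL hD hdis hw χ hχ hχc
  obtain ⟨M, hM⟩ := hM.choice
  have hW0 := Tube0.of_tubeD hW
  obtain ⟨K, hK1, hK⟩ : ∃ K : ℝ, 1 ≤ K ∧ K₀ ≤ K := ⟨max 1 K₀, le_max_left _ _, le_max_right _ _⟩
  have hsl : ∀ᶠ i in (U : Filter ℝ), GSlice 2 (mu (M i)) (tanP (M i)) (Hv (M i)) := by
    filter_upwards [hM, h.sl] with i ⟨g1, g2, _, g4⟩ g5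
    exact gslice_of g1 g2 (g4 ▸ g5)
  obtain ⟨C', hC'⟩ := h.ratio
  have hratio : ∀ᶠ i in (U : Filter ℝ), ∀ (x : E3) (r : ℝ), 0 < r → r ≤ 1 →
      (mu (M i)).real (closedBall x r) ≤ max C' 1 * r ^ 2 := by
    filter_upwards [hM, hC'] with i g1 g2 x r hr hr1
    rw [← g1.2.2.2]
    exact (g2 x r hr hr1).trans (mul_le_mul_of_nonneg_right (le_max_left _ _) (by positivity))
  have hΛ : 0 < max C' 1 := lt_max_of_lt_right one_pos
  have hF : ∀ᶠ i in (U : Filter ℝ),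
      TubeF (Wi i) (fun _ => 0) (fun x => |L i| * (1 + ‖x‖) ^ q) c K := by
    filter_upwards [hWi, hric] with i g1 g2
    refine (tube0_mono g1 hK).tubeF continuous_const (PB.const 0) fun x hx => ?_
    have := mul_le_mul_of_nonneg_right hK (sq_nonneg (Wi i x))
    rw [sub_zero]
    linarith [g2 x hx]
  have hD' : ∀ᶠ i in (U : Filter ℝ), DD (mu (M i)) (Wi i) 0 ≤ e i ^ 2 := by
    filter_upwards [hM, hD] with i g1 g2
    rwa [← g1.2.2.2]
  have hdis' : Tendsto (fun i => dis (mu (M i)) (tanP (M i)) (Hv (M i)) / e i ^ 2) U (𝓝 0) := by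
    refine hdis.congr' ?_
    filter_upwards [hM, h.sl] with i ⟨g1, g2, _, g4⟩ g5
    rw [g4] at g5 ⊢
    rw [g1.dis_unique finrank_E3 g5.mc]
  have hmom : ∀ p : ℕ, ∃ C : ℝ, 0 < C ∧ ∀ᶠ i in (U : Filter ℝ),
      ∫ x, (1 + ‖x‖) ^ p * rho x ∂(mu (M i)) ≤ C := fun p => by
    obtain ⟨C, hC⟩ := h.mom p
    refine ⟨max C 1, lt_max_of_lt_right one_pos, ?_⟩
    filter_upwards [hM, hC] with i g1 g2
    rw [← g1.2.2.2]
    exact g2.trans (le_max_left _ _)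
  have hL0 : Tendsto (fun i => |L i / e i|) U (𝓝 0) := by simpa using hL.abs
  have hdis1 : ∀ᶠ i in (U : Filter ℝ), dis (mu (M i)) (tanP (M i)) (Hv (M i)) ≤ e i ^ 2 := by
    filter_upwards [hdis'.eventually_le_const one_pos, hpos] with i g1 g2
    rwa [div_le_one (by positivity)] at g1
  obtain ⟨M₀, hM₀0, hM₀⟩ := hmom (2 * q)
  obtain ⟨C, hC⟩ := norm_bounds finrank_E3 hsl hW.cpos (by linarith) hF hpos hD' hdis1 ⟨M₀, by
    filter_upwards [hsl, hM₀, hL0.eventually_le_const one_pos, hpos] with i hs g1 g2 g3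
    have e1 : DD (mu (M i)) (fun _ => (0 : ℝ)) 0 = 0 := by simp [DD]
    have e2 := DD_le_of_bound hs (g := fun x => |L i| * (1 + ‖x‖) ^ q) (L := |L i|) (q := q)
      (continuous_const.mul (cont_w q)) (fun x => by rw [abs_of_nonneg (by positivity)]) g1
    rw [abs_div, abs_of_pos g3, div_le_one g3] at g2
    have e3 : |L i| ^ 2 ≤ e i ^ 2 := by gcongr
    rw [e1, zero_add]
    refine e2.trans ?_
    rw [mul_comm]
    gcongr⟩
  obtain ⟨M₁, hM₁0, hM₁⟩ := hmom 0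
  obtain ⟨M₂, hM₂0, hM₂⟩ := hmom 2
  obtain ⟨M₃, hM₃0, hM₃⟩ := hmom q
  have hgood : ∀ᶠ i in (U : Filter ℝ), B.Good (max C' 1) (M i) ∧ EB b (M i) := by
    filter_upwards [hM, hratio, hsl] with i g1 g2 g3
    have := g3.mc.fin
    refine ⟨⟨g1.1, g1.2.1, fun x r hr hr1 => ?_⟩, g1.2.2.1⟩
    rw [← ENNReal.ofReal_toReal (isCompact_closedBall x r).measure_lt_top.ne]
    exact ENNReal.ofReal_le_ofReal (g2 x r hr hr1)
  have D : Dat U M Wi (fun i x => |L i| * (1 + ‖x‖) ^ q) W e (max C' 1) c K b (max C M₁) := by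
    refine ⟨hΛ, hK1, lt_max_of_lt_right hM₁0, hgood, hsl, tube0_mono hW0 hK, hF, hc2, hpos, he, ?_,
      hdis', ?_⟩
    · filter_upwards [hM₁, hD', hC, hpos] with i g1 g2 g3 g4
      refine ⟨le_trans (by simpa using g1) (le_max_right _ _), g2, ?_⟩
      rw [← div_le_iff₀ (by positivity)]
      exact g3.2.1.trans (le_max_left _ _)
    · refine squeeze_zero' ?_ ?_ (by simpa using hL0.mul_const M₃)
      · filter_upwards [hpos] with i g1
        exact div_nonneg (integral_nonneg fun x => mul_nonneg (by positivity) (rho_pos x).le) g1.le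
      · filter_upwards [hpos, hM₃] with i g1 g2
        simp only [mul_assoc]
        rw [integral_const_mul, abs_div, abs_of_pos g1, div_mul_eq_mul_div]
        gcongr
  have hB : Bds U 2 (fun i => mu (M i)) (fun i => tanP (M i)) (fun i => Hv (M i))
      (fun i => sh (e i) (Wi i)) (max C' 1) := by
    refine ⟨hΛ, hsl.mono fun i hi => hi.toSlice, hratio, fun R => ?_,
      hWi.mono fun i hi => contDiff_const.mul hi.pg.cd, fun R => ?_, fun φ hφ hφc => ?_⟩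
    · obtain ⟨Y, hY, hmass⟩ := OutH.mass_bd (max C' 1) R
      refine ⟨Y.toReal + 1, by positivity, hgood.mono fun i hi => ?_⟩
      exact (ENNReal.toReal_mono hY (hmass _ hi.1)).trans (by linarith)
    · refine ⟨Real.exp (R ^ 2 / 4) * (1 + C + 2 + M₂ + K ^ 2 + C), ?_⟩
      filter_upwards [hF, hsl, hpos, he.eventually_le_const one_pos, hD', hdis1, hC, hM₂]
        with i hi hs hp g1 hd hds c1 c4
      refine sh_local hs hi.toTube0 ?_ c1.1 c1.2.1 c1.2.2 c4 ?_ R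
      · rwa [div_le_one (by positivity)]
      · exact hds.trans (pow_le_one₀ hp.le g1)
    · have g1 := hw (fun x => φ x * (rho x)⁻¹)
        (hφ.mul (continuous_rho.inv₀ fun x => (rho_pos x).ne'))
        (PB.of_compact (hφ.mul (continuous_rho.inv₀ fun x => (rho_pos x).ne')) hφc.mul_right)
      refine g1.congr' (hM.mono fun i hi => ?_)
      simp only
      rw [hi.2.2.2]
      congr 1; ext x
      have := (rho_pos x).ne'
      simp only [sh]
      field_simp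
  obtain ⟨Cd, hCd, hl⟩ := D.low h1 h2
  refine (hB.neg.strong two_pos hCd hl hχ hχc).congr' (hM.mono fun i hi => ?_)
  simp only
  rw [hi.2.2.2]
  congr 1; ext x
  simp only [sh]
  rw [div_eq_inv_mul, neg_sq]

theorem outStmt : OutStmt := outStmt_of (covLocStmt bandStmt) covLidStmt

end Vale.Agent.P218N.B
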