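import Vale.Agent.P218.H313.C4

/-! The analytic part of the strong compactness for several sheets: the normalised height is not
negative on the top sheet; convergence in measure gives strong convergence. -/

open MeasureTheory Set Topology Metric
open Filter hiding ker
open scoped ENNReal NNReal RealInnerProductSpace

namespace Vale.Agent.P218N.B

open Vale.Agent.P214 (proj)
open Vale.Agent.P218.H313

set_option linter.unusedSectionVars false
set_option linter.unusedVariables false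

variable {E : Type*} [NormedAddCommGroup E] [InnerProductSpace ℝ E] [FiniteDimensional ℝ E]
  [MeasurableSpace E] [BorelSpace E]
variable {m : ℕ}

section single

variable {μ : Measure E} {T : E → Submodule ℝ E} {H : E → E}

/-- good points for a weight -/
lemma exists_good_wt (hS : Slice m μ T H) {h g : E → ℝ} (hh : ContDiff ℝ 1 h) (h0 : ∀ y, 0 ≤ h y)
    (g0 : ∀ y, 0 ≤ g y) (hg : ∀ K, IsCompact K → IntegrableOn g K μ)
    (hle : ∀ y, err T H h y ≤ g y) {C R G lam : ℝ} (hC : 0 < C) (hlam : 0 < lam)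
    (hratio : ∀ (x : E) (r : ℝ), 0 < r → r ≤ 1 → μ.real (closedBall x r) ≤ C * r ^ m)
    (hG : ∫ y in closedBall 0 (R + 1), g y ∂μ ≤ G) {A : Set E}
    (hA : ∀ x ∈ A, x ∈ closedBall (0 : E) R ∧ h x = 1) {P : E → Prop} (hP : ∀ᵐ x ∂μ, P x)
    (hbig : ENNReal.ofReal (Vale.Agent.P214.BES.nB E * C * (G / lam)) < μ A) :
    ∃ x ∈ A, P x ∧ (∀ t, 0 < t → t ≤ 1 → om m ≤ JJ m μ h x t + lam * t) ∧
      (∀ t, 0 < t → t ≤ 1 → ∫ y in closedBall x t, g y ∂μ ≤ lam * t ^ m) := by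
  have hfin := hS.mc.fin
  have hprop : ProperSpace E := FiniteDimensional.proper_real E
  set B : Set E := {x | x ∈ closedBall (0 : E) R ∧
      ∃ t, 0 < t ∧ t ≤ 1 ∧ lam * t ^ m < ∫ y in closedBall x t, g y ∂μ} with hB
  have hbad : μ B ≤ ENNReal.ofReal (Vale.Agent.P214.BES.nB E * C * (G / lam)) :=
    bad_set hC hlam le_rfl hratio g0 (hg _ (isCompact_closedBall _ _)) hG B (fun x hx => hx)
  have hex : ∃ x, x ∈ A ∧ x ∉ B ∧ P x ∧
      ∀ c < om m, ∀ᶠ r in 𝓝[>] (0 : ℝ), c ≤ (∫ y, ker (r⁻¹ • (y - x)) ∂μ) / r ^ m := by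
    by_contra hcon
    have : μ A ≤ μ B := by
      refine measure_mono_ae ?_
      filter_upwards [hS.dens, hP] with x hx hx' hxs
      by_contra hxA
      exact hcon ⟨x, hxs, hxA, hx', hx⟩
    exact absurd (lt_of_lt_of_le hbig (this.trans hbad)) (lt_irrefl _)
  obtain ⟨x, hx1, hxB, hxP, hxd⟩ := hex
  have hgood : ∀ t, 0 < t → t ≤ 1 → ∫ y in closedBall x t, g y ∂μ ≤ lam * t ^ m := by
    intro t ht ht1
    by_contra hcon
    exact hxB ⟨(hA x hx1).1, t, ht, ht1, not_le.1 hcon⟩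
  refine ⟨x, hx1, hxP, fun t ht ht1 => ?_, hgood⟩
  have h1 := om_mul_le hS hh h0 hxd (lam := lam) ht (fun τ hτ hτt => by
    refine le_trans ?_ (hgood τ hτ (hτt.trans ht1))
    exact integral_mono (hS.err_integrableOn hh (isCompact_closedBall _ _))
      (hg _ (isCompact_closedBall _ _)) fun y => hle y)
  rwa [(hA x hx1).2, mul_one] at h1

lemma proj_grad_integrableOn (hS : Slice m μ T H) {ζ : E → ℝ} (hζ : ContDiff ℝ 1 ζ) {K : Set E}
    (hK : IsCompact K) : IntegrableOn (fun y => ‖proj (T y) (grad ζ y)‖) K μ := by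
  have := hS.mc.fin
  refine Integrable.mono' ((continuous_grad hζ).norm.continuousOn.integrableOn_compact hK)
    (hS.proj_apply_meas (continuous_grad hζ).aestronglyMeasurable).norm.restrict
    (Eventually.of_forall fun y => ?_)
  rw [norm_norm]
  exact norm_proj_apply_le _ _

lemma err_gam_mul {v ζ : E → ℝ} (hv : ContDiff ℝ 1 v) (hζ : ContDiff ℝ 1 ζ) {s : ℝ} (hs : 0 < s)
    (y : E) : err T H (fun y => gam s (ζ y) * gam s (v y)) y
      ≤ dom T H v s y + 4 / s * ‖proj (T y) (grad ζ y)‖ := by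
  have h1 := err_gam_le (T := T) (H := H) hv hs y
  have d1 : DifferentiableAt ℝ (fun y => gam s (ζ y)) y :=
    ((contDiff_gam s).comp hζ).differentiable one_ne_zero y
  have d2 : DifferentiableAt ℝ (fun y => gam s (v y)) y :=
    ((contDiff_gam s).comp hv).differentiable one_ne_zero y
  unfold err at h1 ⊢
  rw [grad_mul d1 d2, map_add, map_smul, map_smul, grad_gam hζ, map_smul]
  have a0 := gam_nonneg s (ζ y)
  have a1 := gam_le_one s (ζ y)
  have b0 := gam_nonneg s (v y)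
  have b1 := gam_le_one s (v y)
  have c1 : ‖gam s (ζ y) • proj (T y) (grad (fun y => gam s (v y)) y)‖
      ≤ ‖proj (T y) (grad (fun y => gam s (v y)) y)‖ := by
    rw [norm_smul, Real.norm_of_nonneg a0]
    exact mul_le_of_le_one_left (norm_nonneg _) a1
  have c2 : ‖gam s (v y) • gam' s (ζ y) • proj (T y) (grad ζ y)‖
      ≤ 4 / s * ‖proj (T y) (grad ζ y)‖ := by
    rw [norm_smul, norm_smul, Real.norm_of_nonneg b0, Real.norm_eq_abs]
    refine (mul_le_of_le_one_left (by positivity) b1).trans ?_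
    exact mul_le_mul_of_nonneg_right (abs_gam'_le hs _) (norm_nonneg _)
  have c3 : gam s (ζ y) * gam s (v y) * ‖H y‖ ≤ gam s (v y) * ‖H y‖ := by
    rw [mul_assoc]
    exact mul_le_of_le_one_left (by positivity) a1
  have c4 := norm_add_le (gam s (ζ y) • proj (T y) (grad (fun y => gam s (v y)) y))
    (gam s (v y) • gam' s (ζ y) • proj (T y) (grad ζ y))
  linarith

lemma norm_scale {t : ℝ} (ht : 0 < t) (x y : E) : ‖t⁻¹ • (y - x)‖ = dist y x / t := by
  rw [norm_smul, norm_inv, Real.norm_of_nonneg ht.le, dist_eq_norm, div_eq_inv_mul]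

lemma ker_le_of {z : E} {θ : ℝ} (h0 : 0 ≤ θ) (h1 : θ ≤ 1) (hz : 1 - θ ≤ ‖z‖) :
    ker z ≤ 4 * θ ^ 2 := by
  unfold ker
  have h2 : (1 - θ) ^ 2 ≤ ‖z‖ ^ 2 := pow_le_pow_left₀ (by linarith) hz 2
  have h3 : max (1 - ‖z‖ ^ 2) 0 ≤ 2 * θ := max_le (by nlinarith) (by linarith)
  calc _ ≤ (2 * θ) ^ 2 := pow_le_pow_left₀ (le_max_right _ _) h3 2
    _ = _ := by ring

lemma le_ker_of {z : E} {θ : ℝ} (h0 : 0 ≤ θ) (h1 : θ ≤ 1) (hz : ‖z‖ ≤ 1 - θ / 2) :
    θ ^ 2 / 4 ≤ ker z := by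
  unfold ker
  have h2 : ‖z‖ ^ 2 ≤ (1 - θ / 2) ^ 2 := pow_le_pow_left₀ (norm_nonneg _) hz 2
  have h3 : θ / 2 ≤ max (1 - ‖z‖ ^ 2) 0 := le_max_of_le_left (by nlinarith)
  calc _ = (θ / 2) ^ 2 := by ring
    _ ≤ _ := pow_le_pow_left₀ (by linarith) h3 2

lemma integrable_ind [IsFiniteMeasureOnCompacts μ] {A K : Set E} (hA : MeasurableSet A)
    (hK : IsCompact K) (h : A ⊆ K) (c : ℝ) : Integrable (A.indicator fun _ => c) μ :=
  (integrable_indicator_iff hA).2
    (((locallyIntegrable_const c).integrableOn_isCompact hK).mono_set h)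

/-- lower bound for the kernel integral of `v` -/
lemma int_lower_wt [IsFiniteMeasureOnCompacts μ] {v h : E → ℝ} (hv : Continuous v)
    (hh : Continuous h) (h1 : ∀ y, h y ≤ 1) {s t θ η : ℝ} (hs : 0 < s)
    (hvh : ∀ y, v y ≤ s → h y = 0) (x : E) (ht : 0 < t) (hθ : 0 ≤ θ) (hθ1 : θ ≤ 1) (hη : 0 < η) :
    s * ∫ y, ker (t⁻¹ • (y - x)) * h y ∂μ - η * ∫ y in closedBall x t, v y ^ 2 ∂μ
      - (4 * η)⁻¹ * (μ.real {y | y ∈ closedBall x ((1 - θ) * t) ∧ v y ≤ s}
        + 4 * θ ^ 2 * μ.real (closedBall x t)) ≤ ∫ y, ker (t⁻¹ • (y - x)) * v y ∂μ := by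
  have hprop : ProperSpace E := FiniteDimensional.proper_real E
  set D : Set E := {y | y ∈ closedBall x ((1 - θ) * t) ∧ v y ≤ s} with hD
  have hDm : MeasurableSet D :=
    (isClosed_closedBall.inter (isClosed_le hv continuous_const)).measurableSet
  have hK := isCompact_closedBall x t
  have i1 := integrable_ker_mul (μ := μ) hh x ht
  have i2 : Integrable ((closedBall x t).indicator fun y => v y ^ 2) μ :=
    (integrable_indicator_iff measurableSet_closedBall).2
      ((hv.pow 2).continuousOn.integrableOn_compact hK)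
  have i3 := integrable_ind (μ := μ) hDm (isCompact_closedBall x ((1 - θ) * t))
    (fun y hy => hy.1) 1
  have i4 := integrable_ind (μ := μ) measurableSet_closedBall hK Subset.rfl (4 * θ ^ 2)
  have e1 : ∫ y, (s * (ker (t⁻¹ • (y - x)) * h y) - η * (closedBall x t).indicator
      (fun y => v y ^ 2) y - (4 * η)⁻¹ * (D.indicator (fun _ => (1 : ℝ)) y
        + (closedBall x t).indicator (fun _ => 4 * θ ^ 2) y)) ∂μ
      = s * ∫ y, ker (t⁻¹ • (y - x)) * h y ∂μ - η * ∫ y in closedBall x t, v y ^ 2 ∂μ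
      - (4 * η)⁻¹ * (μ.real D + 4 * θ ^ 2 * μ.real (closedBall x t)) := by
    have j1 : Integrable (fun y => s * (ker (t⁻¹ • (y - x)) * h y) - η * (closedBall x t).indicator
      (fun y => v y ^ 2) y) μ := (i1.const_mul s).sub (i2.const_mul η)
    have j2 : Integrable (fun y => (4 * η)⁻¹ * (D.indicator (fun _ => (1 : ℝ)) y
        + (closedBall x t).indicator (fun _ => 4 * θ ^ 2) y)) μ := (i3.add i4).const_mul _
    rw [integral_sub j1 j2, integral_sub (i1.const_mul s) (i2.const_mul η), integral_const_mul, integral_const_mul,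
      integral_const_mul, integral_add i3 i4, integral_indicator hDm,
      integral_indicator measurableSet_closedBall, integral_indicator measurableSet_closedBall,
      setIntegral_const, setIntegral_const, smul_eq_mul, smul_eq_mul, mul_one,
      mul_comm (μ.real (closedBall x t))]
  rw [← e1]
  refine integral_mono (((i1.const_mul s).sub (i2.const_mul η)).sub ((i3.add i4).const_mul _))
    (integrable_ker_mul hv x ht) fun y => ?_
  simp only
  have p0 := kern_nonneg (t⁻¹ • (y - x))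
  have p1 := kern_le_one (t⁻¹ • (y - x))
  have p2 : 0 ≤ D.indicator (fun _ => (1 : ℝ)) y := indicator_nonneg (fun _ _ => zero_le_one) y
  have p3 : 0 < (4 * η)⁻¹ := by positivity
  by_cases hy : y ∈ closedBall x t
  · rw [indicator_of_mem hy, indicator_of_mem hy]
    by_cases hs' : v y ≤ s
    · have q1 : ker (t⁻¹ • (y - x)) ^ 2 ≤ D.indicator (fun _ => (1 : ℝ)) y + 4 * θ ^ 2 := by
        by_cases hy' : y ∈ closedBall x ((1 - θ) * t)
        · rw [indicator_of_mem (show y ∈ D from ⟨hy', hs'⟩)]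
          nlinarith [sq_nonneg θ]
        · have q2 : ker (t⁻¹ • (y - x)) ≤ 4 * θ ^ 2 := ker_le_of hθ hθ1 (by
            rw [norm_scale ht, le_div_iff₀ ht]
            exact (not_le.1 hy').le)
          nlinarith
      have q2 : 0 ≤ η * v y ^ 2 + ker (t⁻¹ • (y - x)) * v y
          + (4 * η)⁻¹ * ker (t⁻¹ • (y - x)) ^ 2 := by
        have e : η * v y ^ 2 + ker (t⁻¹ • (y - x)) * v y + (4 * η)⁻¹ * ker (t⁻¹ • (y - x)) ^ 2
            = (2 * η * v y + ker (t⁻¹ • (y - x))) ^ 2 / (4 * η) := by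
          field_simp; ring
        rw [e]; positivity
      have q3 := mul_le_mul_of_nonneg_left q1 p3.le
      rw [hvh y hs']
      linarith
    · have q1 : s * h y ≤ v y := (mul_le_of_le_one_right hs.le (h1 y)).trans (not_le.1 hs').le
      have q2 := mul_le_mul_of_nonneg_left q1 p0
      have q3 : 0 ≤ η * v y ^ 2 := by positivity
      have q4 : 0 ≤ (4 * η)⁻¹ * (D.indicator (fun _ => (1 : ℝ)) y + 4 * θ ^ 2) := by positivity
      linarith
  · rw [indicator_of_notMem hy, indicator_of_notMem hy, ker_scale_zero' ht hy]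
    have q4 : 0 ≤ (4 * η)⁻¹ * (D.indicator (fun _ => (1 : ℝ)) y + 0) := by positivity
    linarith

/-- upper bound for the part of the sheet where the weight vanishes -/
lemma meas_upper_wt [IsFiniteMeasureOnCompacts μ] {h : E → ℝ} (hh : Continuous h)
    (h1 : ∀ y, h y ≤ 1) {G B : Set E} (hG : MeasurableSet G) (hB : MeasurableSet B)
    (hG0 : ∀ y, y ∉ G → h y = 0) {t θ : ℝ} (x : E) (ht : 0 < t) (hθ : 0 ≤ θ) (hθ1 : θ ≤ 1)
    (hB0 : ∀ y ∈ B, y ∈ G ∧ h y = 0 ∧ y ∈ closedBall x ((1 - θ / 2) * t)) :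
    θ ^ 2 / 4 * μ.real B + ∫ y, ker (t⁻¹ • (y - x)) * h y ∂μ
      ≤ ∫ y in G, ker (t⁻¹ • (y - x)) ∂μ := by
  have hprop : ProperSpace E := FiniteDimensional.proper_real E
  have i1 := integrable_ker_mul (μ := μ) hh x ht
  have i2 := integrable_ind (μ := μ) hB (isCompact_closedBall x ((1 - θ / 2) * t))
    (fun y hy => (hB0 y hy).2.2) (θ ^ 2 / 4)
  have e1 : ∫ y, (B.indicator (fun _ => θ ^ 2 / 4) y + ker (t⁻¹ • (y - x)) * h y) ∂μ
      = θ ^ 2 / 4 * μ.real B + ∫ y, ker (t⁻¹ • (y - x)) * h y ∂μ := by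
    rw [integral_add i2 i1, integral_indicator hB, setIntegral_const, smul_eq_mul, mul_comm]
  rw [← e1, ← integral_indicator hG]
  refine integral_mono (i2.add i1) ((integrable_ker_scale x ht).indicator hG) fun y => ?_
  simp only
  by_cases hy : y ∈ B
  · obtain ⟨q1, q2, q3⟩ := hB0 y hy
    rw [indicator_of_mem hy, indicator_of_mem q1, q2, mul_zero, add_zero]
    refine le_ker_of hθ hθ1 ?_
    rw [norm_scale ht, div_le_iff₀ ht]
    exact q3
  · rw [indicator_of_notMem hy, zero_add]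
    by_cases hy' : y ∈ G
    · rw [indicator_of_mem hy']
      exact mul_le_of_le_one_right (kern_nonneg _) (h1 y)
    · rw [indicator_of_notMem hy', hG0 y hy', mul_zero]

lemma aux_neg {o s η θ C Cd lam ε t X a b d n P : ℝ} (ho : 0 < o) (hs : 0 < s) (hη : 0 < η)
    (hθ : 0 < θ) (hX : 0 < X) (hCd : 0 < Cd) (h1 : (o - lam * t - ε) * X ≤ a)
    (h2 : b ≤ P * X) (h3 : η * P = s * o / 8) (h4 : θ ^ 2 / 4 * n + a ≤ (o + ε) * X)
    (h5 : d ≤ Cd * n + η * s * o / 8 * X) (h6 : lam * t ≤ ε) (h7 : ε ≤ o / 4)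
    (h8 : 12 * Cd * ε ≤ θ ^ 2 * (η * s * o / 8)) (h9 : 16 * θ ^ 2 * C ≤ η * s * o) :
    s * o / 4 * X ≤ s * a - η * b - (4 * η)⁻¹ * (d + 4 * θ ^ 2 * (C * X)) := by
  have e1 : o / 2 * X ≤ a := le_trans (mul_le_mul_of_nonneg_right (by linarith) hX.le) h1
  have e2 : η * b ≤ s * o / 8 * X := by
    rw [← h3, mul_assoc]
    exact mul_le_mul_of_nonneg_left h2 hη.le
  have e3 : θ ^ 2 / 4 * n ≤ 3 * ε * X := by
    have : lam * t * X ≤ ε * X := mul_le_mul_of_nonneg_right h6 hX.le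
    linarith
  have e4 : Cd * n ≤ η * s * o / 8 * X := by
    refine le_of_mul_le_mul_left ?_ (by positivity : 0 < θ ^ 2)
    have f1 := mul_le_mul_of_nonneg_left e3 (by positivity : 0 ≤ 4 * Cd)
    have f2 := mul_le_mul_of_nonneg_right h8 hX.le
    linarith
  have e5 : 4 * θ ^ 2 * (C * X) ≤ η * s * o / 4 * X := by
    have := mul_le_mul_of_nonneg_right h9 hX.le
    linarith
  have e6 : (4 * η)⁻¹ * (d + 4 * θ ^ 2 * (C * X)) ≤ s * o / 8 * X := by
    rw [inv_mul_le_iff₀ (by positivity)]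
    linarith
  have e7 := mul_le_mul_of_nonneg_left e1 hs.le
  linarith

end single

variable {ι : Type*} {N : ι → Measure E} {T : ι → E → Submodule ℝ E} {H : ι → E → E}

/-- the uniform bounds for the normalised heights -/
structure Bds (U : Ultrafilter ι) (m : ℕ) (N : ι → Measure E) (T : ι → E → Submodule ℝ E)
    (H : ι → E → E) (w : ι → E → ℝ) (C : ℝ) : Prop where
  pos : 0 < C
  sl : ∀ᶠ i in (U : Filter ι), Slice m (N i) (T i) (H i)
  ratio : ∀ᶠ i in (U : Filter ι), ∀ (x : E) (r : ℝ), 0 < r → r ≤ 1 →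
    (N i).real (closedBall x r) ≤ C * r ^ m
  mass : ∀ R : ℝ, ∃ M : ℝ, 0 < M ∧ ∀ᶠ i in (U : Filter ι), (N i).real (closedBall (0 : E) R) ≤ M
  cd : ∀ᶠ i in (U : Filter ι), ContDiff ℝ 1 (w i)
  bd : ∀ R : ℝ, ∃ C : ℝ, ∀ᶠ i in (U : Filter ι), ∫ x in closedBall (0 : E) R,
    (w i x ^ 2 + ‖proj (T i x) (grad (w i) x)‖ ^ 2 + ‖H i x‖ ^ 2 + w i x ^ 2 * ‖H i x‖) ∂(N i) ≤ C
  lim : ∀ φ : E → ℝ, Continuous φ → HasCompactSupport φ →
    Tendsto (fun i => ∫ x, φ x * w i x ∂(N i)) U (𝓝 0)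

variable {U : Ultrafilter ι} {w : ι → E → ℝ} {C : ℝ}

lemma Bds.neg (h : Bds U m N T H w C) : Bds U m N T H (fun i x => -w i x) C where
  pos := h.pos
  sl := h.sl
  ratio := h.ratio
  mass := h.mass
  cd := h.cd.mono fun i hi => hi.neg
  bd R := by
    obtain ⟨C₂, hC₂⟩ := h.bd R
    refine ⟨C₂, ?_⟩
    filter_upwards [hC₂, h.cd] with i hi hwi
    refine le_trans (le_of_eq ?_) hi
    refine integral_congr_ae (Eventually.of_forall fun y => ?_)
    have e : grad (fun x => -w i x) y = -grad (w i) y := by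
      have := grad_const_mul (x := y) (-1) (hwi.differentiable (by norm_num) y)
      simpa using this
    simp only
    rw [e, map_neg, norm_neg]
    ring
  lim φ h1 h2 := by
    have := (h.lim φ h1 h2).neg
    rw [neg_zero] at this
    refine this.congr fun i => ?_
    rw [← integral_neg]
    refine integral_congr_ae (Eventually.of_forall fun y => ?_)
    simp only
    ring

lemma Bds.dom_le (h : Bds U m N T H w C) {s : ℝ} (hs : 0 < s) (R : ℝ) :
    ∃ G : ℝ, ∀ᶠ i in (U : Filter ι),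
      ∫ y in closedBall 0 R, dom (T i) (H i) (w i) s y ∂(N i) ≤ G := by
  have hprop : ProperSpace E := FiniteDimensional.proper_real E
  obtain ⟨M, hM0, hM⟩ := h.mass R
  obtain ⟨C₁, hC₁⟩ := h.bd R
  refine ⟨(1 + 4 / s) * (M + C₁), ?_⟩
  filter_upwards [h.sl, h.cd, hM, hC₁] with i hi hwi hMi hCi
  have := hi.mc.fin
  have hK : IsCompact (closedBall (0 : E) R) := isCompact_closedBall _ _
  have i1 : IntegrableOn (fun y => w i y ^ 2) (closedBall (0 : E) R) (N i) :=
    (hwi.continuous.pow 2).continuousOn.integrableOn_compact hK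
  have i2 := hi.sq_proj_grad_integrableOn hwi hK
  have i3 := hi.mc.locL2 _ hK
  have i4 := hi.sq_mul_H_integrableOn hwi.continuous hK
  have i5 : IntegrableOn (fun x => w i x ^ 2 + ‖proj (T i x) (grad (w i) x)‖ ^ 2 + ‖H i x‖ ^ 2
      + w i x ^ 2 * ‖H i x‖) (closedBall (0 : E) R) (N i) := ((i1.add i2).add i3).add i4
  have i6 : IntegrableOn (fun _ : E => (1 : ℝ)) (closedBall (0 : E) R) (N i) :=
    (locallyIntegrable_const (1 : ℝ)).integrableOn_isCompact hK
  calc ∫ y in closedBall 0 R, dom (T i) (H i) (w i) s y ∂(N i)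
      ≤ ∫ y in closedBall 0 R, (1 + 4 / s) * (1 + (w i y ^ 2
          + ‖proj (T i y) (grad (w i) y)‖ ^ 2 + ‖H i y‖ ^ 2 + w i y ^ 2 * ‖H i y‖)) ∂(N i) := by
        refine integral_mono (hi.dom_integrableOn hwi s hK) ((i6.add i5).const_mul _) fun y => ?_
        simp only [dom]
        have p1 := sq_nonneg (w i y)
        have p2 := sq_nonneg ‖proj (T i y) (grad (w i) y)‖
        have p3 := sq_nonneg ‖H i y‖
        have p4 : 0 ≤ w i y ^ 2 * ‖H i y‖ := by positivity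
        have p5 : 0 ≤ 4 / s := by positivity
        nlinarith [mul_nonneg p5 p1, mul_nonneg p5 p3, mul_nonneg p5 p4]
    _ = (1 + 4 / s) * ((N i).real (closedBall 0 R) + ∫ y in closedBall 0 R,
          (w i y ^ 2 + ‖proj (T i y) (grad (w i) y)‖ ^ 2 + ‖H i y‖ ^ 2
          + w i y ^ 2 * ‖H i y‖) ∂(N i)) := by
        rw [integral_const_mul, integral_add i6 i5, setIntegral_const, smul_eq_mul, mul_one]
    _ ≤ _ := by
        have p5 : 0 ≤ 4 / s := by positivity
        gcongr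

/-- every part of the measure is dominated by the part of the sheet `{ζ = ψ}` with smaller `w` -/
def Dom (U : Ultrafilter ι) (N : ι → Measure E) (w ζ : ι → E → ℝ) (ψ : E → ℝ) (Cd : ℝ) : Prop :=
  ∀ R δ ε : ℝ, 0 < δ → 0 < ε → ∀ᶠ i in (U : Filter ι), ∀ D B : Set E,
    D ⊆ closedBall 0 R → IsCompact B →
    (∀ y ∈ D, ∀ y', dist y' y ≤ δ → w i y' ≤ w i y → ζ i y' = ψ y' → y' ∈ B) →
    (N i).real D ≤ Cd * (N i).real B + ε

/-- **The height is not positive on the lowest sheet.** -/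
theorem Bds.sheet (h : Bds U m N T H w C) {ζ : ι → E → ℝ} {ψ : E → ℝ} {Cd : ℝ} (hCd : 0 < Cd)
    (hζ : ∀ᶠ i in (U : Filter ι), ContDiff ℝ 1 (ζ i)) (hψ : Continuous ψ)
    (hζψ : ∀ᶠ i in (U : Filter ι), ∀ᵐ x ∂(N i), ζ i x ≤ ψ x)
    (hζb : ∀ R : ℝ, ∃ C : ℝ, ∀ᶠ i in (U : Filter ι),
      ∫ x in closedBall (0 : E) R, ‖proj (T i x) (grad (ζ i) x)‖ ∂(N i) ≤ C)
    (hsharp : ∀ (x : E) (ε : ℝ), 0 < ε → ∀ᶠ r in 𝓝[>] (0 : ℝ), ∀ᶠ i in (U : Filter ι),
      ∫ y in {y | ζ i y ≠ 0}, ker (r⁻¹ • (y - x)) ∂(N i) ≤ (om m + ε) * r ^ m)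
    (hdom : Dom U N w ζ ψ Cd) {s : ℝ} (hs : 0 < s) (R : ℝ) {δ : ℝ} (hδ : 0 < δ) :
    ∀ᶠ i in (U : Filter ι), N i {x | x ∈ closedBall (0 : E) R ∧ 2 * s ≤ ζ i x ∧ 2 * s ≤ w i x}
      ≤ ENNReal.ofReal δ := by
  have hprop : ProperSpace E := FiniteDimensional.proper_real E
  have hom := om_pos m
  have hC := h.pos
  obtain ⟨M, hM0, hM⟩ := h.mass (R + 1)
  obtain ⟨G₁, hG₁⟩ := h.dom_le hs (R + 1)
  obtain ⟨G₂, hG₂⟩ := hζb (R + 1)
  obtain ⟨G, hG0, hG⟩ : ∃ G : ℝ, 0 < G ∧ G₁ + 4 / s * G₂ ≤ G :=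
    ⟨max (G₁ + 4 / s * G₂) 1, lt_max_of_lt_right one_pos, le_max_left _ _⟩
  have hnB : 0 < (Vale.Agent.P214.BES.nB E : ℝ) := by
    unfold Vale.Agent.P214.BES.nB; positivity
  obtain ⟨lam, hlam, hval⟩ : ∃ lam : ℝ, 0 < lam ∧ Vale.Agent.P214.BES.nB E * C * (G / lam) = δ :=
    ⟨Vale.Agent.P214.BES.nB E * C * G / δ, by positivity, by field_simp⟩
  by_contra hcon
  rw [← Ultrafilter.eventually_not] at hcon
  simp only [not_le] at hcon
  have hgood : ∀ᶠ i in (U : Filter ι), ∃ x, x ∈ closedBall (0 : E) R ∧ 2 * s ≤ ψ x ∧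
      (∀ t, 0 < t → t ≤ 1 →
        om m ≤ JJ m (N i) (fun y => gam s (ζ i y) * gam s (w i y)) x t + lam * t) ∧
      (∀ t, 0 < t → t ≤ 1 → ∫ y in closedBall x t, w i y ^ 2 ∂(N i) ≤ lam * t ^ m) := by
    filter_upwards [h.sl, h.cd, h.ratio, hG₁, hG₂, hcon, hζ, hζψ] with i h1 h2 h3 h4 h5 h6 h7 h8
    have := h1.mc.fin
    rw [← hval] at h6
    have hg : ∀ K, IsCompact K → IntegrableOn (fun y => dom (T i) (H i) (w i) s y
        + 4 / s * ‖proj (T i y) (grad (ζ i) y)‖) K (N i) := fun K hK =>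
      (h1.dom_integrableOn h2 s hK).add ((proj_grad_integrableOn h1 h7 hK).const_mul _)
    obtain ⟨x, hx, hx0, hx1, hx2⟩ := exists_good_wt h1
      (((contDiff_gam s).comp h7).mul ((contDiff_gam s).comp h2))
      (fun y => mul_nonneg (gam_nonneg _ _) (gam_nonneg _ _))
      (fun y => add_nonneg (dom_nonneg hs y) (by positivity)) hg (err_gam_mul h2 h7 hs) hC hlam h3
      (G := G) (R := R) (by
        rw [integral_add (h1.dom_integrableOn h2 s (isCompact_closedBall _ _))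
          ((proj_grad_integrableOn h1 h7 (isCompact_closedBall _ _)).const_mul _),
          integral_const_mul]
        refine le_trans ?_ hG
        gcongr)
      (fun x hx => ⟨hx.1, by
        simp only [Function.comp]
        rw [gam_one hs hx.2.1, gam_one hs hx.2.2, mul_one]⟩) h8 h6
    refine ⟨x, hx.1, hx.2.1.trans hx0, hx1, fun t ht ht1 => le_trans ?_ (hx2 t ht ht1)⟩
    refine integral_mono ((h2.continuous.pow 2).continuousOn.integrableOn_compact
      (isCompact_closedBall _ _)) (hg _ (isCompact_closedBall _ _)) fun y => ?_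
    simp only [dom]
    have : 0 ≤ 4 / s * (1 + ‖proj (T i y) (grad (w i) y)‖ ^ 2) + (1 + ‖H i y‖ ^ 2)
      + 4 / s * ‖proj (T i y) (grad (ζ i) y)‖ := by positivity
    linarith
  obtain ⟨x, hx⟩ := hgood.choice
  obtain ⟨x₀, hx₀, hxlim⟩ := (isCompact_closedBall (0 : E) R).ultrafilter_le_nhds (U.map x) (by
    rw [Ultrafilter.coe_map, le_principal_iff, mem_map]
    exact hx.mono fun i hi => hi.1)
  have hxt : Tendsto x U (𝓝 x₀) := hxlim
  have hψ0 : 2 * s ≤ ψ x₀ := ge_of_tendsto ((hψ.tendsto x₀).comp hxt) (hx.mono fun i hi => hi.2.1)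
  obtain ⟨r₁, hr₁, hψ1⟩ := Metric.eventually_nhds_iff.1
    (hψ.continuousAt.eventually (lt_mem_nhds (by linarith : s < ψ x₀)))
  -- constants
  obtain ⟨η, hη, e1⟩ : ∃ η : ℝ, 0 < η ∧ η * (lam * 2 ^ m) = s * om m / 8 :=
    ⟨s * om m / (8 * (lam * 2 ^ m)), by positivity, by field_simp⟩
  obtain ⟨θ, hθ, hθ1, e2⟩ : ∃ θ : ℝ, 0 < θ ∧ θ ≤ 1 ∧ 16 * θ ^ 2 * C ≤ η * s * om m := by
    refine ⟨min 1 (η * s * om m / (16 * C)), by positivity, min_le_left _ _, ?_⟩
    have f1 := min_le_left 1 (η * s * om m / (16 * C))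
    have f2 := min_le_right 1 (η * s * om m / (16 * C))
    have f3 : 0 < min 1 (η * s * om m / (16 * C)) := by positivity
    rw [le_div_iff₀ (by positivity)] at f2
    refine le_trans ?_ f2
    nlinarith [mul_le_mul_of_nonneg_left f1 (by positivity :
      0 ≤ 16 * C * min 1 (η * s * om m / (16 * C)))]
  obtain ⟨ε, hε, e3, e4⟩ : ∃ ε : ℝ, 0 < ε ∧ ε ≤ om m / 4 ∧
      12 * Cd * ε ≤ θ ^ 2 * (η * s * om m / 8) := by
    refine ⟨min (om m / 4) (θ ^ 2 * (η * s * om m / 8) / (12 * Cd)), by positivity,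
      min_le_left _ _, ?_⟩
    have f2 := min_le_right (om m / 4) (θ ^ 2 * (η * s * om m / 8) / (12 * Cd))
    rw [le_div_iff₀ (by positivity)] at f2
    linarith
  obtain ⟨t, ht1, ht2⟩ := ((hsharp x₀ ε hε).and (Ioo_mem_nhdsGT
    (by positivity : 0 < min (min (1 / 2) (ε / lam)) r₁))).exists
  have ht : 0 < t := ht2.1
  have htm : 0 < t ^ m := by positivity
  have ht3 : 2 * t ≤ 1 := by
    have := ht2.2.trans_le ((min_le_left _ _).trans (min_le_left _ _))
    linarith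
  have ht4 : lam * t ≤ ε := by
    have := (ht2.2.trans_le ((min_le_left _ _).trans (min_le_right _ _))).le
    rw [le_div_iff₀ hlam] at this
    linarith
  have ht5 : t < r₁ := ht2.2.trans_le (min_le_right _ _)
  have hdist : Tendsto (fun i => dist (x i) x₀) U (𝓝 0) := tendsto_iff_dist_tendsto_zero.1 hxt
  have hev2 : ∀ᶠ i in (U : Filter ι), 4 * (t⁻¹ * dist (x i) x₀) * M < ε * t ^ m := by
    have h1 : Tendsto (fun i => 4 * (t⁻¹ * dist (x i) x₀) * M) U (𝓝 (4 * (t⁻¹ * 0) * M)) :=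
      ((hdist.const_mul _).const_mul _).mul_const _
    refine h1.eventually (gt_mem_nhds ?_)
    simp only [mul_zero, zero_mul]
    positivity
  have hev4 := (h.lim _ (continuous_ker_scale t x₀) (hasCompactSupport_ker_scale ht x₀)).eventually
    (gt_mem_nhds (by positivity : 0 < s * om m / 4 * t ^ m))
  obtain ⟨i, ⟨i1, -, i2, i3⟩, i4, i5, i6, i7, i8, i9, i10, i11, i12, i13⟩ :=
    (hx.and (h.sl.and (h.cd.and (hM.and (ht1.and (hev2.and
      ((hdist.eventually (gt_mem_nhds ht)).and (hev4.and (hζ.and (h.ratio.and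
      (hdom (R + 1) (θ * t / 2) (η * s * om m / 8 * t ^ m) (by positivity)
        (by positivity)))))))))))).exists
  have := i4.mc.fin
  have hwc := i5.continuous
  have hζc := i11.continuous
  have hc : Continuous fun y => gam s (ζ i y) * gam s (w i y) :=
    ((contDiff_gam s).continuous.comp hζc).mul ((contDiff_gam s).continuous.comp hwc)
  have g0 : ∀ y, 0 ≤ gam s (ζ i y) * gam s (w i y) := fun y =>
    mul_nonneg (gam_nonneg _ _) (gam_nonneg _ _)
  have g1 : ∀ y, gam s (ζ i y) * gam s (w i y) ≤ 1 := fun y =>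
    mul_le_one₀ (gam_le_one _ _) (gam_nonneg _ _) (gam_le_one _ _)
  have g2 : ∀ y, w i y ≤ s → gam s (ζ i y) * gam s (w i y) = 0 := fun y hy => by
    rw [gam_zero hs hy, mul_zero]
  have k1 := int_lower_wt (μ := N i) hwc hc g1 hs g2 x₀ ht hθ.le hθ1 hη
  have hBc : IsCompact {y | y ∈ closedBall x₀ ((1 - θ / 2) * t) ∧ s ≤ ζ i y ∧ w i y ≤ s} :=
    (isCompact_closedBall _ _).inter_right
      ((isClosed_le continuous_const hζc).inter (isClosed_le hwc continuous_const))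
  have k2 := meas_upper_wt (μ := N i) hc g1 (G := {y | ζ i y ≠ 0})
    (isOpen_ne_fun hζc continuous_const).measurableSet hBc.measurableSet
    (fun y hy => by rw [not_not.1 hy, gam_zero hs hs.le, zero_mul]) x₀ ht hθ.le hθ1
    (fun y hy => ⟨(hs.trans_le hy.2.1).ne', g2 y hy.2.2, hy.1⟩)
  have k3 := i13 {y | y ∈ closedBall x₀ ((1 - θ) * t) ∧ w i y ≤ s} _ (fun y hy => by
      refine closedBall_subset_closedBall' ?_ hy.1
      have f1 : θ * t ≥ 0 := by positivity
      have f2 := mem_closedBall.1 hx₀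
      linarith) hBc (fun y hy y' f1 f2 f3 => by
      have f4 : dist y' x₀ ≤ (1 - θ / 2) * t := by
        have := dist_triangle y' y x₀
        have := mem_closedBall.1 hy.1
        linarith
      have f5 : θ * t ≥ 0 := by positivity
      exact ⟨f4, f3 ▸ (hψ1 (by linarith)).le, f2.trans hy.2⟩)
  have k4 : (om m - lam * t - ε) * t ^ m
      ≤ ∫ y, ker (t⁻¹ • (y - x₀)) * (gam s (ζ i y) * gam s (w i y)) ∂(N i) := by
    have f1 := ker_compare (μ := N i) hc g0 g1 i1 hx₀ ht (by linarith) i6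
    have f2 := i2 t ht (by linarith)
    unfold JJ at f2
    rw [← sub_le_iff_le_add, le_div_iff₀ htm] at f2
    linarith
  have k5 : ∫ y in closedBall x₀ t, w i y ^ 2 ∂(N i) ≤ lam * 2 ^ m * t ^ m := by
    have f1 := i3 (2 * t) (by positivity) ht3
    rw [mul_pow, ← mul_assoc] at f1
    refine le_trans (setIntegral_mono_set ((hwc.pow 2).continuousOn.integrableOn_compact
      (isCompact_closedBall _ _)) (Eventually.of_forall fun y => sq_nonneg _)
      (closedBall_subset_closedBall' ?_).eventuallyLE) f1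
    rw [dist_comm]
    linarith
  have k6 := aux_neg (C := C) hom hs hη hθ htm hCd k4 k5 e1 (k2.trans i7) k3 ht4 e3 e4 e2
  have k7 : (4 * η)⁻¹ * ((N i).real {y | y ∈ closedBall x₀ ((1 - θ) * t) ∧ w i y ≤ s}
      + 4 * θ ^ 2 * (N i).real (closedBall x₀ t))
      ≤ (4 * η)⁻¹ * ((N i).real {y | y ∈ closedBall x₀ ((1 - θ) * t) ∧ w i y ≤ s}
      + 4 * θ ^ 2 * (C * t ^ m)) := by
    have := i12 x₀ t ht (by linarith)
    gcongr
  linarith

end Vale.Agent.P218N.B
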