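import Vale.Agent.P218N.B.Punct
import Vale.Agent.P218N.G.LIGap
import Vale.Agent.P218N.G.Dens

/-! Area comparison between a surface and the zero set of a tube function. -/

open MeasureTheory Set Filter Topology Metric
open scoped ENNReal NNReal RealInnerProductSpace ContDiff

namespace Vale.Agent.P218N.B

open Vale.Agent.P218.H313 Vale.Agent.P218N.H Vale.Agent.P218N.G

theorem push_le {M : Set E3} (hM : Surf M) (hc : IsClosed M) {W : E3 → ℝ} {c K : ℝ}
    (hW : Tube0 W c K) {G : Set E3} (hG : MeasurableSet G) (hGM : G ⊆ M)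
    (hb : Bornology.IsBounded G) {δ : ℝ} (hδ : δ ≤ 1 / 8)
    (h1 : ∀ y ∈ G, |W y| * (1 + K) < c ∧ |W y| * K ≤ δ ∧ ‖PT M y (grad W y)‖ ^ 2 ≤ δ) {k : ℕ}
    (hfib : ∀ (Y : Finset E3) (p : E3), (∀ y ∈ Y, y ∈ G ∧ foot W y = p) → Y.card ≤ k)
    {g : E3 → ℝ≥0∞} (hg : Measurable g) :
    ENNReal.ofReal ((1 - 4 * δ) ^ 2) * ∫⁻ y in G, g (foot W y) ∂(mu M)
      ≤ k * ∫⁻ p, g p ∂(sig 2 W) := by
  obtain ⟨R, hR⟩ := hb.subset_ball (0 : E3)
  have hM' : Surf (M ∩ ball 0 R) := hM.inter_open isOpen_ball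
  have hfc := hM.finiteOnCompacts finrank_E3 hc
  have hfin : IsFiniteMeasure (mu (M ∩ ball 0 R)) := ⟨by
    rw [Measure.restrict_apply_univ]
    refine lt_of_le_of_lt ?_ (hfc.lt_top_of_isCompact (isCompact_closedBall (0 : E3) R))
    rw [Measure.restrict_apply measurableSet_closedBall, inter_comm]
    exact measure_mono (inter_subset_inter_left _ ball_subset_closedBall)⟩
  have hK := hW.K_nonneg
  have hlt : ∀ y ∈ G, |W y| < c := fun y hy => by
    have := (h1 y hy).1
    nlinarith [abs_nonneg (W y)]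
  have htg : ∀ y ∈ G, ‖P214.proj (tanP M y) (grad W y)‖ ^ 2 ≤ δ := fun y hy => by
    rw [hM.proj_tanP (hGM hy)]
    exact (h1 y hy).2.2
  have harea := area_le (m := 2) (μ := mu (M ∩ ball 0 R)) (θ := fun _ => 1) measurable_const
    (fun q B _ hB => ?_) (T := tanP M) hW.contDiff_foot hG (S := {z | W z = 0})
    hW.isClosed.measurableSet (fun y hy => hW.W_foot (h1 y hy).1) (fun y hy => ⟨le_rfl, ?_⟩)
    (fun y hy => hW.norm_fderiv_foot (hlt y hy) (by linarith [(h1 y hy).2.1]))
    (fun y hy z hz => hW.foot_inj (hlt y hy) hz ((htg y hy).trans hδ) ((h1 y hy).2.1.trans hδ))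
    (k := k) (fun Y p hY => by simpa using hfib Y p hY)
    (w := fun y => ENNReal.ofReal ((1 - 4 * δ) ^ 2) * g (foot W y)) (g := g)
    ((hg.comp hW.contDiff_foot.continuous.measurable).const_mul _) hg (fun y hy ι hι => by
      rw [mul_comm]
      exact mul_le_mul_right (ENNReal.ofReal_le_ofReal
        (hW.jl_foot_ge (hlt y hy) hι hδ (htg y hy) (h1 y hy).2.1)) _)
  · rw [lintegral_const_mul' _ _ ENNReal.ofReal_ne_top, Measure.restrict_restrict hG,
      inter_eq_left.2 (subset_inter hGM hR)] at harea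
    rw [Measure.restrict_restrict hG, inter_eq_left.2 hGM]
    exact harea
  · rcases B.eq_empty_or_nonempty with rfl | ⟨y, hy⟩
    · simp
    · obtain rfl : 1 = q := hB hy
      rw [Nat.cast_one, one_mul]
      exact Measure.restrict_le_self B
  · rw [← hM.tanP_congr (M' := M ∩ ball 0 R) (hGM hy)
      ((isOpen_ball.eventually_mem (hR hy)).mono fun z hz => and_iff_left hz)]
    exact hM'.approxTangent finrank_E3 ⟨hGM hy, hR hy⟩

theorem exists_mult {Λ c K : ℝ} (hΛ : 0 < Λ) (hc : 0 < c) (hK : 1 ≤ K) : ∃ C : ℝ, 0 < C ∧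
    ∀ (M : Set E3) (W : E3 → ℝ), B.Good Λ M → Tube0 W c K → ∀ (R : ℝ) (A : Set E3),
      MeasurableSet A → mu M (closedBall 0 R ∩ foot W ⁻¹' A) ≤ ENNReal.ofReal C * (sig 2 W A +
        ∫⁻ y in closedBall 0 (R + 1), ENNReal.ofReal (ex (tanP M) (Hv M) W y) ∂(mu M)) := by
  have hom := om_pos 2
  obtain ⟨k, hk⟩ := exists_nat_ge (Λ / om 2)
  rw [div_le_iff₀ hom] at hk
  obtain ⟨r₀, hr₀, h⟩ := exists_par 2 k (P214.BES.nB E3) hc hK hΛ
  obtain ⟨β, δ, L, m, s, τ, hP⟩ := h r₀ hr₀ le_rfl
  have h4δ : 0 < 1 - 4 * δ := by linarith [hP.δ1]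
  have hδ := hP.δ0
  have hβ := hP.β0
  set b₁ : ℝ := k / (1 - 4 * δ) ^ 2 with hb₁
  set b₂ : ℝ := K ^ 2 / δ ^ 2 + P214.BES.nB E3 * (Λ / β ^ 2) with hb₂
  have p1 : 0 ≤ b₁ := by positivity
  have p2 : 0 < b₂ := by positivity
  refine ⟨b₁ + b₂, by positivity, fun M W hM hW R A hA => ?_⟩
  have hfin := hM.finite
  have hratio := hM.ratio_real hΛ.le
  set bad : Set E3 := {y | y ∈ closedBall (0 : E3) R ∧
    ¬ G.Good 2 (mu M) (tanP M) (Hv M) W (fun _ => 1) K β δ r₀ y} with hbad
  have hb := bad_le hP hW hM.slice hratio (θ := fun _ => 1)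
    ((ae_restrict_mem hM.surf.measurableSet).mono fun y hy =>
      ⟨le_rfl, hM.surf.approxTangent finrank_E3 hy⟩) (continuous_const (y := (1 : ℝ)))
    (fun _ => zero_le_one) (Γ := 1) zero_le_one (x := 0) (R := R) (fun _ _ _ _ => by simp)
  simp only [ENNReal.ofReal_one, one_pow, mul_one] at hb
  rw [show (fun _ : E3 => (1 : ℝ≥0∞)) = 1 from rfl, withDensity_one, ← hbad, ← hb₂] at hb
  set N := toMeasurable (mu M) bad with hN
  set D := (closedBall (0 : E3) R ∩ M) \ N with hD
  have hDm : MeasurableSet D := (measurableSet_closedBall.inter hM.surf.measurableSet).diff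
    (measurableSet_toMeasurable _ _)
  have hgood : ∀ y ∈ D, G.Good 2 (mu M) (tanP M) (Hv M) W (fun _ => 1) K β δ r₀ y :=
    fun y hy => by
      by_contra h
      exact hy.2 (subset_toMeasurable _ bad ⟨hy.1.1, h⟩)
  have hfm := hW.contDiff_foot.continuous.measurable
  have h1 := push_le hM.surf hM.closed hW hDm (fun y hy => hy.1.2)
    (isBounded_closedBall.subset fun y hy => hy.1.1) hP.δ1 (fun y hy => ?_) (k := k)
    (fun Y p hY => ?_) (measurable_one.indicator hA)
  · have h2 : mu M (D ∩ foot W ⁻¹' A) ≤ ENNReal.ofReal b₁ * sig 2 W A := by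
      have a1 : ENNReal.ofReal ((1 - 4 * δ) ^ 2) ≠ 0 := by
        rw [Ne, ENNReal.ofReal_eq_zero, not_le]; positivity
      rw [lintegral_indicator_one hA, show (fun y => A.indicator 1 (foot W y)) =
        (foot W ⁻¹' A).indicator (1 : E3 → ℝ≥0∞) from rfl, lintegral_indicator_one (hfm hA),
        Measure.restrict_apply (hfm hA), inter_comm] at h1
      refine (ENNReal.mul_le_mul_iff_right a1 ENNReal.ofReal_ne_top).1 (h1.trans (le_of_eq ?_))
      rw [← mul_assoc, ← ENNReal.ofReal_mul (by positivity), hb₁, mul_div_cancel₀ _ (by positivity),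
        ENNReal.ofReal_natCast]
    calc mu M (closedBall 0 R ∩ foot W ⁻¹' A) ≤ mu M ((D ∩ foot W ⁻¹' A) ∪ N) := by
          refine measure_mono_ae ((ae_restrict_mem hM.surf.measurableSet).mono fun y hy hy' => ?_)
          by_cases hyN : y ∈ N
          exacts [Or.inr hyN, Or.inl ⟨⟨⟨hy'.1, hy⟩, hyN⟩, hy'.2⟩]
      _ ≤ mu M (D ∩ foot W ⁻¹' A) + mu M bad := by
          rw [← measure_toMeasurable bad]
          exact measure_union_le _ _
      _ ≤ _ := by
          rw [mul_add]
          refine add_le_add (h2.trans ?_) (hb.trans ?_) <;> gcongr <;> linarith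
  · have g := hgood y hy
    have a1 := g.abs_le hP
    have a2 := hP.tube
    have a3 : 0 < K * r₀ := by positivity
    refine ⟨by linarith [g.w], g.w, ?_⟩
    rw [← hM.surf.proj_tanP hy.1.2]
    exact g.e
  · have := fibre_le finrank_E3 hP hW hM.slice hratio Y p fun y hy =>
      ⟨hgood y (hY y hy).1, (hY y hy).2, ?_⟩
    · simpa using this
    refine (JJ_le continuous_const (fun _ => zero_le_one) hr₀).trans ?_
    rw [setIntegral_const, smul_eq_mul, mul_one, div_le_iff₀ (by positivity)]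
    refine (hratio y r₀ hr₀ hP.r1).trans (mul_le_mul_of_nonneg_right ?_ (by positivity))
    linarith

set_option linter.unusedVariables false in
theorem exists_sharp {Λ c K ε : ℝ} (hΛ : 0 < Λ) (hc : 0 < c) (hK : 1 ≤ K) (hε : 0 < ε) :
    ∃ r₀ : ℝ, 0 < r₀ ∧ ∀ r, 0 < r → r ≤ r₀ → ∃ C : ℝ, 0 < C ∧
      ∀ (M : Set E3) (W : E3 → ℝ) (G : Set E3) (x : E3), B.Good Λ M → Tube0 W c K →
        MeasurableSet G → G ⊆ M → InjOn (foot W) G →
        ∫ y in G, Vale.Agent.P218.H313.ker (r⁻¹ • (y - x)) ∂(mu M) ≤ (om 2 + ε) * r ^ 2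
          + C * ∫ y in closedBall x 1, ex (tanP M) (Hv M) W y ∂(mu M) := by
  have hom := om_pos 2
  have t1 : Tendsto (fun r : ℝ => LK K r ^ 2 * om 2 / (1 - 4 * r) ^ 2) (𝓝 0)
      (𝓝 (1 ^ 2 * om 2 / (1 - 4 * 0) ^ 2)) :=
    (((tendsto_LK K).pow 2).mul_const _).div
      ((by fun_prop : Continuous fun r : ℝ => (1 - 4 * r) ^ 2).tendsto 0) (by norm_num)
  obtain ⟨r₀, hr₀, h⟩ := nhds_basis_closedBall.eventually_iff.1
    ((t1.eventually (gt_mem_nhds (show _ < om 2 + ε / 2 by norm_num; exact hε))).and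
      ((ev_lt (f := fun r => r) (a := 1 / 8) (by fun_prop) (by norm_num)).and
      ((ev_lt (f := fun r => K * r) (a := 1) (by fun_prop) (by norm_num)).and
      (ev_lt (f := fun r => K * r) (a := c) (by fun_prop) (by simpa using hc)))))
  refine ⟨r₀, hr₀, fun r hr hr1 => ?_⟩
  obtain ⟨r1, r2, r3, r4⟩ := h (show r ∈ closedBall 0 r₀ by simpa [abs_of_pos hr] using hr1)
  obtain ⟨η, η0, η1, η2, η3⟩ := exists_small ((ev_lt (f := fun t => t * (1 + K)) (a := c)
    (by fun_prop) (by simpa using hc)).and ((ev_lt (f := fun t => t * K) (a := r) (by fun_prop)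
    (by simpa using hr)).and (ev_lt (f := fun t => 4 * (t / r) * Λ) (a := ε / 2) (by fun_prop)
    (by simpa using hε))))
  set C : ℝ := (η ^ 2)⁻¹ + r⁻¹ with hC
  have hC0 : 0 < C := by positivity
  refine ⟨C, hC0, fun M W G x hM hW hG hGM hinj => ?_⟩
  have hfin := hM.finite
  have h4 : 0 < 1 - 4 * r := by linarith
  set D := (G ∩ closedBall x r) ∩ ({y | |W y| ≤ η} ∩
    (M ∩ (fun y => ‖PT M y (grad W y)‖ ^ 2) ⁻¹' Iic r)) with hD
  have hDm : MeasurableSet D := (hG.inter measurableSet_closedBall).inter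
    ((isClosed_le hW.cont.abs continuous_const).inter
      (((hM.surf.continuousOn_PT.clm_apply (continuous_grad hW.li_cd1).continuousOn).norm.pow
        2).preimage_isClosed_of_isClosed hM.closed isClosed_Iic)).measurableSet
  have hD1 : ∀ y ∈ D, |W y| * (1 + K) < c := fun y hy =>
    (mul_le_mul_of_nonneg_right hy.2.1 (by linarith)).trans_lt η1
  have hkm := (continuous_ker_scale r x).measurable.ennreal_ofReal
  have h1 := push_le hM.surf hM.closed hW hDm (fun y hy => hy.2.2.1)
    (isBounded_closedBall.subset fun y hy => hy.1.2) r2.le (fun y hy => ⟨hD1 y hy,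
      (mul_le_mul_of_nonneg_right hy.2.1 (by linarith)).trans η2.le, hy.2.2.2⟩) (k := 1)
    (fun Y p hY => Finset.card_le_one.2 fun a ha b hb =>
      hinj (hY a ha).1.1.1 (hY b hb).1.1.1 ((hY a ha).2.trans (hY b hb).2.symm)) hkm
  rw [Nat.cast_one, one_mul] at h1
  have h2 : ∫⁻ y in D, ENNReal.ofReal (P218.H313.ker (r⁻¹ • (foot W y - x))) ∂(mu M)
      ≤ ENNReal.ofReal ((om 2 + ε / 2) * r ^ 2) := by
    have a1 : ENNReal.ofReal ((1 - 4 * r) ^ 2) ≠ 0 := by
      rw [Ne, ENNReal.ofReal_eq_zero, not_le]; positivity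
    refine (ENNReal.mul_le_mul_iff_right a1 ENNReal.ofReal_ne_top).1
      (h1.trans ((hW.lintegral_ker_le finrank_E3 x hr r3 r4).trans ?_))
    rw [← ENNReal.ofReal_mul (by positivity)]
    refine ENNReal.ofReal_le_ofReal ?_
    rw [div_lt_iff₀ (by positivity)] at r1
    nlinarith [sq_nonneg r]
  have hI := ex_integrableOn hM.slice hW.li_cd1 (isCompact_closedBall x 1)
  have hI0 : 0 ≤ ∫ y in closedBall x 1, ex (tanP M) (Hv M) W y ∂(mu M) :=
    integral_nonneg fun y => ex_nonneg y
  have a1 : ∀ y, G.indicator (fun y => ENNReal.ofReal (P218.H313.ker (r⁻¹ • (y - x)))) y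
      ≤ D.indicator (fun y => ENNReal.ofReal (P218.H313.ker (r⁻¹ • (foot W y - x)))) y
        + (closedBall x r).indicator (fun _ => ENNReal.ofReal (4 * (η / r))) y
        + (closedBall x 1).indicator (fun y => ENNReal.ofReal (C * ex (tanP M) (Hv M) W y)) y := by
    intro y
    by_cases hyG : y ∈ G
    swap
    · rw [indicator_of_notMem hyG]
      exact zero_le
    rw [indicator_of_mem hyG]
    by_cases hy : y ∈ closedBall x r
    swap
    · rw [ker_scale_zero' hr hy, ENNReal.ofReal_zero]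
      exact zero_le
    by_cases hyD : y ∈ D
    · rw [indicator_of_mem hyD, indicator_of_mem hy,
        ← ENNReal.ofReal_add (kern_nonneg _) (by positivity)]
      refine le_add_right (ENNReal.ofReal_le_ofReal ?_)
      have b0 : |W y| < c := by nlinarith [hD1 y hyD, abs_nonneg (W y)]
      have b1 := (le_abs_self _).trans (abs_ker_sub_le (r⁻¹ • (y - x)) (r⁻¹ • (foot W y - x)))
      rw [← smul_sub, sub_sub_sub_cancel_right, norm_smul, norm_inv, Real.norm_of_nonneg hr.le,
        ← div_eq_inv_mul, norm_sub_rev, hW.norm_foot_sub b0] at b1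
      have b2 : |W y| / r ≤ η / r := div_le_div_of_nonneg_right hyD.2.1 hr.le
      linarith
    · rw [indicator_of_mem (show y ∈ closedBall x 1 from
        closedBall_subset_closedBall (by linarith) hy)]
      refine le_add_left (ENNReal.ofReal_le_ofReal ((kern_le_one _).trans ?_))
      have e0 := ex_nonneg (T := tanP M) (H := Hv M) (W := W) y
      have p1 : 0 < (η ^ 2)⁻¹ := by positivity
      have p2 : 0 < r⁻¹ := by positivity
      rw [hC, add_mul]
      by_cases hw : |W y| ≤ η
      · have b1 : r < tg (tanP M) W y ^ 2 := by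
          rw [tg, hM.surf.proj_tanP (hGM hyG)]
          exact not_le.1 fun h' => hyD ⟨⟨hyG, hy⟩, hw, hGM hyG, h'⟩
        have b2 : 1 ≤ r⁻¹ * ex (tanP M) (Hv M) W y := by
          rw [le_inv_mul_iff₀ hr, mul_one]
          exact b1.le.trans ((tg_sq_le y).trans (xs_le_ex y))
        exact b2.trans (le_add_of_nonneg_left (by positivity))
      · have b2 : 1 ≤ (η ^ 2)⁻¹ * ex (tanP M) (Hv M) W y := by
          rw [le_inv_mul_iff₀ (by positivity), mul_one]
          refine le_trans ?_ (le_add_of_nonneg_right (xs_nonneg y))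
          rw [← sq_abs (W y)]
          exact pow_le_pow_left₀ η0.le (not_le.1 hw).le 2
        exact b2.trans (le_add_of_nonneg_right (by positivity))
  have hkc : Measurable fun y => ENNReal.ofReal (P218.H313.ker (r⁻¹ • (foot W y - x))) :=
    hkm.comp hW.contDiff_foot.continuous.measurable
  have h3 := lintegral_mono (μ := mu M) a1
  rw [lintegral_add_left ((hkc.indicator hDm).fun_add
      (measurable_const.indicator measurableSet_closedBall)),
    lintegral_add_left (hkc.indicator hDm), lintegral_indicator hG, lintegral_indicator hDm,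
    lintegral_indicator measurableSet_closedBall, lintegral_indicator measurableSet_closedBall,
    setLIntegral_const, ← ofReal_integral_eq_lintegral_ofReal (hI.const_mul C)
      (Eventually.of_forall fun y => mul_nonneg hC0.le (ex_nonneg y)), integral_const_mul] at h3
  rw [integral_eq_lintegral_of_nonneg_ae (Eventually.of_forall fun y => kern_nonneg _)
    (continuous_ker_scale r x).aestronglyMeasurable]
  refine ENNReal.toReal_le_of_le_ofReal (by positivity) (h3.trans ?_)
  rw [ENNReal.ofReal_add (by positivity) (by positivity),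
    show (om 2 + ε) * r ^ 2 = (om 2 + ε / 2) * r ^ 2 + ε / 2 * r ^ 2 by ring,
    ENNReal.ofReal_add (by positivity) (by positivity)]
  refine add_le_add_left (add_le_add h2 ?_) _
  refine (mul_le_mul_right (hM.ratio x r hr (by linarith)) _).trans ?_
  rw [← ENNReal.ofReal_mul (by positivity), ← mul_assoc]
  exact ENNReal.ofReal_le_ofReal (mul_le_mul_of_nonneg_right η3.le (by positivity))

end Vale.Agent.P218N.B
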