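import Vale.Agent.P218N.B.Punct
import Vale.Agent.P218N.G.LIGap
import Vale.Agent.P218N.G.Dens

/-! Cut-off functions: a logarithmic cut-off near finitely many points, and a cut-off of finitely
many small balls. -/

open MeasureTheory Set Filter Topology Metric
open scoped ENNReal NNReal RealInnerProductSpace ContDiff

namespace Vale.Agent.P218N.B

open Vale.Agent.P218.H313 Vale.Agent.P218N.H Vale.Agent.P218N.G

namespace OutCut

lemma grad_zero {f : E3 → ℝ} {a : ℝ} {x : E3} (h : f =ᶠ[𝓝 x] fun _ => a) : grad f x = 0 := by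
  rw [← norm_eq_zero, norm_grad, h.fderiv_eq]
  simp

lemma grad_mul_le {f g : E3 → ℝ} (hf : ContDiff ℝ 1 f) (hg : ContDiff ℝ 1 g)
    (f0 : ∀ y, 0 ≤ f y) (f1 : ∀ y, f y ≤ 1) (g0 : ∀ y, 0 ≤ g y) (g1 : ∀ y, g y ≤ 1) (x : E3) :
    ‖grad (fun y => f y * g y) x‖ ≤ ‖grad f x‖ + ‖grad g x‖ := by
  rw [grad_mul (hf.differentiable (by norm_num) x) (hg.differentiable (by norm_num) x)]
  refine (norm_add_le _ _).trans ?_
  rw [norm_smul, norm_smul, Real.norm_of_nonneg (f0 x), Real.norm_of_nonneg (g0 x), add_comm]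
  exact add_le_add (mul_le_of_le_one_left (norm_nonneg _) (g1 x))
    (mul_le_of_le_one_left (norm_nonneg _) (f1 x))

lemma exists_bump : ∃ C : ℝ, 0 < C ∧ ∀ (c : E3) (r : ℝ), 0 < r → ∃ β : E3 → ℝ,
    ContDiff ℝ 1 β ∧ (∀ y, 0 ≤ β y) ∧ (∀ y, β y ≤ 1) ∧ (∀ y ∈ closedBall c r, β y = 0) ∧
      (∀ y, 2 * r ≤ dist y c → β y = 1) ∧
      ∀ y, ‖grad β y‖ ≤ (closedBall c (2 * r)).indicator (fun _ => C / r) y := by
  let b : ContDiffBump (0 : E3) := ⟨1, 2, by norm_num, by norm_num⟩
  have hb : ContDiff ℝ 1 b := b.contDiff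
  obtain ⟨C, hC⟩ := (b.hasCompactSupport.fderiv ℝ).exists_bound_of_continuous
    (hb.continuous_fderiv (by norm_num))
  refine ⟨|C| + 1, by positivity, fun c r hr => ?_⟩
  have hd : ∀ y : E3, dist (r⁻¹ • (y - c)) 0 = r⁻¹ * dist y c := fun y => by
    rw [dist_zero_right, norm_smul, Real.norm_of_nonneg (inv_pos.2 hr).le, dist_eq_norm]
  have h1 : ∀ y, 2 * r ≤ dist y c → 1 - b (r⁻¹ • (y - c)) = 1 := fun y hy => by
    rw [b.zero_of_le_dist, sub_zero]
    rw [hd, le_inv_mul_iff₀ hr]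
    show r * 2 ≤ _
    linarith
  refine ⟨fun y => 1 - b (r⁻¹ • (y - c)), contDiff_const.sub (hb.comp (by fun_prop)),
    fun y => sub_nonneg.2 b.le_one, fun y => sub_le_self _ b.nonneg, fun y hy => ?_, h1,
    fun y => ?_⟩
  · show 1 - b (r⁻¹ • (y - c)) = 0
    rw [b.one_of_mem_closedBall, sub_self]
    rw [mem_closedBall, hd, inv_mul_le_iff₀ hr]
    show _ ≤ r * 1
    rw [mul_one]; exact hy
  · by_cases hy : y ∈ closedBall c (2 * r)
    · rw [indicator_of_mem hy, norm_grad]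
      have h2 : HasFDerivAt (fun y : E3 => r⁻¹ • (y - c)) (r⁻¹ • ContinuousLinearMap.id ℝ E3) y :=
        ((hasFDerivAt_id y).sub_const c).const_smul r⁻¹
      have h3 := (((hb.differentiable (by norm_num) _).hasFDerivAt).comp y h2).const_sub 1
      have h4 := h3.fderiv
      simp only [Function.comp_def] at h4
      rw [h4, norm_neg]
      refine (ContinuousLinearMap.opNorm_comp_le _ _).trans ?_
      rw [norm_smul, Real.norm_of_nonneg (inv_pos.2 hr).le, div_eq_mul_inv]
      refine mul_le_mul ((hC _).trans (by linarith [le_abs_self C])) ?_ (by positivity)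
        (by positivity)
      exact mul_le_of_le_one_right (inv_pos.2 hr).le ContinuousLinearMap.norm_id_le
    · rw [indicator_of_notMem hy, grad_zero (a := 1), norm_zero]
      filter_upwards [isClosed_closedBall.isOpen_compl.mem_nhds hy] with z hz
      exact h1 z (le_of_lt (not_le.1 hz))

lemma meas_sq {f : E3 → ℝ} (hf : ContDiff ℝ 1 f) :
    Measurable fun x => ENNReal.ofReal (‖grad f x‖ ^ 2) :=
  ENNReal.measurable_ofReal.comp ((continuous_grad hf).norm.pow 2).measurable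

/-- the sum of `J` bumps at separated scales -/
lemma exists_stack {Λ : ℝ} (hΛ : 0 < Λ) : ∃ A : ℝ, 0 < A ∧ ∀ (p : E3) (J : ℕ) (τ : ℝ), 0 < τ →
    τ ≤ 1 → ∃ (f : E3 → ℝ) (t : ℝ), 0 < t ∧ ContDiff ℝ 1 f ∧ (∀ x, 0 ≤ f x) ∧ (∀ x, f x ≤ J) ∧
      (∀ x ∈ closedBall p t, f x = 0) ∧ (∀ x, τ ≤ dist x p → f x = J) ∧
      ∀ μ : Measure E3, (∀ (x : E3) (r : ℝ), 0 < r → r ≤ 1 →
        μ (closedBall x r) ≤ ENNReal.ofReal (Λ * r ^ 2)) →
        ∫⁻ x, ENNReal.ofReal (‖grad f x‖ ^ 2) ∂μ ≤ ENNReal.ofReal (J * A) := by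
  obtain ⟨C, hC, hb⟩ := exists_bump
  refine ⟨4 * C ^ 2 * Λ, by positivity, fun p J => ?_⟩
  induction J with
  | zero =>
    intro τ hτ _
    refine ⟨fun _ => 0, 1, one_pos, contDiff_const, by simp, by simp, by simp, by simp,
      fun μ _ => ?_⟩
    simp [grad_zero (f := fun _ => (0 : ℝ)) (a := 0) EventuallyEq.rfl]
  | succ J ih =>
    intro τ hτ hτ1
    obtain ⟨f, t, ht, hf, f0, f1, fz, fo, hI⟩ := ih (τ / 4) (by positivity) (by linarith)
    obtain ⟨β, hβ, b0, b1, bz, bo, bg⟩ := hb p (τ / 2) (by positivity)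
    refine ⟨fun x => f x + β x, min t (τ / 2), lt_min ht (by positivity), hf.add hβ,
      fun x => add_nonneg (f0 x) (b0 x), fun x => ?_, fun x hx => ?_, fun x hx => ?_,
      fun μ hμ => ?_⟩
    · push_cast; exact add_le_add (f1 x) (b1 x)
    · show f x + β x = 0
      rw [fz x (closedBall_subset_closedBall (min_le_left _ _) hx),
        bz x (closedBall_subset_closedBall (min_le_right _ _) hx), add_zero]
    · show f x + β x = _
      rw [fo x (by linarith), bo x (by linarith)]; push_cast; rfl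
    · have h1 : ∀ x, ENNReal.ofReal (‖grad (fun x => f x + β x) x‖ ^ 2) ≤
          ENNReal.ofReal (‖grad f x‖ ^ 2) +
            (closedBall p τ).indicator (fun _ => ENNReal.ofReal ((C / (τ / 2)) ^ 2)) x := by
        intro x
        rw [grad_add (hf.differentiable (by norm_num) x) (hβ.differentiable (by norm_num) x)]
        by_cases hx : x ∈ ball p (τ / 2)
        · rw [grad_zero (f := β) (a := 0), add_zero]
          · exact le_self_add
          · filter_upwards [isOpen_ball.mem_nhds hx] with z hz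
            exact bz z (ball_subset_closedBall hz)
        · have hx' : x ∉ closedBall p (τ / 4) := fun h => hx (by
            rw [mem_closedBall] at h; rw [mem_ball]; linarith)
          rw [grad_zero (f := f) (a := J), zero_add]
          · refine le_add_left ?_
            have h2 := bg x
            rw [show 2 * (τ / 2) = τ by ring] at h2
            by_cases hx2 : x ∈ closedBall p τ
            · rw [indicator_of_mem hx2] at h2 ⊢
              exact ENNReal.ofReal_le_ofReal (pow_le_pow_left₀ (norm_nonneg _) h2 2)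
            · rw [indicator_of_notMem hx2] at h2 ⊢
              rw [le_antisymm h2 (norm_nonneg _)]; simp
          · filter_upwards [isClosed_closedBall.isOpen_compl.mem_nhds hx'] with z hz
            exact fo z (le_of_lt (not_le.1 hz))
      refine (lintegral_mono h1).trans ?_
      rw [lintegral_add_left (meas_sq hf), lintegral_indicator_const measurableSet_closedBall]
      refine (add_le_add (hI μ hμ) (mul_le_mul_right (hμ p τ hτ hτ1) _)).trans (le_of_eq ?_)
      rw [← ENNReal.ofReal_mul (by positivity), ← ENNReal.ofReal_add (by positivity)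
        (by positivity)]
      congr 1
      push_cast
      field_simp
      ring

/-- the logarithmic cut-off at one point -/
lemma exists_one (p : E3) {Λ τ γ : ℝ} (hΛ : 0 < Λ) (hτ : 0 < τ) (hγ : 0 < γ) :
    ∃ (ψ : E3 → ℝ) (t : ℝ), 0 < t ∧ ContDiff ℝ 1 ψ ∧ (∀ x, 0 ≤ ψ x) ∧ (∀ x, ψ x ≤ 1) ∧
      (∀ x ∈ closedBall p t, ψ x = 0) ∧ (∀ x, τ ≤ dist x p → ψ x = 1) ∧
      ∀ μ : Measure E3, (∀ (x : E3) (r : ℝ), 0 < r → r ≤ 1 →
        μ (closedBall x r) ≤ ENNReal.ofReal (Λ * r ^ 2)) →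
        ∫⁻ x, ENNReal.ofReal (‖grad ψ x‖ ^ 2) ∂μ ≤ ENNReal.ofReal γ := by
  obtain ⟨A, hA, h⟩ := exists_stack hΛ
  obtain ⟨J, hJ⟩ := exists_nat_gt (A / γ)
  have hJ0 : (0 : ℝ) < J := (div_pos hA hγ).trans hJ
  obtain ⟨f, t, ht, hf, f0, f1, fz, fo, hI⟩ :=
    h p J (min τ 1) (lt_min hτ one_pos) (min_le_right _ _)
  refine ⟨fun x => (J : ℝ)⁻¹ * f x, t, ht, contDiff_const.mul hf,
    fun x => mul_nonneg (by positivity) (f0 x), fun x => ?_, fun x hx => ?_, fun x hx => ?_,
    fun μ hμ => ?_⟩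
  · rw [inv_mul_le_iff₀ hJ0, mul_one]; exact f1 x
  · show _ * f x = 0
    rw [fz x hx, mul_zero]
  · show _ * f x = 1
    rw [fo x ((min_le_left _ _).trans hx), inv_mul_cancel₀ hJ0.ne']
  · have h1 : ∀ x, ENNReal.ofReal (‖grad (fun x => (J : ℝ)⁻¹ * f x) x‖ ^ 2) =
        ENNReal.ofReal ((J : ℝ)⁻¹ ^ 2) * ENNReal.ofReal (‖grad f x‖ ^ 2) := by
      intro x
      rw [grad_const_mul _ (hf.differentiable (by norm_num) x), norm_smul, mul_pow,
        Real.norm_of_nonneg (by positivity), ENNReal.ofReal_mul (by positivity)]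
    simp only [h1]
    rw [lintegral_const_mul _ (meas_sq hf)]
    refine (mul_le_mul_right (hI μ hμ) _).trans ?_
    rw [← ENNReal.ofReal_mul (by positivity)]
    refine ENNReal.ofReal_le_ofReal ?_
    rw [div_lt_iff₀ hγ] at hJ
    rw [show (J : ℝ)⁻¹ ^ 2 * (J * A) = A / J by field_simp, div_le_iff₀ hJ0]
    linarith

end OutCut

open OutCut

theorem exists_psi (P : Finset E3) {Λ τ γ : ℝ} (hΛ : 0 < Λ) (hτ : 0 < τ) (hγ : 0 < γ) :
    ∃ (ψ : E3 → ℝ) (t : ℝ), 0 < t ∧ ContDiff ℝ 1 ψ ∧ (∀ x, 0 ≤ ψ x) ∧ (∀ x, ψ x ≤ 1) ∧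
      (∀ p ∈ P, ∀ x ∈ closedBall p t, ψ x = 0) ∧ (∀ x, (∀ p ∈ P, τ ≤ dist x p) → ψ x = 1) ∧
      ∀ μ : Measure E3, (∀ (x : E3) (r : ℝ), 0 < r → r ≤ 1 →
        μ (closedBall x r) ≤ ENNReal.ofReal (Λ * r ^ 2)) →
        ∫⁻ x, ENNReal.ofReal (‖grad ψ x‖ ^ 2) ∂μ ≤ ENNReal.ofReal γ := by
  classical
  induction P using Finset.induction_on generalizing γ with
  | empty =>
    refine ⟨fun _ => 1, 1, one_pos, contDiff_const, by simp, by simp, by simp, by simp,
      fun μ _ => ?_⟩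
    simp [grad_zero (f := fun _ => (1 : ℝ)) (a := 1) EventuallyEq.rfl]
  | insert p P _ ih =>
    obtain ⟨f, t, ht, hf, f0, f1, fz, fo, hI⟩ := ih (γ := γ / 4) (by positivity)
    obtain ⟨g, t', ht', hg, g0, g1, gz, go, hI'⟩ :=
      exists_one p (γ := γ / 4) hΛ hτ (by positivity)
    refine ⟨fun x => f x * g x, min t t', lt_min ht ht', hf.mul hg,
      fun x => mul_nonneg (f0 x) (g0 x), fun x => mul_le_one₀ (f1 x) (g0 x) (g1 x),
      fun q hq x hx => ?_, fun x hx => ?_, fun μ hμ => ?_⟩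
    · show f x * g x = 0
      rcases Finset.mem_insert.1 hq with rfl | hq
      · rw [gz x (closedBall_subset_closedBall (min_le_right _ _) hx), mul_zero]
      · rw [fz q hq x (closedBall_subset_closedBall (min_le_left _ _) hx), zero_mul]
    · show f x * g x = 1
      rw [fo x fun q hq => hx q (Finset.mem_insert_of_mem hq),
        go x (hx p (Finset.mem_insert_self _ _)), mul_one]
    · have h1 : ∀ x, ENNReal.ofReal (‖grad (fun x => f x * g x) x‖ ^ 2) ≤
          2 * ENNReal.ofReal (‖grad f x‖ ^ 2) + 2 * ENNReal.ofReal (‖grad g x‖ ^ 2) := by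
        intro x
        have h2 := pow_le_pow_left₀ (norm_nonneg _) (grad_mul_le hf hg f0 f1 g0 g1 x) 2
        have e : ∀ a : ℝ, 2 * ENNReal.ofReal a = ENNReal.ofReal (2 * a) := fun a => by
          rw [ENNReal.ofReal_mul (by norm_num), ENNReal.ofReal_ofNat]
        rw [e, e, ← ENNReal.ofReal_add (by positivity) (by positivity)]
        refine ENNReal.ofReal_le_ofReal (h2.trans ?_)
        nlinarith [sq_nonneg (‖grad f x‖ - ‖grad g x‖)]
      refine (lintegral_mono h1).trans ?_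
      rw [lintegral_add_left ((meas_sq hf).const_mul 2), lintegral_const_mul _ (meas_sq hf),
        lintegral_const_mul _ (meas_sq hg)]
      refine (add_le_add (mul_le_mul_right (hI μ hμ) _) (mul_le_mul_right (hI' μ hμ) _)).trans
        (le_of_eq ?_)
      rw [← ENNReal.ofReal_ofNat 2, ← ENNReal.ofReal_mul (by norm_num),
        ← ENNReal.ofReal_add (by positivity) (by positivity)]
      congr 1
      ring

theorem exists_eta : ∃ C : ℝ, 0 < C ∧ ∀ s : Finset (E3 × ℝ), (∀ a ∈ s, 0 < a.2) →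
    ∃ η : E3 → ℝ, ContDiff ℝ 1 η ∧ (∀ y, 0 ≤ η y) ∧ (∀ y, η y ≤ 1) ∧
      (∀ a ∈ s, ∀ y ∈ closedBall a.1 a.2, η y = 0) ∧
      (∀ y, (∀ a ∈ s, y ∉ ball a.1 (2 * a.2)) → η y = 1) ∧
      ∀ (μ : Measure E3) (Λ : ℝ), 0 ≤ Λ →
        (∀ a ∈ s, μ (closedBall a.1 (2 * a.2)) ≤ ENNReal.ofReal (Λ * a.2 ^ 2)) →
        ∫⁻ y, ‖grad η y‖ₑ ∂μ ≤ ENNReal.ofReal (C * Λ * ∑ a ∈ s, a.2) := by
  classical
  obtain ⟨C, hC, hb⟩ := exists_bump
  refine ⟨C, hC, fun s => ?_⟩
  induction s using Finset.induction_on with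
  | empty =>
    intro _
    refine ⟨fun _ => 1, contDiff_const, by simp, by simp, by simp, by simp, fun μ _ _ _ => ?_⟩
    simp [grad_zero (f := fun _ => (1 : ℝ)) (a := 1) EventuallyEq.rfl]
  | insert a s ha ih =>
    intro hs
    have ha0 : 0 < a.2 := hs a (Finset.mem_insert_self _ _)
    have hs0 : ∀ b ∈ s, 0 < b.2 := fun b hb => hs b (Finset.mem_insert_of_mem hb)
    obtain ⟨f, hf, f0, f1, fz, fo, hI⟩ := ih hs0
    obtain ⟨g, hg, g0, g1, gz, go, gg⟩ := hb a.1 a.2 ha0
    refine ⟨fun x => f x * g x, hf.mul hg, fun x => mul_nonneg (f0 x) (g0 x),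
      fun x => mul_le_one₀ (f1 x) (g0 x) (g1 x), fun q hq x hx => ?_, fun x hx => ?_,
      fun μ Λ hΛ hμ => ?_⟩
    · show f x * g x = 0
      rcases Finset.mem_insert.1 hq with rfl | hq
      · rw [gz x hx, mul_zero]
      · rw [fz q hq x hx, zero_mul]
    · show f x * g x = 1
      rw [fo x fun q hq => hx q (Finset.mem_insert_of_mem hq),
        go x (not_lt.1 (hx a (Finset.mem_insert_self _ _))), mul_one]
    · have h1 : ∀ x, ‖grad (fun x => f x * g x) x‖ₑ ≤ ‖grad f x‖ₑ +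
          (closedBall a.1 (2 * a.2)).indicator (fun _ => ENNReal.ofReal (C / a.2)) x := by
        intro x
        rw [← ofReal_norm, ← ofReal_norm]
        refine (ENNReal.ofReal_le_ofReal (grad_mul_le hf hg f0 f1 g0 g1 x)).trans ?_
        rw [ENNReal.ofReal_add (norm_nonneg _) (norm_nonneg _)]
        refine add_le_add le_rfl ?_
        have h2 := gg x
        by_cases hx2 : x ∈ closedBall a.1 (2 * a.2)
        · rw [indicator_of_mem hx2] at h2 ⊢
          exact ENNReal.ofReal_le_ofReal h2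
        · rw [indicator_of_notMem hx2] at h2 ⊢
          rw [le_antisymm h2 (norm_nonneg _)]; simp
      refine (lintegral_mono h1).trans ?_
      rw [lintegral_add_left (continuous_grad hf).enorm.measurable,
        lintegral_indicator_const measurableSet_closedBall]
      refine (add_le_add (hI μ Λ hΛ fun b hb => hμ b (Finset.mem_insert_of_mem hb))
        (mul_le_mul_right (hμ a (Finset.mem_insert_self _ _)) _)).trans (le_of_eq ?_)
      have h3 : 0 ≤ ∑ b ∈ s, b.2 := Finset.sum_nonneg fun b hb => (hs0 b hb).le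
      rw [← ENNReal.ofReal_mul (by positivity), ← ENNReal.ofReal_add (by positivity)
        (by positivity), Finset.sum_insert ha]
      congr 1
      field_simp
      ring

end Vale.Agent.P218N.B
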