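import Vale.Agent.P218N.B.Punct
import Vale.Agent.P218N.G.LIGap
import Vale.Agent.P218N.G.Dens

/-! The points which are far from the zero set of the tube function or steep are covered by small
balls, away from finitely many points. -/

open MeasureTheory Set Filter Topology Metric
open scoped ENNReal NNReal RealInnerProductSpace ContDiff

namespace Vale.Agent.P218N.B

open Vale.Agent.P218.H313 Vale.Agent.P218N.H Vale.Agent.P218N.G

namespace OutH

variable {M S : Set E3} {W : E3 → ℝ} {Λ c K R A : ℝ}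

lemma lint_le (hM : B.Good Λ M) (hW : Tube0 W c K)
    (hA : ∫ y in closedBall 0 R, ex (tanP M) (Hv M) W y ∂(mu M) ≤ A) (hS : MeasurableSet S)
    (hSR : S ⊆ closedBall 0 R) {f : E3 → ℝ} {D : ℝ} (hD : 0 ≤ D)
    (hf : ∀ x ∈ S, x ∈ M → f x ≤ D * ex (tanP M) (Hv M) W x) :
    ∫⁻ x in S, ENNReal.ofReal (f x) ∂(mu M) ≤ ENNReal.ofReal (D * A) := by
  have hi := (ex_integrableOn hM.slice (hW.smooth.of_le (by norm_num))
    (isCompact_closedBall (0 : E3) R)).const_mul D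
  calc _ ≤ ∫⁻ x in S, ENNReal.ofReal (D * ex (tanP M) (Hv M) W x) ∂(mu M) :=
        setLIntegral_mono_ae' hS ((ae_restrict_mem hM.surf.measurableSet).mono fun x hx h =>
          ENNReal.ofReal_le_ofReal (hf x h hx))
    _ ≤ ∫⁻ x in closedBall 0 R, ENNReal.ofReal (D * ex (tanP M) (Hv M) W x) ∂(mu M) :=
        lintegral_mono_set hSR
    _ ≤ _ := by
        rw [← ofReal_integral_eq_lintegral_ofReal hi
          (Eventually.of_forall fun x => mul_nonneg hD (ex_nonneg x)), integral_const_mul]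
        exact ENNReal.ofReal_le_ofReal (mul_le_mul_of_nonneg_left hA hD)

lemma Hv_le (hM : Surf M) {x : E3} (hx : x ∈ M) (hR : x ∈ closedBall (0 : E3) R) :
    ‖Hv M x‖ ^ 2 ≤ 2 * ex (tanP M) (Hv M) W x + R ^ 2 / 2 := by
  have h1 := norm_Hv_sq_le hM hx
  have h2 := pow_le_pow_left₀ (norm_nonneg x) (mem_closedBall_zero_iff.1 hR) 2
  have h3 : 0 ≤ (1 + ‖x‖ ^ 2) * tg (tanP M) W x ^ 2 := by positivity
  unfold ex xs
  unfold velM at h1
  nlinarith [sq_nonneg (W x)]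

/-- Chebyshev -/
lemma small (hM : B.Good Λ M) (hW : Tube0 W c K)
    (hA : ∫ y in closedBall 0 R, ex (tanP M) (Hv M) W y ∂(mu M) ≤ A) (hS : MeasurableSet S)
    (hSR : S ⊆ closedBall 0 R) {a : ℝ} (ha : 0 < a)
    (hf : ∀ x ∈ S, x ∈ M → a ≤ ex (tanP M) (Hv M) W x) :
    mu M S ≤ ENNReal.ofReal ((2 + (1 + R ^ 2) / a) * A) ∧
      Hn M S ≤ ENNReal.ofReal ((2 + (1 + R ^ 2) / a) * A) := by
  have h1 : ∀ x ∈ S, x ∈ M → 1 + R ^ 2 ≤ (1 + R ^ 2) / a * ex (tanP M) (Hv M) W x := by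
    intro x h2 h3
    rw [div_mul_eq_mul_div, le_div_iff₀ ha]
    exact mul_le_mul_of_nonneg_left (hf x h2 h3) (by positivity)
  constructor
  · have h2 := lint_le hM hW hA hS hSR (f := fun _ => 1) (D := 2 + (1 + R ^ 2) / a)
      (by positivity) fun x h2 h3 => by
        nlinarith [h1 x h2 h3, ex_nonneg (T := tanP M) (H := Hv M) (W := W) x, sq_nonneg R]
    rwa [ENNReal.ofReal_one, setLIntegral_one] at h2
  · exact lint_le hM hW hA hS hSR (by positivity) fun x h2 h3 => by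
      nlinarith [h1 x h2 h3, Hv_le (W := W) hM.surf h3 (hSR h2), sq_nonneg R]

lemma mass_bd (Λ R : ℝ) : ∃ Y : ℝ≥0∞, Y ≠ ⊤ ∧ ∀ M, B.Good Λ M → mu M (closedBall 0 R) ≤ Y := by
  obtain ⟨t, -, ht, hc⟩ := finite_cover_balls_of_compact (isCompact_closedBall (0 : E3) R) one_pos
  lift t to Finset E3 using ht
  refine ⟨∑ _x ∈ t, ENNReal.ofReal (Λ * 1 ^ 2),
    ENNReal.sum_ne_top.2 fun _ _ => ENNReal.ofReal_ne_top, fun M hM => ?_⟩
  refine (measure_mono hc).trans ((measure_biUnion_finset_le t _).trans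
    (Finset.sum_le_sum fun x _ => ?_))
  exact (measure_mono ball_subset_closedBall).trans (hM.ratio x 1 one_pos le_rfl)

lemma energy_bd (Λ b R : ℝ) : ∃ C : ℝ, ∀ (M : Set E3) (W : E3 → ℝ), B.Good Λ M → EB b M →
    Tube0 W c K →
    ∫ y in closedBall 0 (2 * max R 1), ex (tanP M) (Hv M) W y ∂(mu M) ≤ 1 →
    En M (ball 0 R) ≤ ENNReal.ofReal C := by
  obtain ⟨Y, hY, h⟩ := mass_bd Λ (2 * max R 1)
  have hr : 0 < max R 1 := lt_max_of_lt_right one_pos
  have hR : R ≤ max R 1 := le_max_left _ _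
  generalize max R 1 = r at h hr hR ⊢
  refine ⟨(ENNReal.ofReal b * (ENNReal.ofReal (2 * 1) + ENNReal.ofReal ((2 * r) ^ 2 / 2) * Y +
    ENNReal.ofReal (r ^ 2)⁻¹ * Y + 1)).toReal, fun M W hM hE hW hA => ?_⟩
  rw [ENNReal.ofReal_toReal (by finiteness)]
  have h1 : mu M (ball 0 (2 * r)) ≤ Y := (measure_mono ball_subset_closedBall).trans (h M hM)
  have h2 := lint_le hM hW hA measurableSet_ball ball_subset_closedBall
    (f := fun x => ‖Hv M x‖ ^ 2 - (2 * r) ^ 2 / 2) zero_le_two fun x h2 h3 => by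
      linarith [Hv_le (W := W) hM.surf h3 (ball_subset_closedBall h2)]
  have h3 : Hn M (ball 0 (2 * r)) ≤
      ENNReal.ofReal (2 * 1) + ENNReal.ofReal ((2 * r) ^ 2 / 2) * Y := by
    calc _ ≤ ∫⁻ x in ball 0 (2 * r), (ENNReal.ofReal (‖Hv M x‖ ^ 2 - (2 * r) ^ 2 / 2) +
          ENNReal.ofReal ((2 * r) ^ 2 / 2)) ∂(mu M) :=
          lintegral_mono fun x => le_of_eq_of_le (by rw [sub_add_cancel]) ENNReal.ofReal_add_le
      _ ≤ _ := by
          rw [lintegral_add_right _ measurable_const, setLIntegral_const]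
          gcongr
  refine (En_mono (ball_subset_ball hR)).trans ((hE 0 r hr).trans ?_)
  gcongr

lemma tilt (hM : Surf M) {x : E3} (hx : x ∈ M) {g e : E3} (he : ‖e‖ = 1) (h : ‖g - e‖ ≤ 1 / 100) :
    (|⟪nu M x, e⟫| < 97 / 100 → 1 / 30 ≤ ‖PT M x g‖ ^ 2) ∧
      (1 / 8 ≤ ‖PT M x g‖ ^ 2 → |⟪nu M x, e⟫| ≤ 95 / 100) := by
  have h1 := norm_perp_sq (hM.norm_nu hx) e
  have h2 := norm_perp_sq (hM.norm_nu hx) (g - e)
  rw [← PT_def, he, ← sq_abs ⟪nu M x, e⟫] at h1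
  rw [← PT_def, map_sub] at h2
  have h3 : ‖PT M x g - PT M x e‖ ≤ 1 / 100 :=
    le_of_sq_le_sq (by nlinarith [sq_nonneg ⟪nu M x, g - e⟫, norm_nonneg (g - e)]) (by norm_num)
  have h4 := abs_le.1 ((abs_norm_sub_norm_le _ _).trans h3)
  have h5 := abs_nonneg ⟪nu M x, e⟫
  have h6 := norm_nonneg (PT M x g)
  have h7 := norm_nonneg (PT M x e)
  constructor
  · intro h8
    have h9 : 24 / 100 ≤ ‖PT M x e‖ := le_of_sq_le_sq (by nlinarith) h7
    nlinarith [h4.1]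
  · intro h8
    have h9 : 35 / 100 ≤ ‖PT M x g‖ := le_of_sq_le_sq (by nlinarith) h6
    exact le_of_sq_le_sq (by nlinarith [h4.2]) (by norm_num)

end OutH

open OutH in
theorem exists_holes (h1 : CovLocStmt) (h2 : CovLidStmt) {ι : Type} (U : Ultrafilter ι)
    (M : ι → Set E3) (Wi : ι → E3 → ℝ) (W : E3 → ℝ) (e : ι → ℝ) {Λ c K b : ℝ} (hΛ : 0 < Λ)
    (hM : ∀ᶠ i in (U : Filter ι), B.Good Λ (M i) ∧ EB b (M i)) (hW : Tube0 W c K)
    (hWi : ∀ᶠ i in (U : Filter ι), Tube0 (Wi i) c K) (hlim : C2Lim (U : Filter ι) Wi W)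
    (he : Tendsto e U (𝓝 0))
    (hex : ∀ R : ℝ, ∃ C : ℝ, ∀ᶠ i in (U : Filter ι), ∫ y in closedBall 0 R,
      ex (tanP (M i)) (Hv (M i)) (Wi i) y ∂(mu (M i)) ≤ C * e i ^ 2) (R : ℝ) :
    ∃ P : Finset E3, ∀ t : ℝ, 0 < t → ∃ C : ℝ, ∀ᶠ i in (U : Filter ι),
      Cov {x | x ∈ M i ∧ ‖x‖ ≤ R ∧ (t ≤ |Wi i x| ∨ ((∀ p ∈ P, t ≤ dist x p) ∧
        1 / 8 ≤ ‖PT (M i) x (grad (Wi i) x)‖ ^ 2))} (C * e i ^ 2) := by
  have hK := hW.K_nonneg
  have he2 : ∀ C a : ℝ, 0 < a → ∀ᶠ i in (U : Filter ι), C * e i ^ 2 ≤ a := fun C a ha =>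
    ((he.pow 2).const_mul C).eventually (ge_mem_nhds (by simpa using ha))
  have hEn : ∀ R : ℝ, ∃ C : ℝ, ∀ᶠ i in (U : Filter ι),
      En (M i) (ball 0 R) ≤ ENNReal.ofReal C := fun R => by
    obtain ⟨C, hC⟩ := energy_bd (c := c) (K := K) Λ b R
    obtain ⟨C', hC'⟩ := hex (2 * max R 1)
    refine ⟨C, ?_⟩
    filter_upwards [hM, hWi, hC', he2 C' 1 one_pos] with i a1 a2 a3 a4
    exact hC _ _ a1.1 a1.2 a2 (a3.trans a4)
  obtain ⟨ε₀, hε₀, hloc⟩ := h1 Λ (95 / 100) (97 / 100) hΛ (by norm_num) (by norm_num)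
  choose r₁ hr₁ hp₁ using fun p => exists_punct U M hEn p hε₀
  obtain ⟨r, hr0, hr1, hr2⟩ : ∃ r : E3 → ℝ, (∀ p, 0 < r p) ∧ (∀ p, 2 * r p ≤ r₁ p) ∧
      ∀ p, (K + 1) * (2 * r p) ≤ 1 / 200 := by
    refine ⟨fun p => min (r₁ p / 2) (1 / (400 * (K + 1))),
      fun p => lt_min (half_pos (hr₁ p)) (by positivity),
      fun p => by linarith [min_le_left (r₁ p / 2) (1 / (400 * (K + 1)))], fun p => ?_⟩
    have h3 := (le_div_iff₀ (by positivity)).1 (min_le_right (r₁ p / 2) (1 / (400 * (K + 1))))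
    linarith
  obtain ⟨P, hP, hcov⟩ := ((isCompact_closedBall (0 : E3) R).inter_left hW.isClosed).elim_nhds_subcover
    (fun p => ball p (r p)) fun p _ => ball_mem_nhds p (hr0 p)
  obtain ⟨δ, hδ0, hδ⟩ := ((isCompact_closedBall (0 : E3) R).diff
    (isOpen_biUnion fun p (_ : p ∈ P) => isOpen_ball (x := p) (ε := r p))).exists_forall_le'
    hW.cont.abs.continuousOn (a := 0) fun x hx => abs_pos.2 fun h => hx.2 (hcov ⟨h, hx.1⟩)
  refine ⟨P, fun t ht => ?_⟩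
  obtain ⟨s, hs0, ⟨hst, hsδ⟩, hsr⟩ := exists_small (((gt_mem_nhds ht).and (gt_mem_nhds hδ0)).and
    ((eventually_all_finset P).2 fun p _ => gt_mem_nhds (hr0 p)))
  choose! Cp ap hCp hap hl using fun p (hp : p ∈ P) => hloc (r p) s hs0 (hsr p hp)
  obtain ⟨C₁, a₁, -, ha₁, hlid⟩ := h2 Λ (closedBall 0 R ∩ {x | s / 2 ≤ |W x|})
    (ball 0 (R + 1) ∩ {x | s / 4 < |W x|}) hΛ
    ((isCompact_closedBall _ _).inter_right (isClosed_le continuous_const hW.cont.abs))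
    (isOpen_ball.inter (isOpen_lt continuous_const hW.cont.abs)) fun x hx =>
      ⟨closedBall_subset_ball (lt_add_one R) hx.1, lt_of_lt_of_le (show s / 4 < s / 2 by linarith) hx.2⟩
  obtain ⟨C₀, hC₀⟩ := hex (R + 1)
  have ha : 0 < min (1 / 30) ((s / 8) ^ 2) := lt_min (by norm_num) (by positivity)
  set D := 2 + (1 + (R + 1) ^ 2) / min (1 / 30) ((s / 8) ^ 2) with hD
  refine ⟨(C₁ + ∑ p ∈ P, Cp p) * (D * C₀), ?_⟩
  filter_upwards [hM, hWi, hC₀, hlim (R + 1) _ (lt_min (show (0 : ℝ) < 1 / 200 by norm_num)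
    (show 0 < s / 8 by positivity)), he2 (D * C₀) a₁ ha₁,
    (eventually_all_finset P).2 fun p hp => he2 (D * C₀) _ (hap p hp),
    (eventually_all_finset P).2 fun p _ => hp₁ p _ (half_pos hs0)] with i a1 a2 a3 a4 a5 a6 a7
  have b0 : 0 ≤ D * C₀ * e i ^ 2 := by
    rw [mul_assoc]
    exact mul_nonneg (by positivity) ((integral_nonneg fun x => ex_nonneg x).trans a3)
  have b1 : ∀ x : E3, ‖x‖ ≤ R + 1 → |W x| - s / 8 ≤ |Wi i x| ∧ |Wi i x| ≤ |W x| + s / 8 := by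
    intro x hx
    have h3 := abs_le.1 ((abs_abs_sub_abs_le_abs_sub _ _).trans
      ((a4 x hx).1.trans (min_le_right _ _)))
    exact ⟨by linarith [h3.1], by linarith [h3.2]⟩
  have b2 : ∀ p ∈ P, ∀ x ∈ ball p (2 * r p),
      ‖x‖ ≤ R + 1 ∧ ‖grad (Wi i) x - grad W p‖ ≤ 1 / 100 := by
    intro p hp x hx
    have h3 := mem_ball_iff_norm.1 hx
    have h4 := mem_closedBall_zero_iff.1 (hP p hp).2
    have h5 := hr2 p
    have h6 : ‖x‖ ≤ R + 1 := by
      nlinarith [norm_le_norm_add_norm_sub' x p, mul_nonneg hK (hr0 p).le]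
    refine ⟨h6, (norm_sub_le_norm_sub_add_norm_sub _ (grad W x) _).trans ?_⟩
    nlinarith [(a4 x h6).2.1.trans (min_le_left _ _), hW.grad_lip p x,
      mul_le_mul_of_nonneg_left h3.le hK, hr0 p]
  have b3 : ∀ p ∈ P, ‖grad W p‖ = 1 := fun p hp =>
    hW.eik p (by rw [show W p = 0 from (hP p hp).1, abs_zero]; exact hW.cpos)
  have c1 := small a1.1 a2 a3 (S := ball 0 (R + 1) ∩ {x | s / 4 < |W x|})
    (isOpen_ball.inter (isOpen_lt continuous_const hW.cont.abs)).measurableSet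
    (inter_subset_left.trans ball_subset_closedBall) ha fun x hx _ => by
      have h3 := (b1 x (mem_ball_zero_iff.1 hx.1).le).1
      have h4 : s / 4 < |W x| := hx.2
      have h5 : (s / 8) ^ 2 ≤ |Wi i x| ^ 2 := pow_le_pow_left₀ (by positivity) (by linarith) 2
      rw [sq_abs] at h5
      exact (min_le_right _ _).trans (h5.trans (le_add_of_nonneg_right (xs_nonneg x)))
  rw [← hD, ← mul_assoc] at c1
  have c2 := fun p (hp : p ∈ P) => small a1.1 a2 a3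
    (S := (ball p (2 * r p) \ closedBall p (s / 2)) ∩ band (M i) (grad W p) (97 / 100))
    ((measurableSet_ball.diff measurableSet_closedBall).inter (measurableSet_band a1.1.surf _ _))
    (fun x hx => mem_closedBall_zero_iff.2 (b2 p hp x hx.1.1).1) ha fun x hx hxM => by
      have h3 := (tilt a1.1.surf hxM (b3 p hp) (b2 p hp x hx.1.1).2).1 hx.2.2
      rw [← a1.1.surf.proj_tanP hxM] at h3
      exact (min_le_left _ _).trans (h3.trans ((tg_sq_le x).trans (xs_le_ex x)))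
  simp only [← hD, ← mul_assoc] at c2
  refine ((hlid _ _ a1.1 b0 a5 c1.1 c1.2).union (Cov.biUnion P fun p hp =>
    hl p hp _ p _ _ a1.1 (b3 p hp) b0 (a6 p hp)
      ((En_mono (sdiff_subset_sdiff_left (ball_subset_ball (hr1 p)))).trans (a7 p hp))
      (c2 p hp).1 (c2 p hp).2)).mono (fun x hx => ?_) (le_of_eq ?_)
  · obtain ⟨x1, x2, x3⟩ := hx
    rcases le_or_gt (s / 2) |W x| with h3 | h3
    · exact Or.inl ⟨x1, mem_closedBall_zero_iff.2 x2, h3⟩
    · have h4 := (b1 x (by linarith)).2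
      obtain ⟨x4, x5⟩ := x3.resolve_left (not_le.2 (by linarith))
      have h5 : x ∈ ⋃ p ∈ P, ball p (r p) := by
        by_contra h5
        linarith [hδ x ⟨mem_closedBall_zero_iff.2 x2, h5⟩]
      obtain ⟨p, hp, h6⟩ := mem_iUnion₂.1 h5
      refine Or.inr (mem_iUnion₂.2 ⟨p, hp, ⟨ball_subset_closedBall h6, fun h7 => ?_⟩, x1, ?_⟩)
      · linarith [x4 p hp, mem_ball.1 h7]
      · exact (tilt a1.1.surf x1 (b3 p hp)
          (b2 p hp x (ball_subset_ball (by linarith [hr0 p]) h6)).2).2 x5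
  · rw [← Finset.sum_mul]
    ring

end Vale.Agent.P218N.B
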