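import Vale.Agent.P218N.B.Glue
import Vale.Agent.P218N.G.LITube

/-! The top sheet of a surface in a tube: it is locally constant where the normal segments are
transversal to the surface. -/

open MeasureTheory Set Filter Topology Metric
open scoped ENNReal NNReal RealInnerProductSpace ContDiff

namespace Vale.Agent.P218N.B

open Vale.Agent.P218.H313 Vale.Agent.P218N.H Vale.Agent.P218N.G

set_option linter.unusedSectionVars false
set_option linter.unusedVariables false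

variable {E : Type*} [NormedAddCommGroup E] [InnerProductSpace ℝ E] [FiniteDimensional ℝ E]
  [MeasurableSpace E] [BorelSpace E]
variable {W : E → ℝ} {c K h : ℝ} {M : Set E}

/-- the gradient lines of a tube function are straight -/
lemma tube_line (hW : Tube0 W c K) {x : E} {s : ℝ} (hx : |W x| + K * |s| < c) :
    grad W (x + s • grad W x) = grad W x ∧ W (x + s • grad W x) = W x + s := by
  have hK := hW.K_nonneg
  have hs0 := abs_nonneg s
  have hyc : |W x| < c := by nlinarith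
  set ν := grad W x with hν
  have hν1 : ‖ν‖ = 1 := hW.eik x hyc
  let γ : ℝ → E := fun τ => x + (τ * s) • ν
  have hγ : ∀ τ, HasDerivAt γ (s • ν) τ := fun τ => by
    have := (((hasDerivAt_id τ).mul_const s).smul_const ν).const_add x
    rwa [one_mul] at this
  have hin : ∀ τ ∈ Icc (0:ℝ) 1, |W (γ τ)| < c := by
    intro τ hτ
    have h1 := hW.li_lip x (γ τ)
    have h2 : ‖γ τ - x‖ ≤ |s| := by
      simp only [γ]
      rw [add_sub_cancel_left, norm_smul, hν1, mul_one, Real.norm_eq_abs, abs_mul,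
        abs_of_nonneg hτ.1]
      exact mul_le_of_le_one_left hs0 hτ.2
    have h3 := abs_sub_abs_le_abs_sub (W (γ τ)) (W x)
    have h4 : K * ‖γ τ - x‖ ≤ K * |s| := by gcongr
    linarith
  let u : ℝ → E := fun τ => grad W (γ τ) - ν
  have hu : ∀ τ, HasDerivAt u (fderiv ℝ (grad W) (γ τ) (s • ν)) τ := fun τ =>
    ((hW.li_gdiff (γ τ)).hasFDerivAt.comp_hasDerivAt τ (hγ τ)).sub_const ν
  have hz : ∀ τ ∈ Icc (0:ℝ) 1, u τ = 0 := by
    intro τ hτ
    have h := norm_le_gronwallBound_of_norm_deriv_right_le (f := u)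
      (f' := fun τ => fderiv ℝ (grad W) (γ τ) (s • ν)) (δ := 0) (K := |s| * K) (ε := 0)
      (a := 0) (b := 1) (fun τ _ => (hu τ).continuousAt.continuousWithinAt)
      (fun τ _ => (hu τ).hasDerivWithinAt) (by simp [u, γ, hν]) (fun τ hτ => ?_) τ hτ
    · rw [gronwallBound_ε0_δ0] at h
      exact norm_le_zero_iff.1 h
    · have h1 := hW.hess_grad (hin τ ⟨hτ.1, hτ.2.le⟩)
      have h2 : fderiv ℝ (grad W) (γ τ) (s • ν) = (-s) • fderiv ℝ (grad W) (γ τ) (u τ) := by
        simp only [u]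
        rw [map_sub, h1, map_smul, zero_sub, smul_neg, neg_smul, neg_neg]
      rw [h2, norm_smul, Real.norm_eq_abs, abs_neg, add_zero, mul_assoc]
      gcongr
      exact ((fderiv ℝ (grad W) (γ τ)).le_opNorm _).trans
        (mul_le_mul_of_nonneg_right (hW.b2 _) (norm_nonneg _))
  have hφ : ∀ τ ∈ Icc (0:ℝ) 1, HasDerivAt (fun τ => W (γ τ) - τ * s) 0 τ := by
    intro τ hτ
    have h1 := ((hW.diff (γ τ)).hasFDerivAt.comp_hasDerivAt τ (hγ τ)).sub
      ((hasDerivAt_id τ).mul_const s)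
    refine h1.congr_deriv ?_
    have h2 : grad W (γ τ) = ν := sub_eq_zero.1 (hz τ hτ)
    rw [← inner_grad, h2, real_inner_smul_right, real_inner_self_eq_norm_sq, hν1]
    ring
  have h3 := constant_of_has_deriv_right_zero (f := fun τ => W (γ τ) - τ * s) (a := 0) (b := 1)
    (fun τ hτ => (hφ τ hτ).continuousAt.continuousWithinAt)
    (fun τ hτ => (hφ τ ⟨hτ.1, hτ.2.le⟩).hasDerivWithinAt) 1 ⟨zero_le_one, le_rfl⟩
  have h4 := hz 1 ⟨zero_le_one, le_rfl⟩
  simp only [u, γ, one_mul, zero_mul, zero_smul, sub_zero, add_zero] at h3 h4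
  exact ⟨sub_eq_zero.1 h4, by linarith⟩

/-- the point of height `t` on the normal line through `x` -/
noncomputable def pt (W : E → ℝ) (x : E) (t : ℝ) : E := foot W x + t • grad W x

lemma pt_eq (W : E → ℝ) (x : E) (t : ℝ) : pt W x t = x + (t - W x) • grad W x := by
  unfold pt foot
  rw [sub_smul]; abel

lemma pt_self (W : E → ℝ) (x : E) : pt W x (W x) = x := by simp [pt_eq]

lemma continuous_pt (hW : Tube0 W c K) : Continuous fun q : E × ℝ => pt W q.1 q.2 :=
  (hW.contDiff_foot.continuous.comp continuous_fst).add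
    (continuous_snd.smul (hW.grad_cd.continuous.comp continuous_fst))

lemma pt_spec (hW : Tube0 W c K) (hh : h * (1 + 2 * K) < c) {x : E} {t : ℝ} (hx : |W x| ≤ h)
    (ht : |t| ≤ h) : grad W (pt W x t) = grad W x ∧ W (pt W x t) = t := by
  have hK := hW.K_nonneg
  have h1 : |t - W x| ≤ 2 * h := by
    have := abs_sub t (W x)
    linarith
  have h2 : K * |t - W x| ≤ K * (2 * h) := by gcongr
  have h3 := tube_line hW (x := x) (s := t - W x) (by linarith)
  rw [← pt_eq] at h3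
  exact ⟨h3.1, by rw [h3.2]; ring⟩

lemma foot_pt (hW : Tube0 W c K) (hh : h * (1 + 2 * K) < c) {x : E} {t : ℝ} (hx : |W x| ≤ h)
    (ht : |t| ≤ h) : foot W (pt W x t) = foot W x := by
  obtain ⟨h1, h2⟩ := pt_spec hW hh hx ht
  conv_lhs => unfold foot
  rw [h1, h2, pt, add_sub_cancel_right]

lemma pt_pt (hW : Tube0 W c K) (hh : h * (1 + 2 * K) < c) {x : E} {t : ℝ} (hx : |W x| ≤ h)
    (ht : |t| ≤ h) (s : ℝ) : pt W (pt W x t) s = pt W x s := by
  change foot W (pt W x t) + s • grad W (pt W x t) = foot W x + s • grad W x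
  rw [foot_pt hW hh hx ht, (pt_spec hW hh hx ht).1]

lemma grad_foot (hW : Tube0 W c K) (hh : h * (1 + 2 * K) < c) {x : E} (hx : |W x| ≤ h) :
    grad W (foot W x) = grad W x := by
  have h1 := (pt_spec hW hh hx (t := 0) (by simpa using (abs_nonneg _).trans hx)).1
  rwa [pt, zero_smul, add_zero] at h1

lemma eq_pt (hW : Tube0 W c K) (hh : h * (1 + 2 * K) < c) {x x' : E} (hx : |W x| ≤ h)
    (hx' : |W x'| ≤ h) (e : foot W x' = foot W x) : x' = pt W x (W x') := by
  have h1 : grad W x' = grad W x := by rw [← grad_foot hW hh hx', e, grad_foot hW hh hx]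
  rw [pt, ← e, ← h1, ← pt, pt_self]

lemma lt_c (hW : Tube0 W c K) (hh : h * (1 + 2 * K) < c) {x : E} (hx : |W x| ≤ h) :
    |W x| < c := by
  have hK := hW.K_nonneg
  have h0 : 0 ≤ h := (abs_nonneg _).trans hx
  nlinarith

lemma norm_pt_sub (hW : Tube0 W c K) (hh : h * (1 + 2 * K) < c) {x : E} (hx : |W x| ≤ h) (t : ℝ) :
    ‖pt W x t - x‖ = |t - W x| := by
  rw [pt_eq, add_sub_cancel_left, norm_smul, hW.eik x (lt_c hW hh hx), mul_one, Real.norm_eq_abs]

/-- a parametrised family of functions with a simple zero -/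
lemma zero_local {X : Type*} [TopologicalSpace X] {F D : X → ℝ → ℝ} {P : X → ℝ → Prop} {x : X}
    {t₀ : ℝ} (hF : ∀ t, Continuous fun y => F y t) (hder : ∀ y t, HasDerivAt (F y) (D y t) t)
    (h0 : F x t₀ = 0) (h1 : ∀ᶠ q in 𝓝 (x, t₀), 0 < D q.1 q.2 ∧ (P q.1 q.2 ↔ F q.1 q.2 = 0)) :
    ∀ᶠ a in 𝓝[>] (0 : ℝ), ∀ᶠ y in 𝓝 x, (∃ t ∈ Icc (t₀ - a) (t₀ + a), P y t) ∧
      ∀ t ∈ Icc (t₀ - a) (t₀ + a), ∀ t' ∈ Icc (t₀ - a) (t₀ + a), P y t → P y t' → t = t' := by
  rw [nhds_prod_eq] at h1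
  obtain ⟨pa, hpa, pb, hpb, h2⟩ := eventually_prod_iff.1 h1
  obtain ⟨a₀, ha₀, hb⟩ := Metric.eventually_nhds_iff.1 hpb
  filter_upwards [Ioo_mem_nhdsGT ha₀] with a ha
  have hI : ∀ t ∈ Icc (t₀ - a) (t₀ + a), pb t := fun t ht => hb (by
    rw [Real.dist_eq, abs_lt]
    constructor <;> linarith [ht.1, ht.2, ha.2])
  have hmono : ∀ y, pa y → StrictMonoOn (F y) (Icc (t₀ - a) (t₀ + a)) := fun y hy =>
    strictMonoOn_of_deriv_pos (convex_Icc _ _)
      (fun t _ => (hder y t).continuousAt.continuousWithinAt) fun t ht => by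
        rw [(hder y t).deriv]
        exact (h2 hy (hI t (interior_subset ht))).1
  have m0 : t₀ ∈ Icc (t₀ - a) (t₀ + a) := ⟨by linarith [ha.1], by linarith [ha.1]⟩
  have m1 : t₀ - a ∈ Icc (t₀ - a) (t₀ + a) := ⟨le_rfl, by linarith [ha.1]⟩
  have m2 : t₀ + a ∈ Icc (t₀ - a) (t₀ + a) := ⟨by linarith [ha.1], le_rfl⟩
  have hl : F x (t₀ - a) < 0 :=
    (hmono x hpa.self_of_nhds m1 m0 (by linarith [ha.1])).trans_eq h0
  have hr : 0 < F x (t₀ + a) :=
    h0.symm.trans_lt (hmono x hpa.self_of_nhds m0 m2 (by linarith [ha.1]))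
  filter_upwards [hpa, (hF _).continuousAt.eventually (gt_mem_nhds hl),
    (hF _).continuousAt.eventually (lt_mem_nhds hr)] with y hy h3 h4
  have hiff : ∀ t ∈ Icc (t₀ - a) (t₀ + a), P y t ↔ F y t = 0 := fun t ht => (h2 hy (hI t ht)).2
  refine ⟨?_, fun t ht t' ht' h5 h6 => (hmono y hy).injOn ht ht' ?_⟩
  · obtain ⟨t, ht, h5⟩ := intermediate_value_Icc (f := F y) m1.2
      (fun t _ => (hder y t).continuousAt.continuousWithinAt) ⟨h3.le, h4.le⟩
    exact ⟨t, ht, (hiff t ht).2 h5⟩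
  · rw [(hiff t ht).1 h5, (hiff t' ht').1 h6]

/-- near a transversal intersection the normal lines meet the surface exactly once -/
lemma fib_local (hW : Tube0 W c K) (hM : Surf M) {x : E} {t₀ : ℝ} (hx : pt W x t₀ ∈ M)
    (ht : ⟪nu M (pt W x t₀), grad W x⟫ ≠ 0) : ∀ᶠ a in 𝓝[>] (0 : ℝ), ∀ᶠ y in 𝓝 x,
      (∃ t ∈ Icc (t₀ - a) (t₀ + a), pt W y t ∈ M) ∧
      ∀ t ∈ Icc (t₀ - a) (t₀ + a), ∀ t' ∈ Icc (t₀ - a) (t₀ + a), pt W y t ∈ M → pt W y t' ∈ M →
        t = t' := by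
  obtain ⟨U, hU, hw⟩ := hM.dfn_spec hx
  have hne : ⟪grad (dfn M (pt W x t₀)) (pt W x t₀), grad W x⟫ ≠ 0 := by
    intro h0
    apply ht
    rw [nu, nuW, real_inner_smul_left, h0, mul_zero]
  generalize dfn M (pt W x t₀) = w at hw hne
  have hw1 : ContDiff ℝ 1 w := contDiff_one' hw.smooth
  obtain ⟨σ, hσ⟩ : ∃ σ, σ = ⟪grad w (pt W x t₀), grad W x⟫ := ⟨_, rfl⟩
  have hσ0 : σ ≠ 0 := hσ ▸ hne
  have hc := continuous_pt hW
  have hDc : Continuous fun q : E × ℝ => σ * ⟪grad w (pt W q.1 q.2), grad W q.1⟫ :=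
    continuous_const.mul (((continuous_grad hw1).comp hc).inner
      (hW.grad_cd.continuous.comp continuous_fst))
  refine zero_local (F := fun y t => σ * w (pt W y t))
    (D := fun y t => σ * ⟪grad w (pt W y t), grad W y⟫) (P := fun y t => pt W y t ∈ M)
    (fun t => continuous_const.mul (hw1.continuous.comp
      (hc.comp (continuous_id.prodMk continuous_const)))) (fun y t => ?_) ?_ ?_
  · have h1 : HasDerivAt (pt W y) (grad W y) t := by
      have := ((hasDerivAt_id t).smul_const (grad W y)).const_add (foot W y)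
      rwa [one_smul] at this
    have h2 := ((hw1.differentiable one_ne_zero _).hasFDerivAt.comp_hasDerivAt t h1).const_mul σ
    rw [← inner_grad] at h2
    exact h2
  · rw [hw.zero hU hx, mul_zero]
  · have h1 : 0 < σ * ⟪grad w (pt W x t₀), grad W x⟫ := by
      rw [← hσ]; exact mul_self_pos.2 hσ0
    filter_upwards [(hDc.continuousAt (x := (x, t₀))).eventually (lt_mem_nhds h1),
      (hc.continuousAt (x := (x, t₀))).eventually (hw.isOpen.mem_nhds hU)] with q h2 h3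
    refine ⟨h2, ?_⟩
    rw [hw.mem_iff _ h3, mul_eq_zero, or_iff_right hσ0]

/-- the highest points of `M` on the normal segments -/
def top (M : Set E) (W : E → ℝ) (h : ℝ) : Set E :=
  {x | x ∈ M ∧ |W x| ≤ h ∧ ∀ t, W x < t → t ≤ h → pt W x t ∉ M}

/-- the normal segment through `x` meets `M` transversally and not at the ends -/
def Clean (M : Set E) (W : E → ℝ) (h : ℝ) (x : E) : Prop :=
  |W x| < h ∧ ∀ t, |t| ≤ h → pt W x t ∈ M → |t| < h ∧ ⟪nu M (pt W x t), grad W x⟫ ≠ 0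

lemma top_local (hW : Tube0 W c K) (hM : Surf M) (hc : IsClosed M) {x : E} (hx : x ∈ M)
    (hcl : Clean M W h x) : ∀ᶠ y in 𝓝[M] x, (y ∈ top M W h ↔ x ∈ top M W h) := by
  have hWc := hW.cont
  have e1 : ∀ᶠ y in 𝓝 x, |W y| < h := hWc.abs.continuousAt.eventually (gt_mem_nhds hcl.1)
  by_cases ht : x ∈ top M W h
  · have h0 := (hcl.2 (W x) hcl.1.le (by rwa [pt_self])).2
    obtain ⟨a, h1, ha⟩ := ((fib_local hW hM (by rwa [pt_self]) h0).and self_mem_nhdsWithin).exists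
    have ha : 0 < a := ha
    have e2 : ∀ᶠ y in 𝓝 x, |W y - W x| < a :=
      (hWc.sub continuous_const).abs.continuousAt.eventually (gt_mem_nhds (by simpa using ha))
    have e3 : ∀ᶠ y in 𝓝 x, ∀ t ∈ Icc (W x + a) h, pt W y t ∉ M :=
      isCompact_Icc.eventually_forall_of_forall_eventually fun t ht' =>
        ((continuous_pt hW).continuousAt (x := (x, t))).eventually (hc.isOpen_compl.mem_nhds
          (ht.2.2 t (by linarith [ht'.1]) ht'.2))
    filter_upwards [self_mem_nhdsWithin, mem_nhdsWithin_of_mem_nhds (h1.and (e1.and (e2.and e3)))]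
      with y hy ⟨h2, h3, h4, h5⟩
    refine ⟨fun _ => ht, fun _ => ⟨hy, h3.le, fun t h6 h7 h8 => ?_⟩⟩
    rw [abs_lt] at h4
    by_cases h9 : t ≤ W x + a
    · exact h6.ne (h2.2 (W y) ⟨by linarith, by linarith⟩ t ⟨by linarith, h9⟩ (by rwa [pt_self]) h8)
    · exact h5 t ⟨by linarith, h7⟩ h8
  · have h0 : ∃ t, W x < t ∧ t ≤ h ∧ pt W x t ∈ M := by
      by_contra hcon
      push Not at hcon
      exact ht ⟨hx, hcl.1.le, hcon⟩
    obtain ⟨t₀, h1, h2, h3⟩ := h0
    have h4 := abs_lt.1 hcl.1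
    obtain ⟨h5, h6⟩ := hcl.2 t₀ (abs_le.2 ⟨by linarith, h2⟩) h3
    have h7 := (abs_lt.1 h5).2
    obtain ⟨a, h8, ha⟩ := ((fib_local hW hM h3 h6).and (Ioo_mem_nhdsGT
      (lt_min (sub_pos.2 h7) (half_pos (sub_pos.2 h1))))).exists
    have ha1 := ha.2.trans_le (min_le_left _ _)
    have ha2 := ha.2.trans_le (min_le_right _ _)
    have e2 : ∀ᶠ y in 𝓝 x, W y < W x + a :=
      hWc.continuousAt.eventually (gt_mem_nhds (by linarith [ha.1]))
    filter_upwards [mem_nhdsWithin_of_mem_nhds (h8.and e2)] with y ⟨⟨⟨t, h9, h10⟩, _⟩, h11⟩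
    exact ⟨fun hy => absurd h10 (hy.2.2 t (by linarith [h9.1]) (by linarith [h9.2])),
      fun h => absurd h ht⟩

lemma top_injOn (hW : Tube0 W c K) (hh : h * (1 + 2 * K) < c) : InjOn (foot W) (top M W h) := by
  have key : ∀ x ∈ top M W h, ∀ x' ∈ top M W h, foot W x' = foot W x → W x' ≤ W x := by
    intro x hx x' hx' e
    by_contra hcon
    refine hx.2.2 (W x') (not_le.1 hcon) (abs_le.1 hx'.2.1).2 ?_
    rw [← eq_pt hW hh hx.2.1 hx'.2.1 e]
    exact hx'.1
  intro x hx x' hx' e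
  rw [eq_pt hW hh hx.2.1 hx'.2.1 e.symm, le_antisymm (key x hx x' hx' e.symm) (key x' hx' x hx e),
    pt_self]

lemma exists_top (hW : Tube0 W c K) (hh : h * (1 + 2 * K) < c) (hc : IsClosed M) {y : E}
    (hy : y ∈ M) (hy' : |W y| ≤ h) :
    ∃ x ∈ top M W h, foot W x = foot W y ∧ W y ≤ W x ∧ ‖x - y‖ = W x - W y := by
  have h1 : IsCompact (Icc (W y) h ∩ {t | pt W y t ∈ M}) := isCompact_Icc.inter_right
    (hc.preimage ((continuous_pt hW).comp (continuous_const.prodMk continuous_id)))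
  obtain ⟨t, ⟨h2, h3⟩, h4⟩ := h1.exists_isGreatest
    ⟨W y, ⟨le_rfl, (abs_le.1 hy').2⟩, by simpa [pt_self] using hy⟩
  have h5 : |t| ≤ h := abs_le.2 ⟨(abs_le.1 hy').1.trans h2.1, h2.2⟩
  have h6 := (pt_spec hW hh hy' h5).2
  refine ⟨pt W y t, ⟨h3, by rwa [h6], fun s h7 h8 h9 => ?_⟩, foot_pt hW hh hy' h5,
    by rw [h6]; exact h2.1, ?_⟩
  · rw [h6] at h7
    rw [pt_pt hW hh hy' h5] at h9
    exact absurd (h4 ⟨⟨h2.1.trans h7.le, h8⟩, h9⟩) (not_le.2 h7)
  · rw [norm_pt_sub hW hh hy', h6, abs_of_nonneg (sub_nonneg.2 h2.1)]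

/-- a `C¹` function which on the surface is a cut-off function restricted to the top sheet -/
theorem exists_topfn (hW : Tube0 W c K) (hM : Surf M) (hc : IsClosed M) {φ : E → ℝ}
    (hφ : ContDiff ℝ 1 φ) (hφc : HasCompactSupport φ) (hφ0 : ∀ x, 0 ≤ φ x)
    (hcl : ∀ x ∈ M, x ∈ tsupport φ → Clean M W h x) :
    ∃ ζ : E → ℝ, ContDiff ℝ 1 ζ ∧ HasCompactSupport ζ ∧ (∀ x, 0 ≤ ζ x) ∧
      (∀ x ∈ top M W h, ζ x = φ x) ∧ (∀ x ∈ M, x ∉ top M W h → ζ x = 0) ∧
      (∀ x, ζ x = 0 → grad ζ x = 0) ∧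
      ∀ x ∈ M, ζ x ≠ 0 → PT M x (grad ζ x) = PT M x (grad φ x) := by
  classical
  have hK : IsCompact (M ∩ tsupport φ) := hφc.isCompact.inter_left hc
  set Y : E → ℝ := fun y => if y ∈ top M W h then 1 else 0 with hY
  have hloc : ∀ x ∈ M ∩ tsupport φ, ∀ᶠ y in 𝓝[M] x, Y y = Y x := fun x hx => by
    filter_upwards [top_local hW hM hc hx.1 (hcl x hx.1 hx.2)] with y hy
    simp only [hY, hy]
  obtain ⟨X, hX, hXY⟩ := glue (M := M) hK (Y := Y) fun x hx =>
    ⟨fun _ => Y x, contDiffAt_const, hloc x hx⟩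
  have hval : ∀ x ∈ M, X x ^ 2 * φ x = Y x * φ x := fun x hx => by
    by_cases h1 : x ∈ tsupport φ
    · rw [(hXY x ⟨hx, h1⟩).self_of_nhdsWithin hx]
      simp only [hY]
      split_ifs <;> simp
    · rw [image_eq_zero_of_notMem_tsupport h1, mul_zero, mul_zero]
  have hζ : ContDiff ℝ 1 fun x => X x ^ 2 * φ x := (hX.pow 2).mul hφ
  have h0 : ∀ x, 0 ≤ X x ^ 2 * φ x := fun x => mul_nonneg (sq_nonneg _) (hφ0 x)
  refine ⟨fun x => X x ^ 2 * φ x, hζ, hφc.mul_left, h0, fun x hx => ?_, fun x hx hx' => ?_,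
    fun x hx => ?_, fun x hx hx' => ?_⟩
  · refine (hval x hx.1).trans ?_
    simp [hY, hx]
  · refine (hval x hx).trans ?_
    simp [hY, hx']
  · have h1 : IsLocalMin (fun x => X x ^ 2 * φ x) x :=
      Eventually.of_forall fun y => by simpa only [hx] using h0 y
    rw [← norm_eq_zero, norm_grad, h1.fderiv_eq_zero, norm_zero]
  · have h1 : x ∈ tsupport φ := subset_tsupport φ (right_ne_zero_of_mul hx')
    have h2 : Y x = 1 := by
      have h3 := hval x hx
      by_contra hcon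
      apply hx'
      have : Y x = 0 := by
        simp only [hY] at hcon ⊢
        split_ifs at hcon ⊢ with h4
        · exact absurd rfl hcon
        · rfl
      exact h3.trans (by rw [this, zero_mul])
    refine hM.gradM_congr hx (hζ.differentiable one_ne_zero x) (hφ.differentiable one_ne_zero x) ?_
    filter_upwards [self_mem_nhdsWithin, hloc x ⟨hx, h1⟩] with y hy h3
    rw [hval y hy, h3, h2, one_mul]

end Vale.Agent.P218N.B
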