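import Vale.Agent.P218N.B.OutTop
import Vale.Agent.P218N.B.OutArea
import Vale.Agent.P218N.B.OutCut
import Vale.Agent.P218N.B.OutHoles

/-! The cut-off function on the top sheet of one surface, and the domination of the surface by its
top sheet. -/

open MeasureTheory Set Filter Topology Metric
open scoped ENNReal NNReal RealInnerProductSpace ContDiff

namespace Vale.Agent.P218N.B

open Vale.Agent.P218.H313 Vale.Agent.P218N.H Vale.Agent.P218N.G

set_option linter.unusedSectionVars false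
set_option linter.unusedVariables false

variable {W : E3 → ℝ} {c K h Λ : ℝ} {M : Set E3}

lemma exists_sig_ball (hc : 0 < c) (hK : 0 ≤ K) : ∃ Λ' r₀ : ℝ, 0 < Λ' ∧ 0 < r₀ ∧
    ∀ W : E3 → ℝ, Tube0 W c K → ∀ (x : E3) (r : ℝ), 0 < r → r ≤ r₀ →
      sig 2 W (closedBall x r) ≤ ENNReal.ofReal (Λ' * r ^ 2) := by
  have hom := om_pos 2
  have h1 : ∀ᶠ r in 𝓝 (0 : ℝ), LK K (2 * r) < 2 := by
    have h2 : Tendsto (fun r : ℝ => 2 * r) (𝓝 0) (𝓝 0) := by
      simpa using (tendsto_id (x := 𝓝 (0 : ℝ))).const_mul 2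
    exact ((tendsto_LK K).comp h2).eventually (gt_mem_nhds one_lt_two)
  have h2 : ∀ᶠ r in 𝓝 (0 : ℝ), K * (2 * r) < min 1 c :=
    (by fun_prop : Continuous fun r : ℝ => K * (2 * r)).continuousAt.eventually
      (gt_mem_nhds (by simpa using hc))
  obtain ⟨r₁, hr₁, h3⟩ := Metric.eventually_nhds_iff.1 (h1.and h2)
  refine ⟨32 * om 2, r₁ / 2, by positivity, by positivity, fun W hW x r hr hr' => ?_⟩
  obtain ⟨h4, h5⟩ := h3 (y := r) (by rw [Real.dist_eq, sub_zero, abs_of_pos hr]; linarith)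
  refine (hW.sig_ball_le finrank_E3 x hr (h5.trans_le (min_le_left _ _))
    (h5.trans_le (min_le_right _ _))).trans (ENNReal.ofReal_le_ofReal ?_)
  have h6 := LK_pos (by positivity : 0 ≤ K * (2 * r)) (h5.trans_le (min_le_left _ _))
  have h7 : LK K (2 * r) ^ 2 ≤ 2 ^ 2 := pow_le_pow_left₀ h6.le h4.le 2
  calc 2 * (LK K (2 * r) ^ 2 * ((2 * r) ^ 2 * om 2)) ≤ 2 * (2 ^ 2 * ((2 * r) ^ 2 * om 2)) := by
        gcongr
    _ = _ := by ring

lemma foot_lip (hW : Tube0 W c K) (x y : E3) :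
    dist (foot W x) (foot W y) ≤ (1 + 2 * K ^ 2) * dist x y := by
  have hK := hW.K_nonneg
  have e : foot W x - foot W y
      = (x - y) - ((W x - W y) • grad W x + W y • (grad W x - grad W y)) := by
    unfold foot
    rw [sub_smul, smul_sub]; abel
  rw [dist_eq_norm, dist_eq_norm, e]
  have h1 : ‖(W x - W y) • grad W x‖ ≤ K * ‖x - y‖ * K := by
    rw [norm_smul, Real.norm_eq_abs]
    exact mul_le_mul (hW.li_lip y x) (hW.b1 x) (norm_nonneg _) (by positivity)
  have h2 : ‖W y • (grad W x - grad W y)‖ ≤ K * (K * ‖x - y‖) := by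
    rw [norm_smul, Real.norm_eq_abs]
    exact mul_le_mul (hW.b0 y) (hW.li_grad_lip y x) (norm_nonneg _) hK
  have h3 := norm_sub_le (x - y) ((W x - W y) • grad W x + W y • (grad W x - grad W y))
  have h4 := norm_add_le ((W x - W y) • grad W x) (W y • (grad W x - grad W y))
  linarith

lemma sig_image_le (hW : Tube0 W c K) {X : Set E3} (hX : MeasurableSet X) (hXM : X ⊆ M) :
    sig 2 W (foot W '' X) ≤ ENNReal.ofReal ((1 + 2 * K ^ 2) ^ 2) * mu M X := by
  have h1 := hd_le X id (foot W) (by positivity : 0 ≤ 1 + 2 * K ^ 2)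
    (fun y _ y' _ => foot_lip hW y y') 2
  rw [image_id] at h1
  rw [Measure.restrict_apply hX, inter_eq_left.2 hXM]
  exact (Measure.restrict_apply_le _ _).trans h1

/-- the set which is covered by the holes -/
def BadS (M : Set E3) (W : E3 → ℝ) (P : Finset E3) (R t : ℝ) : Set E3 :=
  {x | x ∈ M ∧ ‖x‖ ≤ R ∧ (t ≤ |W x| ∨ ((∀ p ∈ P, t ≤ dist x p) ∧
    1 / 8 ≤ ‖PT M x (grad W x)‖ ^ 2))}

lemma clean_of (hW : Tube0 W c K) (hh : h * (1 + 2 * K) < c) (hh1 : h ≤ 1 / 2) (hM : Surf M)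
    {P : Finset E3} {R t : ℝ} (ht0 : 0 < t) (ht : t ≤ h) {x : E3} (hx : x ∈ M) (hR : ‖x‖ ≤ R - 1)
    (hP : ∀ p ∈ P, 3 * t ≤ dist x p) (hB : ∀ x', foot W x' = foot W x → x' ∉ BadS M W P R t) :
    Clean M W h x ∧ ‖PT M x (grad W x)‖ ^ 2 ≤ 1 / 8 := by
  have h1 : |W x| < t := by
    by_contra hcon
    exact hB x rfl ⟨hx, by linarith, Or.inl (not_lt.1 hcon)⟩
  have hx' : |W x| ≤ h := (h1.trans_le ht).le
  refine ⟨⟨h1.trans_le ht, fun s hs hsM => ?_⟩, ?_⟩
  · obtain ⟨e1, e2⟩ := pt_spec hW hh hx' hs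
    have e3 := norm_pt_sub hW hh hx' s
    have e4 := abs_sub s (W x)
    have e5 : ‖pt W x s‖ ≤ R := by
      have := norm_add_le (pt W x s - x) x
      rw [sub_add_cancel] at this
      linarith
    have h2 := hB _ (foot_pt hW hh hx' hs)
    have h3 : |s| < t := by
      by_contra hcon
      exact h2 ⟨hsM, e5, Or.inl (by rw [e2]; exact not_lt.1 hcon)⟩
    refine ⟨h3.trans_le ht, fun h0 => h2 ⟨hsM, e5, Or.inr ⟨fun p hp => ?_, ?_⟩⟩⟩
    · have f1 := dist_triangle x (pt W x s) p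
      rw [dist_comm x (pt W x s), dist_eq_norm (pt W x s) x] at f1
      linarith [hP p hp]
    · rw [e1, PT_apply, h0, zero_smul, sub_zero, hW.eik x (lt_c hW hh hx')]
      norm_num
  · by_contra hcon
    exact hB x rfl ⟨hx, by linarith, Or.inr ⟨fun p hp => by linarith [hP p hp],
      (not_le.1 hcon).le⟩⟩

lemma sum_le_sq {s : Finset (E3 × ℝ)} (hs : ∀ a ∈ s, 0 < a.2) {A : ℝ} (h : ∑ a ∈ s, √a.2 ≤ A) :
    ∑ a ∈ s, a.2 ≤ A ^ 2 := by
  have h1 := Finset.sum_sq_le_sq_sum_of_nonneg (s := s) (f := fun a => √a.2)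
    fun a _ => Real.sqrt_nonneg _
  rw [Finset.sum_congr rfl fun a ha => Real.sq_sqrt (hs a ha).le] at h1
  exact h1.trans (pow_le_pow_left₀ (Finset.sum_nonneg fun a _ => Real.sqrt_nonneg _) h 2)

/-- the cut-off of the shadows of the holes -/
lemma exists_shadow (hc : 0 < c) (hK : 0 ≤ K) : ∃ C a₀ : ℝ, 0 < C ∧ 0 < a₀ ∧
    ∀ (W : E3 → ℝ) (X : Set E3) (A : ℝ), Tube0 W c K → Cov X A → A ≤ a₀ →
      ∃ (η : E3 → ℝ) (S : Set E3), ContDiff ℝ 1 η ∧ (∀ y, 0 ≤ η y) ∧ (∀ y, η y ≤ 1) ∧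
        (∀ x ∈ X, foot W x ∉ tsupport η) ∧ MeasurableSet S ∧ (∀ y, y ∉ S → η y = 1) ∧
        sig 2 W S ≤ ENNReal.ofReal (C * A ^ 2) ∧
        ∫⁻ y, ‖grad η y‖ₑ ∂(sig 2 W) ≤ ENNReal.ofReal (C * A ^ 2) := by
  classical
  obtain ⟨Λ', r₀, hΛ', hr₀, hsig⟩ := exists_sig_ball hc hK
  obtain ⟨C₁, hC₁, heta⟩ := exists_eta
  obtain ⟨L, hL, hL0⟩ : ∃ L : ℝ, L = 1 + 2 * K ^ 2 ∧ 0 < L := ⟨_, rfl, by positivity⟩
  refine ⟨(C₁ + 1) * (4 * Λ') * (2 * L), min 1 (min 1 r₀ / (4 * L)), by positivity, by positivity,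
    ?_⟩
  intro W X A hW hX hA
  have hA0 := hX.nonneg
  obtain ⟨s₀, p1, p2, p3⟩ := hX
  have q1 := sum_le_sq p1 p2
  have q2 : 4 * L * A ^ 2 ≤ min 1 r₀ := by
    have f1 := hA.trans (min_le_left _ _)
    have f2 := hA.trans (min_le_right _ _)
    rw [le_div_iff₀ (by positivity)] at f2
    have f3 : A ^ 2 ≤ A := by nlinarith
    have f4 := mul_le_mul_of_nonneg_left f3 (by positivity : 0 ≤ 4 * L)
    linarith
  set s := s₀.image fun a : E3 × ℝ => (foot W a.1, 2 * L * a.2) with hs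
  have r1 : ∀ a ∈ s, 0 < a.2 := fun a ha => by
    obtain ⟨b, hb, rfl⟩ := Finset.mem_image.1 ha
    have := p1 b hb
    positivity
  have r2 : ∑ a ∈ s, a.2 ≤ 2 * L * A ^ 2 := by
    refine (Finset.sum_image_le_of_nonneg (f := fun a : E3 × ℝ => a.2)
      fun a ha => (r1 a ha).le).trans ?_
    simp only
    rw [← Finset.mul_sum]
    gcongr
  have r3 : ∀ a ∈ s, 2 * a.2 ≤ min 1 r₀ := fun a ha => by
    have := (Finset.single_le_sum (f := fun a : E3 × ℝ => a.2) (fun a ha => (r1 a ha).le) ha).trans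
      r2
    linarith
  have r4 : ∀ a ∈ s, sig 2 W (closedBall a.1 (2 * a.2)) ≤ ENNReal.ofReal (4 * Λ' * a.2 ^ 2) :=
    fun a ha => (hsig W hW a.1 _ (by linarith [r1 a ha]) ((r3 a ha).trans (min_le_right _ _))).trans
      (le_of_eq (by congr 1; ring))
  obtain ⟨η, e1, e2, e3, e4, e5, e6⟩ := heta s r1
  refine ⟨η, ⋃ a ∈ s, ball a.1 (2 * a.2), e1, e2, e3, fun x hx => ?_,
    Finset.measurableSet_biUnion _ fun _ _ => measurableSet_ball, fun y hy => e5 y fun a ha h =>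
      hy (mem_biUnion ha h), ?_, (e6 _ _ (by positivity) r4).trans (ENNReal.ofReal_le_ofReal ?_)⟩
  · obtain ⟨a, ha, hxa⟩ := mem_iUnion₂.1 (p3 hx)
    rw [notMem_tsupport_iff_eventuallyEq]
    have f1 : foot W x ∈ ball (foot W a.1) (2 * L * a.2) := by
      have f2 := foot_lip hW x a.1
      rw [← hL] at f2
      have f3 := mul_lt_mul_of_pos_left (mem_ball.1 hxa) hL0
      have f4 := mul_pos hL0 (p1 a ha)
      rw [mem_ball]
      linarith
    filter_upwards [isOpen_ball.mem_nhds f1] with y hy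
    exact e4 _ (Finset.mem_image_of_mem _ ha) y (ball_subset_closedBall hy)
  · refine (measure_biUnion_finset_le _ _).trans ?_
    refine (Finset.sum_le_sum (g := fun a => ENNReal.ofReal (4 * Λ' * a.2)) fun a ha => ?_).trans ?_
    · refine (measure_mono ball_subset_closedBall).trans ((r4 a ha).trans
        (ENNReal.ofReal_le_ofReal ?_))
      have f1 := (r3 a ha).trans (min_le_left _ _)
      have f2 := r1 a ha
      have f3 : a.2 ^ 2 ≤ a.2 := by nlinarith
      gcongr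
    · rw [← ENNReal.ofReal_sum_of_nonneg fun a ha => by have := r1 a ha; positivity,
        ← Finset.mul_sum]
      refine ENNReal.ofReal_le_ofReal ?_
      have f1 := mul_le_mul_of_nonneg_left r2 (by positivity : 0 ≤ 4 * Λ')
      have f2 : 0 ≤ C₁ * (4 * Λ') * (2 * L) * A ^ 2 := by positivity
      linarith
  · have f1 := mul_le_mul_of_nonneg_left r2 (by positivity : 0 ≤ C₁ * (4 * Λ'))
    have f2 : 0 ≤ (4 * Λ') * (2 * L) * A ^ 2 := by positivity
    linarith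

/-- **the cut-off function on the top sheet** -/
theorem exists_zeta (hc : 0 < c) (hK : 1 ≤ K) (hh : h * (1 + 2 * K) < c) (hh1 : h * K ≤ 1 / 8) :
    ∃ C a₀ : ℝ, 0 < C ∧ 0 < a₀ ∧ ∀ (M : Set E3) (W ψ : E3 → ℝ) (P : Finset E3) (R t A : ℝ),
      Surf M → IsClosed M → Tube0 W c K → ContDiff ℝ 1 ψ → HasCompactSupport ψ →
      (∀ x, 0 ≤ ψ x) → (∀ x, ψ x ≤ 1) → 0 < t → t ≤ h →
      (∀ x ∈ tsupport ψ, ‖x‖ ≤ R - 1 ∧ ∀ p ∈ P, 3 * t ≤ dist x p) →
      Cov (BadS M W P R t) A → A ≤ a₀ →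
      ∃ (ζ b : E3 → ℝ) (S : Set E3), ContDiff ℝ 1 ζ ∧ HasCompactSupport ζ ∧ (∀ x, 0 ≤ ζ x) ∧
        (∀ x ∈ M, ζ x ≤ ψ x ∧ (ζ x ≠ 0 → x ∈ top M W h) ∧ 0 ≤ b x ∧
          ‖PT M x (grad ζ x)‖ ≤ ‖grad ψ x‖ + b x) ∧ Integrable b (mu M) ∧
        ∫ x, b x ∂(mu M) ≤ C * A ^ 2 ∧ MeasurableSet S ∧ sig 2 W S ≤ ENNReal.ofReal (C * A ^ 2) ∧
        ∀ x ∈ top M W h, foot W x ∉ S → ζ x = ψ x := by
  obtain ⟨C, a₀, hC, ha₀, H⟩ := exists_shadow hc (zero_le_one.trans hK)
  refine ⟨8 * C, a₀, by positivity, ha₀, ?_⟩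
  intro M W ψ P R t A hM hMc hW hψ hψc ψ0 ψ1 ht0 ht hspt hcov hA
  obtain ⟨η, S, e1, e2, e3, e4, e5, e6, e7, e8⟩ := H W _ A hW hcov hA
  have hfin := hM.finiteOnCompacts finrank_E3 hMc (m := 2)
  have h0 : 0 < h := ht0.trans_le ht
  have hf := hW.contDiff_foot
  have hηf : ContDiff ℝ 1 fun x => η (foot W x) := e1.comp hf
  have hφ : ContDiff ℝ 1 fun x => ψ x * η (foot W x) := hψ.mul hηf
  have hcl : ∀ x ∈ M, x ∈ tsupport (fun x => ψ x * η (foot W x)) →
      Clean M W h x ∧ ‖PT M x (grad W x)‖ ^ 2 ≤ 1 / 8 := fun x hx hx' => by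
    have f1 := hspt x (tsupport_mul_subset_left hx')
    have f2 : foot W x ∈ tsupport η :=
      tsupport_comp_subset_preimage η hf.continuous (tsupport_mul_subset_right hx')
    exact clean_of hW hh (by nlinarith) hM ht0 ht hx f1.1 f1.2 fun x' e hb => e4 x' hb (e ▸ f2)
  obtain ⟨ζ, z1, z2, z3, z4, z5, z6, z7⟩ := exists_topfn hW hM hMc hφ hψc.mul_right
    (fun x => mul_nonneg (ψ0 x) (e2 _)) fun x hx hx' => (hcl x hx hx').1
  have htop : ∀ x ∈ M, ζ x ≠ 0 → x ∈ top M W h := fun x hx hz => by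
    by_contra hcon
    exact hz (z5 x hx hcon)
  set G : Set E3 := M ∩ {x | ζ x ≠ 0} with hG
  have hGm : MeasurableSet G :=
    hM.measurableSet.inter (isOpen_ne_fun z1.continuous continuous_const).measurableSet
  have hGs : G ⊆ tsupport ζ := fun x hx => subset_tsupport ζ hx.2
  have hGc : ∀ x ∈ G, |W x| ≤ h ∧ ‖PT M x (grad W x)‖ ^ 2 ≤ 1 / 8 := fun x hx =>
    ⟨(htop x hx.1 hx.2).2.1, (hcl x hx.1 (subset_tsupport _ (by
      rw [Function.mem_support, ← z4 x (htop x hx.1 hx.2)]; exact hx.2))).2⟩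
  have hgc : Continuous fun x => 2 * ‖grad η (foot W x)‖ :=
    continuous_const.mul ((continuous_grad e1).comp hf.continuous).norm
  have hbi : IntegrableOn (fun x => 2 * ‖grad η (foot W x)‖) G (mu M) :=
    (hgc.continuousOn.integrableOn_compact z2.isCompact).mono_set hGs
  refine ⟨ζ, G.indicator fun x => 2 * ‖grad η (foot W x)‖, S, z1, z2, z3, fun x hx => ⟨?_,
    htop x hx, indicator_nonneg (fun _ _ => by positivity) x, ?_⟩,
    (integrable_indicator_iff hGm).2 hbi, ?_, e5, e7.trans (ENNReal.ofReal_le_ofReal ?_),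
    fun x hx hx' => by rw [z4 x hx, e6 _ hx', mul_one]⟩
  · by_cases hz : ζ x = 0
    · rw [hz]; exact ψ0 x
    · rw [z4 x (htop x hx hz)]
      exact mul_le_of_le_one_right (ψ0 x) (e3 _)
  · by_cases hz : ζ x = 0
    · rw [z6 x hz, map_zero, norm_zero]
      exact add_nonneg (norm_nonneg _) (indicator_nonneg (fun _ _ => by positivity) x)
    · have hxG : x ∈ G := ⟨hx, hz⟩
      rw [z7 x hx hz, indicator_of_mem hxG]
      refine (hM.norm_PT_apply_le hx _).trans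
        ((OutCut.grad_mul_le hψ hηf ψ0 ψ1 (fun y => e2 _) (fun y => e3 _) x).trans ?_)
      have f1 := (hGc x hxG).1
      have f2 := hW.norm_fderiv_foot (lt_c hW hh f1) (by
        have := mul_le_mul_of_nonneg_right f1 (zero_le_one.trans hK)
        linarith)
      have f3 : ‖grad (fun x => η (foot W x)) x‖ ≤ ‖grad η (foot W x)‖ * 2 := by
        rw [norm_grad, norm_grad, fderiv_fun_comp x (e1.differentiable one_ne_zero _)
          (hf.differentiable one_ne_zero _)]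
        exact (ContinuousLinearMap.opNorm_comp_le _ _).trans (by gcongr)
      linarith
  · have f1 := push_le hM hMc hW hGm inter_subset_left (z2.isCompact.isBounded.subset hGs)
      (δ := 1 / 8) le_rfl (fun y hy => by
        obtain ⟨g1, g2⟩ := hGc y hy
        have g3 := mul_le_mul_of_nonneg_right g1 (zero_le_one.trans hK)
        refine ⟨?_, by linarith, g2⟩
        have g4 : 0 ≤ h * K := by positivity
        linarith) (k := 1) (fun Y p hY => Finset.card_le_one.2 fun y hy y' hy' =>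
        top_injOn hW hh (htop y (hY y hy).1.1 (hY y hy).1.2) (htop y' (hY y' hy').1.1 (hY y' hy').1.2)
          ((hY y hy).2.trans (hY y' hy').2.symm)) (g := fun y => ‖grad η y‖ₑ)
      (continuous_grad e1).measurable.enorm
    rw [Nat.cast_one, one_mul] at f1
    have f2 := f1.trans e8
    rw [← ofReal_integral_norm_eq_lintegral_enorm (f := fun y => grad η (foot W y))
      ((((continuous_grad e1).comp hf.continuous).continuousOn.integrableOn_compact
        z2.isCompact).mono_set hGs), ← ENNReal.ofReal_mul (by positivity),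
      ENNReal.ofReal_le_ofReal_iff (by positivity)] at f2
    rw [integral_indicator hGm, integral_const_mul]
    linarith
  · have : 0 ≤ C * A ^ 2 := by positivity
    linarith

/-- **domination by the top sheet** -/
theorem exists_dom (hΛ : 0 < Λ) (hc : 0 < c) (hK : 1 ≤ K) (h0 : 0 < h) (hh : h * (1 + 2 * K) < c)
    (hh1 : h ≤ 1 / 2) : ∃ C : ℝ, 0 < C ∧ ∀ R δ : ℝ, 0 < δ → ∃ C' : ℝ, 0 < C' ∧
      ∀ (M : Set E3) (W ζ ψ : E3 → ℝ) (S D B : Set E3) (A σ : ℝ), P218N.B.Good Λ M → Tube0 W c K →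
      MeasurableSet S → 0 ≤ σ → sig 2 W S ≤ ENNReal.ofReal σ →
      (∀ x ∈ top M W h, foot W x ∉ S → ζ x = ψ x) →
      ∫ y in closedBall 0 (R + 1), ex (tanP M) (Hv M) W y ∂(mu M) ≤ A →
      D ⊆ closedBall 0 R → IsCompact B →
      (∀ y ∈ D, ∀ y', dist y' y ≤ δ → W y ≤ W y' → ζ y' = ψ y' → y' ∈ B) →
      (mu M).real D ≤ C * (mu M).real B + C' * (σ + A) := by
  obtain ⟨C, hC, H⟩ := exists_mult hΛ hc hK
  obtain ⟨L, hL, hL0⟩ : ∃ L : ℝ, L = (1 + 2 * K ^ 2) ^ 2 ∧ 0 < L := ⟨_, rfl, by positivity⟩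
  refine ⟨C * L, by positivity, fun R δ hδ => ?_⟩
  obtain ⟨d, hd, hd1, hd2⟩ : ∃ d : ℝ, 0 < d ∧ d ≤ h ∧ 2 * d ≤ δ :=
    ⟨min h (δ / 2), by positivity, min_le_left _ _, by linarith [min_le_right h (δ / 2)]⟩
  obtain ⟨Q, hQ, hQ0⟩ : ∃ Q : ℝ, Q = 2 + (1 + (R + 1) ^ 2) / d ^ 2 ∧ 0 < Q := ⟨_, rfl, by positivity⟩
  refine ⟨C * (1 + L * Q), by positivity, ?_⟩
  intro M W ζ ψ S D B A σ hM hW hS hσ hSσ hζ hA hD hB hcond
  have hfin := hM.finite
  have hA0 : 0 ≤ A := le_trans (integral_nonneg fun y => ex_nonneg y) hA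
  have hf := hW.contDiff_foot.continuous
  have c1 : IsCompact (B ∩ M) := hB.inter_right hM.closed
  have c2 : IsCompact (M ∩ (closedBall (0 : E3) (R + 1) ∩ {x | d ≤ |W x|})) :=
    ((isCompact_closedBall _ _).inter_right
      (isClosed_le continuous_const hW.cont.abs)).inter_left hM.closed
  have k1 := H M W hM hW R (S ∪ foot W '' (B ∩ M) ∪
    foot W '' (M ∩ (closedBall (0 : E3) (R + 1) ∩ {x | d ≤ |W x|})))
    ((hS.union (c1.image hf).measurableSet).union (c2.image hf).measurableSet)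
  have k2 : mu M D ≤ mu M (closedBall 0 R ∩ foot W ⁻¹' (S ∪ foot W '' (B ∩ M) ∪
      foot W '' (M ∩ (closedBall (0 : E3) (R + 1) ∩ {x | d ≤ |W x|})))) := by
    refine measure_mono_ae ?_
    filter_upwards [ae_restrict_mem hM.surf.measurableSet] with y hy hyD
    refine ⟨hD hyD, ?_⟩
    have f0 := mem_closedBall.1 (hD hyD)
    by_cases f1 : d ≤ |W y|
    · exact Or.inr ⟨y, ⟨hy, by rw [mem_closedBall]; linarith, f1⟩, rfl⟩
    have f1' := abs_lt.1 (not_le.1 f1)
    obtain ⟨x, g1, g2, g3, g4⟩ := exists_top hW hh hM.closed hy ((not_le.1 f1).le.trans hd1)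
    rw [← dist_eq_norm] at g4
    by_cases f2 : d ≤ |W x|
    · refine Or.inr ⟨x, ⟨g1.1, ?_, f2⟩, g2⟩
      have := dist_triangle x y 0
      have := (abs_le.1 g1.2.1).2
      rw [mem_closedBall]
      linarith
    by_cases f3 : foot W y ∈ S
    · exact Or.inl (Or.inl f3)
    have f2' := abs_lt.1 (not_le.1 f2)
    exact Or.inl (Or.inr ⟨x, ⟨hcond y hyD x (by linarith) g3 (hζ x g1 (g2 ▸ f3)), g1.1⟩, g2⟩)
  have k3 := sig_image_le hW c1.measurableSet (M := M) inter_subset_right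
  have k4 := sig_image_le hW c2.measurableSet (M := M) inter_subset_left
  have k5 := (OutH.small hM hW hA c2.measurableSet (fun x hx => hx.2.1) (a := d ^ 2)
    (by positivity) fun x hx _ => by
      have f1 : d ^ 2 ≤ |W x| ^ 2 := pow_le_pow_left₀ hd.le hx.2.2 2
      rw [sq_abs] at f1
      exact f1.trans (le_add_of_nonneg_right (xs_nonneg x))).1
  rw [← hL] at k3 k4
  rw [← hQ] at k5
  have k6 : ∫⁻ y in closedBall 0 (R + 1), ENNReal.ofReal (ex (tanP M) (Hv M) W y) ∂(mu M)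
      ≤ ENNReal.ofReal A := by
    rw [← ofReal_integral_eq_lintegral_ofReal (ex_integrableOn hM.slice hW.pg.cd
      (isCompact_closedBall _ _)) (Eventually.of_forall fun y => ex_nonneg y)]
    exact ENNReal.ofReal_le_ofReal hA
  have k7 : mu M (B ∩ M) ≤ ENNReal.ofReal ((mu M).real B) := by
    rw [Measure.real, ENNReal.ofReal_toReal hB.measure_lt_top.ne]
    exact measure_mono inter_subset_left
  have hb0 : 0 ≤ (mu M).real B := measureReal_nonneg
  refine ENNReal.toReal_le_of_le_ofReal (by positivity) (k2.trans (k1.trans ?_))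
  calc _ ≤ ENNReal.ofReal C * (ENNReal.ofReal σ + ENNReal.ofReal L * ENNReal.ofReal ((mu M).real B)
        + ENNReal.ofReal L * ENNReal.ofReal (Q * A) + ENNReal.ofReal A) := by
        refine mul_le_mul_right (add_le_add ((measure_union_le _ _).trans (add_le_add
          ((measure_union_le _ _).trans (add_le_add hSσ (k3.trans ?_))) (k4.trans ?_))) k6) _
        · exact mul_le_mul_right k7 _
        · exact mul_le_mul_right k5 _
    _ ≤ _ := by
        rw [← ENNReal.ofReal_mul hL0.le, ← ENNReal.ofReal_mul hL0.le,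
          ← ENNReal.ofReal_add hσ (by positivity), ← ENNReal.ofReal_add (by positivity)
          (by positivity), ← ENNReal.ofReal_add (by positivity) hA0, ← ENNReal.ofReal_mul hC.le]
        refine ENNReal.ofReal_le_ofReal ?_
        have : 0 ≤ C * (L * Q * σ) := by positivity
        linarith

end Vale.Agent.P218N.B
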