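import Vale.Agent.P218N.B.Stmt2

/-! The stereographic Gauss map of a graph satisfies a Beltrami equation: pointwise algebra. -/

open MeasureTheory Set Filter Topology Metric
open scoped ENNReal NNReal RealInnerProductSpace ContDiff ComplexConjugate

namespace Vale.Agent.P218N.B.Pl

open Vale.Agent.P218.H313
open Complex (I)

set_option linter.unusedSectionVars false
set_option linter.unusedVariables false

section general

variable {E : Type*} [NormedAddCommGroup E] [InnerProductSpace ℝ E] [FiniteDimensional ℝ E]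

/-- the mean curvature operator -/
noncomputable def mcG (u : E → ℝ) (y : E) : ℝ :=
  tr (fderiv ℝ (grad u) y) - ⟪fderiv ℝ (grad u) y (grad u y), grad u y⟫ / (1 + ‖grad u y‖ ^ 2)

/-- the shrinker operator -/
noncomputable def resG (a : E) (c : ℝ) (u : E → ℝ) (y : E) : ℝ :=
  mcG u y + (c + u y - ⟪a + y, grad u y⟫) / 2

lemma contDiffAt_grad {u : E → ℝ} {x : E} (hu : ContDiffAt ℝ ∞ u x) :
    ContDiffAt ℝ ∞ (grad u) x := by
  rw [grad_eq]
  exact (riesz E).contDiff.contDiffAt.comp x (hu.fderiv_right (by exact_mod_cast le_top))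

lemma hess_symm {u : E → ℝ} {x : E} (hu : ContDiffAt ℝ ∞ u x) (v w : E) :
    ⟪fderiv ℝ (grad u) x v, w⟫ = ⟪v, fderiv ℝ (grad u) x w⟫ := by
  have h2 : ContDiffAt ℝ 2 u x := hu.of_le (WithTop.coe_le_coe.2 (le_top : (2 : ℕ∞) ≤ ⊤))
  have hd : DifferentiableAt ℝ (fderiv ℝ u) x :=
    (h2.fderiv_right (m := 1) (by norm_num)).differentiableAt one_ne_zero
  have e : ∀ v w, ⟪fderiv ℝ (grad u) x v, w⟫ = fderiv ℝ (fderiv ℝ u) x v w := by
    intro v w
    rw [show fderiv ℝ (grad u) x = _ from ((riesz E).hasFDerivAt.comp x hd.hasFDerivAt).fderiv]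
    have := FiniteDimensional.complete ℝ E
    exact InnerProductSpace.toDual_symm_apply
  rw [e, real_inner_comm, e]
  exact (h2.isSymmSndFDerivAt (by simp)).eq v w

end general

/-- the `dz` part of a real linear map -/
noncomputable def pz (D : ℂ →L[ℝ] ℂ) : ℂ := (D 1 - I * D I) / 2

/-- the `dz̄` part of a real linear map -/
noncomputable def pzb (D : ℂ →L[ℝ] ℂ) : ℂ := (D 1 + I * D I) / 2

lemma lin_eq (D : ℂ →L[ℝ] ℂ) (v : ℂ) : D v = v.re * D 1 + v.im * D I := by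
  conv_lhs => rw [show v = v.re • (1 : ℂ) + v.im • I by simp]
  rw [map_add, map_smul, map_smul, Complex.real_smul, Complex.real_smul]

lemma D_eq (D : ℂ →L[ℝ] ℂ) (v : ℂ) : D v = pz D * v + pzb D * conj v := by
  rw [lin_eq D v, pz, pzb]
  apply Complex.ext <;> simp <;> ring

lemma norm_pz_le (D : ℂ →L[ℝ] ℂ) : ‖pz D‖ ≤ ‖D‖ := by
  have h1 := D.le_opNorm 1
  have h2 := D.le_opNorm I
  have h3 := norm_sub_le (D 1) (I * D I)
  rw [norm_mul] at h3
  simp only [norm_one, Complex.norm_I, mul_one, one_mul] at h1 h2 h3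
  rw [pz, norm_div, Complex.norm_two]
  linarith

/-- the area element -/
noncomputable def Wq (q : ℂ) : ℝ := √(1 + ‖q‖ ^ 2)

/-- the stereographic projection of the normal -/
noncomputable def Th (q : ℂ) : ℂ := (1 + Wq q)⁻¹ • conj q

/-- the inverse of `Th` -/
noncomputable def Ps (Y : ℂ) : ℂ := (2 / (1 - ‖Y‖ ^ 2)) • conj Y

/-- the lower order term of the Beltrami equation -/
noncomputable def Af (a : ℂ) (c : ℝ) (x : ℂ × ℝ × ℂ) : ℝ :=
  -(1 - (‖x.2.2‖ ^ 2) ^ 2) / 8 * (c + x.2.1) + (1 + ‖x.2.2‖ ^ 2) / 4 * ⟪a + x.1, conj x.2.2⟫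

lemma Wq_sq (q : ℂ) : Wq q ^ 2 = 1 + ‖q‖ ^ 2 := Real.sq_sqrt (by positivity)

lemma one_le_Wq (q : ℂ) : 1 ≤ Wq q := Real.one_le_sqrt.2 (by nlinarith [norm_nonneg q])

lemma norm_le_Wq (q : ℂ) : ‖q‖ ≤ Wq q := Real.le_sqrt_of_sq_le (by linarith)

lemma norm_Th (q : ℂ) : ‖Th q‖ = ‖q‖ / (1 + Wq q) := by
  have := one_le_Wq q
  rw [Th, norm_smul, Complex.norm_conj, Real.norm_of_nonneg (by positivity), inv_mul_eq_div]

lemma norm_Th_sq (q : ℂ) : ‖Th q‖ ^ 2 = (Wq q - 1) / (Wq q + 1) := by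
  have h1 := one_le_Wq q
  have h2 := Wq_sq q
  rw [norm_Th, div_pow, div_eq_div_iff (by positivity) (by positivity),
    show ‖q‖ ^ 2 = Wq q ^ 2 - 1 by linarith]
  ring

lemma norm_Th_le {q : ℂ} {L : ℝ} (h : ‖q‖ ≤ L) : ‖Th q‖ ≤ L / (1 + L) := by
  have h1 := norm_le_Wq q
  have h2 := norm_nonneg q
  rw [norm_Th, div_le_div_iff₀ (by linarith) (by linarith)]
  nlinarith

lemma Ps_Th (q : ℂ) : Ps (Th q) = q := by
  have h1 := one_le_Wq q
  rw [Ps, norm_Th_sq, Th, Complex.real_smul (x := (1 + Wq q)⁻¹), map_mul, Complex.conj_ofReal,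
    Complex.conj_conj, ← Complex.real_smul, smul_smul]
  have : 2 / (1 - (Wq q - 1) / (Wq q + 1)) * (1 + Wq q)⁻¹ = 1 := by
    rw [one_sub_div (by positivity)]
    field_simp
    ring
  rw [this, one_smul]

lemma Th_Ps {Y : ℂ} (h : ‖Y‖ < 1) : Th (Ps Y) = Y := by
  have h0 : 0 < 1 - ‖Y‖ ^ 2 := by nlinarith [norm_nonneg Y]
  have h1 : Wq (Ps Y) = (1 + ‖Y‖ ^ 2) / (1 - ‖Y‖ ^ 2) := by
    rw [Wq, Real.sqrt_eq_iff_mul_self_eq (by positivity) (by positivity), Ps, norm_smul,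
      Complex.norm_conj, Real.norm_of_nonneg (by positivity)]
    field_simp
    ring
  rw [Th, h1, Ps, Complex.real_smul (x := 2 / (1 - ‖Y‖ ^ 2)), map_mul, Complex.conj_ofReal,
    Complex.conj_conj, ← Complex.real_smul, smul_smul]
  have : (1 + (1 + ‖Y‖ ^ 2) / (1 - ‖Y‖ ^ 2))⁻¹ * (2 / (1 - ‖Y‖ ^ 2)) = 1 := by
    field_simp
    ring
  rw [this, one_smul]

/-- the first equation of the system -/
lemma Ps_eq {Y : ℂ} (h : ‖Y‖ < 1) : Ps Y / 2 = conj Y ^ 2 * (conj (Ps Y) / 2) + conj Y := by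
  have h0 : ((1 - ‖Y‖ ^ 2 : ℝ) : ℂ) ≠ 0 :=
    Complex.ofReal_ne_zero.2 (by nlinarith [norm_nonneg Y])
  have h1 : conj Y * Y = 1 - ((1 - ‖Y‖ ^ 2 : ℝ) : ℂ) := by
    rw [Complex.conj_mul']; push_cast; ring
  rw [Ps, Complex.real_smul, map_mul, Complex.conj_ofReal, Complex.conj_conj, Complex.ofReal_div]
  generalize ((1 - ‖Y‖ ^ 2 : ℝ) : ℂ) = n at *
  push_cast
  field_simp
  linear_combination (-conj Y) * h1

lemma continuousOn_Ps {k : ℝ} (hk : k < 1) : ContinuousOn Ps (closedBall 0 k) := by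
  refine (continuousOn_const.div (continuous_const.sub (continuous_norm.pow 2)).continuousOn
    fun Y hY => ?_).smul Complex.continuous_conj.continuousOn
  have := mem_closedBall_zero_iff.1 hY
  change 1 - ‖Y‖ ^ 2 ≠ 0
  nlinarith [norm_nonneg Y]

lemma contDiff_conj : ContDiff ℝ ∞ (fun z : ℂ => conj z) := Complex.conjCLE.contDiff

lemma contDiff_Wq : ContDiff ℝ ∞ Wq :=
  (contDiff_const.add (contDiff_norm_sq ℝ)).sqrt fun q => by positivity

lemma contDiff_Th : ContDiff ℝ ∞ Th :=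
  ((contDiff_const.add contDiff_Wq).inv fun q => by have := one_le_Wq q; positivity).smul
    contDiff_conj

lemma contDiff_Af (a : ℂ) (c : ℝ) : ContDiff ℝ ∞ (Af a c) := by
  have h1 : ContDiff ℝ ∞ fun x : ℂ × ℝ × ℂ => ‖x.2.2‖ ^ 2 :=
    (contDiff_norm_sq ℝ).comp (contDiff_snd.comp contDiff_snd)
  have h2 : ContDiff ℝ ∞ fun x : ℂ × ℝ × ℂ => ⟪a + x.1, conj x.2.2⟫ :=
    (contDiff_const.add contDiff_fst).inner ℝ
      (contDiff_conj.comp (contDiff_snd.comp contDiff_snd))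
  unfold Af
  fun_prop

lemma fderiv_Th (q h : ℂ) : fderiv ℝ Th q h
    = (1 + Wq q)⁻¹ • conj h - ((Wq q * (1 + Wq q) ^ 2)⁻¹ * ⟪q, h⟫) • conj q := by
  have h1 := one_le_Wq q
  have h2 : HasFDerivAt Wq ((1 / (2 * Wq q)) • (2 : ℕ) • innerSL ℝ q) q :=
    ((hasStrictFDerivAt_norm_sq q).hasFDerivAt.const_add 1).sqrt (by positivity)
  have h3 : HasDerivAt (fun t : ℝ => (1 + t)⁻¹) (-1 / (1 + Wq q) ^ 2) (Wq q) :=
    ((hasDerivAt_id' _).const_add 1).fun_inv (by positivity)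
  have h4 := (h3.comp_hasFDerivAt q h2).smul Complex.conjCLE.hasFDerivAt
  rw [show fderiv ℝ Th q = _ from h4.fderiv]
  simp only [add_apply, smul_apply, Function.comp,
    ContinuousLinearMap.smulRight_apply, innerSL_apply_apply, smul_eq_mul, nsmul_eq_mul,
    ContinuousLinearEquiv.coe_coe, Complex.conjCLE_apply, sub_eq_add_neg, ← neg_smul]
  congr 2
  push_cast
  field_simp

lemma norm_fderiv_Th (q : ℂ) : ‖fderiv ℝ Th q‖ ≤ 2 := by
  refine ContinuousLinearMap.opNorm_le_bound _ two_pos.le fun h => ?_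
  have h1 := one_le_Wq q
  have h2 := norm_le_Wq q
  have h3 := norm_nonneg q
  have h4 := norm_nonneg h
  rw [fderiv_Th]
  refine (norm_sub_le _ _).trans ?_
  rw [norm_smul, norm_smul, norm_mul, Complex.norm_conj, Complex.norm_conj,
    Real.norm_of_nonneg (by positivity), Real.norm_of_nonneg (by positivity)]
  have e1 : (1 + Wq q)⁻¹ * ‖h‖ ≤ 1 * ‖h‖ := by
    gcongr; exact inv_le_one_of_one_le₀ (by linarith)
  have e2 : (Wq q * (1 + Wq q) ^ 2)⁻¹ * ‖⟪q, h⟫‖ * ‖q‖ ≤ ‖h‖ := by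
    have e3 := norm_inner_le_norm (𝕜 := ℝ) q h
    rw [mul_assoc, inv_mul_le_iff₀ (by positivity)]
    calc ‖⟪q, h⟫‖ * ‖q‖ ≤ ‖q‖ * ‖h‖ * ‖q‖ := by gcongr
      _ ≤ Wq q * ‖h‖ * (1 + Wq q) ^ 2 := by gcongr; nlinarith
      _ = _ := by ring
  linarith

lemma key_alg {W q qb s t tb : ℂ} (h : q * qb = W ^ 2 - 1) (h0 : q = 0 → qb = 0 ∧ W = 1)
    (hW : W ≠ 0) (hW1 : 1 + W ≠ 0) :
    (1 + W)⁻¹ * s - (W * (1 + W) ^ 2)⁻¹ / 2 * qb * (t * qb + q * s)
      = ((1 + W)⁻¹ * q) ^ 2 * ((1 + W)⁻¹ * tb - (W * (1 + W) ^ 2)⁻¹ / 2 * qb * (s * qb + q * tb))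
        + W / (1 + W) ^ 2 * (2 * s - (s * q * qb + (t * qb ^ 2 + tb * q ^ 2) / 2) / W ^ 2) := by
  by_cases hq : q = 0
  · obtain ⟨rfl, rfl⟩ := h0 hq
    rw [hq]
    ring
  · obtain rfl : qb = (W ^ 2 - 1) / q := by rw [← h]; field_simp
    field_simp
    ring

/-- **the Beltrami equation** for the derivative of `Th ∘ grad u` -/
lemma key (q : ℂ) (S : ℂ →L[ℝ] ℂ) (hS : ∀ v w, ⟪S v, w⟫ = ⟪v, S w⟫) :
    pzb ((fderiv ℝ Th q).comp S) = conj (Th q) ^ 2 * pz ((fderiv ℝ Th q).comp S)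
      + ((1 - (‖Th q‖ ^ 2) ^ 2) / 4 * (tr S - ⟪S q, q⟫ / (1 + ‖q‖ ^ 2)) : ℝ) := by
  have h1 := one_le_Wq q
  have h2 := Wq_sq q
  have hb : (S I).re = (S 1).im := by
    have := hS I 1
    simpa [Complex.inner] using this
  have htr : tr S = (S 1).re + (S I).im := by
    unfold tr
    rw [LinearMap.trace_eq_sum_inner _ Complex.orthonormalBasisOneI]
    simp [Complex.inner]
  have e0 : (1 - (‖Th q‖ ^ 2) ^ 2) / 4 = Wq q / (1 + Wq q) ^ 2 := by
    rw [norm_Th_sq]; field_simp; ring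
  obtain ⟨s, hs⟩ : ∃ s : ℝ, s = ((S 1).re + (S I).im) / 2 := ⟨_, rfl⟩
  obtain ⟨t, ht⟩ : ∃ t : ℂ, t = ⟨((S 1).re - (S I).im) / 2, (S 1).im⟩ := ⟨_, rfl⟩
  have f1 : ∀ α β : ℝ, (α • conj (S 1) - (β * ⟪q, S 1⟫) • conj q
      + I * (α • conj (S I) - (β * ⟪q, S I⟫) • conj q)) / 2
      = α * s - β / 2 * conj q * (t * conj q + q * s) := by
    intro α β
    rw [hs, ht]
    apply Complex.ext <;> simp [Complex.inner, hb] <;> ring
  have f2 : ∀ α β : ℝ, (α • conj (S 1) - (β * ⟪q, S 1⟫) • conj q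
      - I * (α • conj (S I) - (β * ⟪q, S I⟫) • conj q)) / 2
      = α * conj t - β / 2 * conj q * (s * conj q + q * conj t) := by
    intro α β
    rw [hs, ht]
    apply Complex.ext <;> simp [Complex.inner, hb] <;> ring
  have f3 : ((⟪S q, q⟫ : ℝ) : ℂ)
      = s * q * conj q + (t * conj q ^ 2 + conj t * q ^ 2) / 2 := by
    rw [hs, ht, lin_eq S q]
    apply Complex.ext <;> simp [Complex.inner, hb, sq] <;> ring
  have hW : (Wq q : ℂ) ≠ 0 := Complex.ofReal_ne_zero.2 (by positivity)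
  have hW1 : 1 + (Wq q : ℂ) ≠ 0 := by
    exact_mod_cast (show (1 + Wq q : ℝ) ≠ 0 by positivity)
  have k := key_alg (W := Wq q) (q := q) (qb := conj q) (s := s) (t := t) (tb := conj t)
    (by rw [Complex.mul_conj']; exact_mod_cast (by linarith : ‖q‖ ^ 2 = Wq q ^ 2 - 1))
    (fun h => by simp [h, Wq]) hW hW1
  rw [pzb, pz]
  simp only [ContinuousLinearMap.comp_apply, fderiv_Th]
  rw [f1, f2, e0, htr, ← h2, show (S 1).re + (S I).im = 2 * s by rw [hs]; ring, Th,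
    Complex.real_smul, map_mul, Complex.conj_ofReal, Complex.conj_conj]
  push_cast
  rw [f3]
  exact k

/-- the equation for a function which is smooth near `z` -/
lemma belt_eq (a : ℂ) (c : ℝ) {u : ℂ → ℝ} {z : ℂ} (hu : ContDiffAt ℝ ∞ u z) :
    pzb (fderiv ℝ (fun z => Th (grad u z)) z)
      = conj (Th (grad u z)) ^ 2 * pz (fderiv ℝ (fun z => Th (grad u z)) z)
        + (Af a c (z, u z, Th (grad u z)) : ℝ)
        + ((1 - (‖Th (grad u z)‖ ^ 2) ^ 2) / 4 * resG a c u z : ℝ) := by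
  have h1 := fderiv_comp z (contDiff_Th.differentiable (by simp) (grad u z))
    ((contDiffAt_grad hu).differentiableAt (by simp))
  rw [show fderiv ℝ (fun z => Th (grad u z)) z = _ from h1, key _ _ (hess_symm hu), add_assoc,
    ← Complex.ofReal_add]
  congr 2
  have h2 : ⟪a + z, grad u z⟫ = 2 / (1 - ‖Th (grad u z)‖ ^ 2) * ⟪a + z, conj (Th (grad u z))⟫ := by
    rw [← real_inner_smul_right, ← Ps, Ps_Th]
  have h3 : 1 - ‖Th (grad u z)‖ ^ 2 ≠ 0 := by
    have := one_le_Wq (grad u z)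
    rw [norm_Th_sq, one_sub_div (by positivity)]
    refine div_ne_zero ?_ (by positivity)
    linarith
  unfold Af resG mcG
  rw [h2]
  field_simp
  ring

lemma norm_fderiv_comp {u : ℂ → ℝ} {z : ℂ} (hu : ContDiffAt ℝ ∞ u z) :
    ‖fderiv ℝ (fun z => Th (grad u z)) z‖ ≤ 2 * ‖fderiv ℝ (grad u) z‖ := by
  have h1 := fderiv_comp z (contDiff_Th.differentiable (by simp) (grad u z))
    ((contDiffAt_grad hu).differentiableAt (by simp))
  rw [show fderiv ℝ (fun z => Th (grad u z)) z = _ from h1]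
  exact (ContinuousLinearMap.opNorm_comp_le _ _).trans
    (mul_le_mul_of_nonneg_right (norm_fderiv_Th _) (norm_nonneg _))

lemma fderiv_eq_grad (u : ℂ → ℝ) (z w : ℂ) :
    ((fderiv ℝ u z w : ℝ) : ℂ) = conj (grad u z) / 2 * w + grad u z / 2 * conj w := by
  rw [← inner_grad]
  apply Complex.ext <;> simp [Complex.inner] <;> ring

end Vale.Agent.P218N.B.Pl
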