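import Vale.Agent.P218N.B.PlaneA

/-! Passing to the limit in the Beltrami equation. -/

open MeasureTheory Set Filter Topology Metric
open scoped ENNReal NNReal RealInnerProductSpace ContDiff ComplexConjugate

namespace Vale.Agent.P218N.B.Pl

open Vale.Agent.P218.H313
open Complex (I)

set_option linter.unusedSectionVars false
set_option linter.unusedVariables false

section tools

variable {ι : Type*} {l : Filter ι} {a : ι → ℝ≥0∞}

lemma tend_of (h : ∀ ε : ℝ, 0 < ε → ∀ᶠ i in l, a i ≤ ENNReal.ofReal ε) : Tendsto a l (𝓝 0) := by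
  refine ENNReal.tendsto_nhds_zero.2 fun ε hε => ?_
  by_cases ht : ε = ⊤
  · simp [ht]
  · simpa [ENNReal.ofReal_toReal ht] using h ε.toReal (ENNReal.toReal_pos hε.ne' ht)

lemma tend_delta {C : ℝ≥0∞} (hC : C ≠ ⊤) (h : ∀ δ : ℝ, 0 < δ → ∃ b : ι → ℝ≥0∞,
    Tendsto b l (𝓝 0) ∧ ∀ᶠ i in l, a i ≤ ENNReal.ofReal δ * C + b i) : Tendsto a l (𝓝 0) := by
  refine ENNReal.tendsto_nhds_zero.2 fun ε hε => ?_
  have h1 : Tendsto (fun δ : ℝ => ENNReal.ofReal δ * C) (𝓝[>] 0) (𝓝 0) := by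
    have h2 : Tendsto (fun δ : ℝ => ENNReal.ofReal δ) (𝓝[>] 0) (𝓝 0) := by
      simpa using (ENNReal.continuous_ofReal.tendsto 0).mono_left nhdsWithin_le_nhds
    simpa using ENNReal.Tendsto.mul_const h2 (Or.inr hC)
  have hε2 : 0 < ε / 2 := ENNReal.half_pos hε.ne'
  obtain ⟨δ, h2, h3⟩ := ((ENNReal.tendsto_nhds_zero.1 h1 _ hε2).and self_mem_nhdsWithin).exists
  obtain ⟨b, h4, h5⟩ := h δ h3
  filter_upwards [h5, ENNReal.tendsto_nhds_zero.1 h4 _ hε2] with i k1 k2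
  exact k1.trans ((add_le_add h2 k2).trans (ENNReal.add_halves ε).le)

lemma tend_mul (h : Tendsto a l (𝓝 0)) (A : ℝ) :
    Tendsto (fun i => ENNReal.ofReal A * a i) l (𝓝 0) := by
  simpa using ENNReal.Tendsto.const_mul h (Or.inr ENNReal.ofReal_ne_top)

lemma tend_le {b : ι → ℝ≥0∞} (h : Tendsto b l (𝓝 0)) (hab : ∀ᶠ i in l, a i ≤ b i) :
    Tendsto a l (𝓝 0) :=
  tendsto_of_tendsto_of_tendsto_of_le_of_le' tendsto_const_nhds h
    (Eventually.of_forall fun _ => zero_le) hab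

lemma modulus {X F : Type*} [PseudoMetricSpace X] [NormedAddCommGroup F] {K : Set X}
    (hK : IsCompact K) {f : X → F} (hf : ContinuousOn f K) {δ : ℝ} (hδ : 0 < δ) :
    ∃ A : ℝ, 0 ≤ A ∧ ∀ x ∈ K, ∀ y ∈ K, ‖f x - f y‖ ≤ δ + A * dist x y := by
  obtain ⟨B, hB⟩ := hK.exists_bound_of_continuousOn hf
  obtain ⟨r, hr, h⟩ := Metric.uniformContinuousOn_iff.1
    (hK.uniformContinuousOn_of_continuous hf) δ hδ
  refine ⟨2 * |B| / r, by positivity, fun x hx y hy => ?_⟩
  by_cases hxy : dist x y < r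
  · have h1 := h x hx y hy hxy
    rw [dist_eq_norm] at h1
    have : 0 ≤ 2 * |B| / r * dist x y := by positivity
    linarith
  · have h1 : 2 * |B| / r * r ≤ 2 * |B| / r * dist x y := by gcongr; exact not_lt.1 hxy
    rw [div_mul_cancel₀ _ hr.ne'] at h1
    have h2 := norm_sub_le (f x) (f y)
    linarith [hB x hx, hB y hy, le_abs_self B]

variable {F : Type*} [NormedAddCommGroup F] [NormedSpace ℝ F] {S : ι → Set ℂ} {f : ι → ℂ → F}

lemma tend_int (h : Tendsto (fun i => ∫⁻ z in S i, ‖f i z‖ₑ) l (𝓝 0)) :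
    Tendsto (fun i => ∫ z in S i, f i z) l (𝓝 0) := by
  refine squeeze_zero_norm (fun i => norm_integral_le_lintegral_norm _) ?_
  simpa [Function.comp_def] using (ENNReal.tendsto_toReal ENNReal.zero_ne_top).comp h

lemma tend_bdd {B : ℝ} (hS : ∀ᶠ i in l, MeasurableSet (S i) ∧ ∀ z ∈ S i, ‖f i z‖ ≤ B)
    (h : Tendsto (fun i => volume (S i)) l (𝓝 0)) :
    Tendsto (fun i => ∫⁻ z in S i, ‖f i z‖ₑ) l (𝓝 0) := by
  refine tend_le (tend_mul h B) (hS.mono fun i hi => ?_)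
  rw [← setLIntegral_const]
  refine setLIntegral_mono' hi.1 fun z hz => ?_
  rw [← ofReal_norm]
  exact ENNReal.ofReal_le_ofReal (hi.2 z hz)

lemma measurable_grad (u : ℂ → ℝ) : Measurable (grad u) := by
  rw [grad_eq]
  exact (riesz ℂ).continuous.measurable.comp (measurable_fderiv ℝ u)

variable {u : ℂ → ℝ} {L : ℝ}

lemma norm_grad_le (hL : 0 ≤ L) (hu : ∀ y y', |u y - u y'| ≤ L * ‖y - y'‖) (y : ℂ) :
    ‖grad u y‖ ≤ L := by
  rw [norm_grad]
  exact norm_fderiv_le_of_lip' ℝ hL (Eventually.of_forall fun x => hu x y)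

lemma lipschitz_of (hL : 0 ≤ L) (hu : ∀ y y', |u y - u y'| ≤ L * ‖y - y'‖) :
    LipschitzWith ⟨L, hL⟩ u :=
  LipschitzWith.of_dist_le_mul fun y y' => by
    rw [Real.dist_eq, dist_eq_norm]; exact hu y y'

/-- integration by parts for Lipschitz functions -/
lemma ibp_lip (hL : 0 ≤ L) (hu : ∀ y y', |u y - u y'| ≤ L * ‖y - y'‖) {φ : ℂ → ℝ}
    (hφ : ContDiff ℝ ∞ φ) (hφc : HasCompactSupport φ) (w : ℂ) :
    ∫ z, fderiv ℝ φ z w * u z = - ∫ z, φ z * ⟪grad u z, w⟫ := by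
  obtain ⟨K, hK⟩ := ContDiff.lipschitzWith_of_hasCompactSupport hφc hφ (by simp)
  have h1 := (lipschitz_of hL hu).integral_lineDeriv_mul_eq (μ := volume) hK hφc w
  have h2 : ∫ z, lineDeriv ℝ u z w * φ z = ∫ z, φ z * ⟪grad u z, w⟫ := by
    refine integral_congr_ae ?_
    filter_upwards [(lipschitz_of hL hu).ae_differentiableAt (μ := volume)] with z hz
    rw [hz.lineDeriv_eq_fderiv, inner_grad, mul_comm]
  rw [← h2, h1, ← integral_neg]
  refine integral_congr_ae (Eventually.of_forall fun z => ?_)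
  simp only
  rw [(hφ.differentiable (by simp) z).lineDeriv_eq_fderiv, map_neg, neg_mul, neg_neg]

lemma memLp_bdd {F : Type*} [NormedAddCommGroup F] {g : ℂ → F} {ρ B : ℝ}
    (hg : AEStronglyMeasurable g (volume.restrict (ball 0 ρ)))
    (hB : ∀ z ∈ ball (0 : ℂ) ρ, ‖g z‖ ≤ B) (p : ℝ≥0∞) :
    MemLp g p (volume.restrict (ball 0 ρ)) := by
  have : IsFiniteMeasure (volume.restrict (ball (0 : ℂ) ρ)) :=
    isFiniteMeasure_restrict.2 measure_ball_lt_top.ne
  exact MemLp.of_bound hg B ((ae_restrict_mem measurableSet_ball).mono hB)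

end tools

/-- almost solutions on discs with small holes, in the complex plane -/
structure ApC {ι : Type} (U : Ultrafilter ι) (ρ L C : ℝ) (a : ℂ) (c : ℝ) (u : ι → ℂ → ℝ)
    (G : ι → Set ℂ) (v : ℂ → ℝ) : Prop where
  hL : 0 ≤ L
  op : ∀ᶠ i in (U : Filter ι), IsOpen (G i) ∧ G i ⊆ ball 0 ρ ∧ ContDiffOn ℝ ∞ (u i) (G i)
  lip : ∀ᶠ i in (U : Filter ι), ∀ y y', |u i y - u i y'| ≤ L * ‖y - y'‖
  lipv : ∀ y y', |v y - v y'| ≤ L * ‖y - y'‖
  hess : ∀ᶠ i in (U : Filter ι),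
    ∫⁻ y in G i, ENNReal.ofReal (‖fderiv ℝ (grad (u i)) y‖ ^ 2) ≤ ENNReal.ofReal C
  vol : Tendsto (fun i => volume (ball 0 ρ \ G i)) U (𝓝 0)
  res : Tendsto (fun i => ∫⁻ y in G i, ENNReal.ofReal (resG a c (u i) y ^ 2)) U (𝓝 0)
  unif : ∀ δ : ℝ, 0 < δ → ∀ᶠ i in (U : Filter ι), ∀ y ∈ ball (0 : ℂ) ρ, |u i y - v y| ≤ δ

/-- the limit of the Gauss maps -/
structure Out {ι : Type} (U : Ultrafilter ι) (ρ L : ℝ) (u : ι → ℂ → ℝ) (G : ι → Set ℂ)
    (Y₀ : ℂ → ℂ) (D : ℂ → ℂ →L[ℝ] ℂ) : Prop where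
  meas : StronglyMeasurable Y₀
  bd : ∀ z, ‖Y₀ z‖ ≤ L / (1 + L)
  memLp : MemLp D 2 (volume.restrict (ball 0 ρ))
  l1 : Tendsto (fun i => ∫⁻ z in G i, ‖Th (grad (u i) z) - Y₀ z‖ₑ) U (𝓝 0)
  weak : ∀ (w : ℂ) (g : ℂ → ℂ), MemLp g 2 (volume.restrict (ball 0 ρ)) →
    Tendsto (fun i => ∫ z in G i, g z * fderiv ℝ (fun z => Th (grad (u i) z)) z w) U
      (𝓝 (∫ z in ball (0 : ℂ) ρ, g z * D z w))
  wd : ∀ φ : ℂ → ℝ, ContDiff ℝ ∞ φ → HasCompactSupport φ → tsupport φ ⊆ ball 0 ρ → ∀ w : ℂ,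
    ∫ z, fderiv ℝ φ z w • Y₀ z = - ∫ z, φ z • D z w

variable {ι : Type} {U : Ultrafilter ι} {ρ L C : ℝ} {a : ℂ} {c : ℝ} {u : ι → ℂ → ℝ}
  {G : ι → Set ℂ} {v : ℂ → ℝ} {Y₀ : ℂ → ℂ} {D : ℂ → ℂ →L[ℝ] ℂ}

lemma k_lt (hL : 0 ≤ L) : L / (1 + L) < 1 := (div_lt_one (by linarith)).2 (by linarith)

lemma ApC.hessY (h : ApC U ρ L C a c u G v) : ∀ᶠ i in (U : Filter ι),
    ∫⁻ z in G i, ENNReal.ofReal (‖fderiv ℝ (fun z => Th (grad (u i) z)) z‖ ^ 2)
      ≤ ENNReal.ofReal (4 * C) := by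
  filter_upwards [h.op, h.hess] with i ⟨h1, _, h3⟩ h4
  rw [ENNReal.ofReal_mul (by norm_num)]
  refine le_trans ?_ (mul_le_mul_right h4 _)
  rw [← lintegral_const_mul' _ _ ENNReal.ofReal_ne_top]
  refine setLIntegral_mono' h1.measurableSet fun z hz => ?_
  rw [← ENNReal.ofReal_mul (by norm_num)]
  refine ENNReal.ofReal_le_ofReal ?_
  have h5 := norm_fderiv_comp (h3.contDiffAt (h1.mem_nhds hz))
  nlinarith [norm_nonneg (fderiv ℝ (fun z => Th (grad (u i) z)) z)]

/-- the gradients converge in `L¹` -/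
lemma ApC.grad_l1 (h : ApC U ρ L C a c u G v) (o : Out U ρ L u G Y₀ D) :
    Tendsto (fun i => ∫⁻ z in G i, ‖grad (u i) z - Ps (Y₀ z)‖ₑ) U (𝓝 0) := by
  refine tend_delta (C := volume (ball (0 : ℂ) ρ)) measure_ball_lt_top.ne fun δ hδ => ?_
  obtain ⟨A, hA, hm⟩ := modulus (isCompact_closedBall _ _) (continuousOn_Ps (k_lt h.hL)) hδ
  refine ⟨_, tend_mul o.l1 A, ?_⟩
  filter_upwards [h.op, h.lip] with i ⟨_, h2, _⟩ h4
  calc ∫⁻ z in G i, ‖grad (u i) z - Ps (Y₀ z)‖ₑ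
      ≤ ∫⁻ z in G i, (ENNReal.ofReal δ + ENNReal.ofReal A * ‖Th (grad (u i) z) - Y₀ z‖ₑ) := by
        refine lintegral_mono fun z => ?_
        have h5 := hm _ (mem_closedBall_zero_iff.2 (norm_Th_le (norm_grad_le h.hL h4 z))) _
          (mem_closedBall_zero_iff.2 (o.bd z))
        rw [Ps_Th, dist_eq_norm] at h5
        simp only
        rw [← ofReal_norm, ← ofReal_norm, ← ENNReal.ofReal_mul hA,
          ← ENNReal.ofReal_add hδ.le (by positivity)]
        exact ENNReal.ofReal_le_ofReal h5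
    _ ≤ _ := by
        rw [lintegral_add_left measurable_const, setLIntegral_const,
          lintegral_const_mul' _ _ ENNReal.ofReal_ne_top]
        gcongr

lemma Out.ps (o : Out U ρ L u G Y₀ D) (hL : 0 ≤ L) :
    Measurable (fun z => Ps (Y₀ z)) ∧ ∃ B : ℝ, ∀ z, ‖Ps (Y₀ z)‖ ≤ B := by
  constructor
  · have h1 := o.meas.measurable
    have h2 : Measurable fun z => conj (Y₀ z) := Complex.continuous_conj.measurable.comp h1
    unfold Ps
    fun_prop
  · obtain ⟨B, hB⟩ := (isCompact_closedBall (0 : ℂ) _).exists_bound_of_continuousOn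
      (continuousOn_Ps (k_lt hL))
    exact ⟨B, fun z => hB _ (mem_closedBall_zero_iff.2 (o.bd z))⟩

/-- the limit of the gradients is the gradient of the limit -/
lemma ApC.grad_eq (h : ApC U ρ L C a c u G v) (o : Out U ρ L u G Y₀ D) :
    ∀ᵐ z, z ∈ ball (0 : ℂ) ρ → grad v z = Ps (Y₀ z) := by
  obtain ⟨hm, B, hB⟩ := o.ps h.hL
  have hb : Tendsto (fun i => ∫⁻ z in ball (0 : ℂ) ρ, ‖grad (u i) z - Ps (Y₀ z)‖ₑ) U (𝓝 0) := by
    have h1 := (h.grad_l1 o).add (tend_bdd (f := fun i z => grad (u i) z - Ps (Y₀ z)) (B := L + B)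
      (by
        filter_upwards [h.op, h.lip] with i ⟨h1, _, _⟩ h4
        exact ⟨measurableSet_ball.diff h1.measurableSet, fun z _ =>
          (norm_sub_le _ _).trans (add_le_add (norm_grad_le h.hL h4 z) (hB z))⟩) h.vol)
    rw [add_zero] at h1
    refine tend_le h1 (Eventually.of_forall fun i => ?_)
    exact (lintegral_mono_set (fun z hz => by by_cases h : z ∈ G i <;> simp [h, hz])).trans (lintegral_union_le _ _ _)
  have hint : ∀ {φ : ℂ → ℝ} {q : ℂ → ℂ} {K : ℝ} (w : ℂ), Continuous φ → HasCompactSupport φ →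
      Measurable q → (∀ z, ‖q z‖ ≤ K) → Integrable fun z => φ z * ⟪q z, w⟫ := by
    intro φ q K w h1 h2 h3 h4
    refine (h1.integrable_of_hasCompactSupport h2).mul_bdd (c := K * ‖w‖)
      (h3.inner measurable_const).aestronglyMeasurable (Eventually.of_forall fun z => ?_)
    exact (norm_inner_le_norm _ _).trans (by gcongr; exact h4 z)
  have key : ∀ w : ℂ, ∀ᵐ z, z ∈ ball (0 : ℂ) ρ → ⟪grad v z - Ps (Y₀ z), w⟫ = 0 := by
    intro w
    refine isOpen_ball.ae_eq_zero_of_integral_contDiff_smul_eq_zero ?_ fun φ hφ hφc hs => ?_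
    · refine IntegrableOn.locallyIntegrableOn (memLp_one_iff_integrable.1 (memLp_bdd
        (B := (L + B) * ‖w‖) (((measurable_grad v).sub hm).inner
          measurable_const).aestronglyMeasurable (fun z _ => ?_) 1))
      refine (norm_inner_le_norm _ _).trans ?_
      gcongr
      exact (norm_sub_le _ _).trans (add_le_add (norm_grad_le h.hL h.lipv z) (hB z))
    obtain ⟨B₁, hB₁⟩ := hφc.exists_bound_of_continuous hφ.continuous
    have hd : Continuous fun z => fderiv ℝ φ z w :=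
      (hφ.continuous_fderiv (by simp)).clm_apply continuous_const
    have hdc : HasCompactSupport fun z => fderiv ℝ φ z w := hφc.fderiv_apply ℝ w
    have hz : ∀ z, z ∉ ball (0 : ℂ) ρ → φ z = 0 ∧ fderiv ℝ φ z w = 0 := fun z hz =>
      ⟨image_eq_zero_of_notMem_tsupport fun h => hz (hs h), by
        rw [fderiv_of_notMem_tsupport ℝ fun h => hz (hs h)]; rfl⟩
    have t1 : Tendsto (fun i => ∫ z, fderiv ℝ φ z w * u i z) U (𝓝 (∫ z, fderiv ℝ φ z w * v z)) := by
      rw [Metric.tendsto_nhds]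
      intro ε hε
      have hI : 0 ≤ ∫ z, ‖fderiv ℝ φ z w‖ := integral_nonneg fun z => norm_nonneg _
      filter_upwards [h.unif (ε / ((∫ z, ‖fderiv ℝ φ z w‖) + 1)) (by positivity), h.lip]
        with i k1 k2
      have i1 : Integrable fun z => fderiv ℝ φ z w * u i z :=
        (hd.mul (lipschitz_of h.hL k2).continuous).integrable_of_hasCompactSupport hdc.mul_right
      have i2 : Integrable fun z => fderiv ℝ φ z w * v z :=
        (hd.mul (lipschitz_of h.hL h.lipv).continuous).integrable_of_hasCompactSupport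
          hdc.mul_right
      rw [dist_eq_norm, ← integral_sub i1 i2]
      refine lt_of_le_of_lt (norm_integral_le_of_norm_le
        (((hd.integrable_of_hasCompactSupport hdc).norm).mul_const
          (ε / ((∫ z, ‖fderiv ℝ φ z w‖) + 1))) (Eventually.of_forall fun z => ?_)) ?_
      · by_cases hzb : z ∈ ball (0 : ℂ) ρ
        · rw [← mul_sub, norm_mul]
          exact mul_le_mul_of_nonneg_left (k1 z hzb) (norm_nonneg _)
        · simp [(hz z hzb).2]
      · rw [integral_mul_const, ← mul_div_assoc, div_lt_iff₀ (by positivity)]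
        nlinarith
    have t2 : Tendsto (fun i => ∫ z in ball (0 : ℂ) ρ, φ z * ⟪grad (u i) z - Ps (Y₀ z), w⟫) U
        (𝓝 0) := by
      refine tend_int (S := fun _ => ball 0 ρ) (tend_le (tend_mul hb (B₁ * ‖w‖))
        (Eventually.of_forall fun i => ?_))
      rw [← lintegral_const_mul' _ _ ENNReal.ofReal_ne_top]
      refine lintegral_mono fun z => ?_
      have hB0 : 0 ≤ B₁ := (norm_nonneg _).trans (hB₁ 0)
      simp only
      rw [← ofReal_norm, ← ofReal_norm, ← ENNReal.ofReal_mul (by positivity), norm_mul]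
      refine ENNReal.ofReal_le_ofReal ((mul_le_mul (hB₁ z) (norm_inner_le_norm _ _)
        (norm_nonneg _) hB0).trans (le_of_eq (by ring)))
    have t3 : Tendsto (fun i => -(∫ z, fderiv ℝ φ z w * u i z) - ∫ z, φ z * ⟪Ps (Y₀ z), w⟫) U
        (𝓝 0) := by
      refine t2.congr' (h.lip.mono fun i k2 => ?_)
      simp only
      rw [setIntegral_eq_integral_of_forall_compl_eq_zero fun z hzb => by simp [(hz z hzb).1],
        ibp_lip h.hL k2 hφ hφc, neg_neg, ← integral_sub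
          (hint w hφ.continuous hφc (measurable_grad _) (norm_grad_le h.hL k2))
          (hint w hφ.continuous hφc hm hB)]
      simp only [inner_sub_left, mul_sub]
    have t4 := tendsto_nhds_unique (t1.neg.sub_const _) t3
    rw [ibp_lip h.hL h.lipv hφ hφc, neg_neg, ← integral_sub
      (hint w hφ.continuous hφc (measurable_grad _) (norm_grad_le h.hL h.lipv))
      (hint w hφ.continuous hφc hm hB)] at t4
    simpa only [inner_sub_left, mul_sub, smul_eq_mul] using t4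
  filter_upwards [key 1, key I] with z k1 k2 hz
  rw [← sub_eq_zero]
  apply Complex.ext
  · simpa [Complex.inner] using k1 hz
  · simpa [Complex.inner, neg_add_eq_sub] using k2 hz

end Vale.Agent.P218N.B.Pl
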