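import Vale.Agent.P218N.B.PlaneB

/-! The limit of the Gauss maps solves the Beltrami equation almost everywhere. -/

open MeasureTheory Set Filter Topology Metric
open scoped ENNReal NNReal RealInnerProductSpace ContDiff ComplexConjugate

namespace Vale.Agent.P218N.B.Pl

open Vale.Agent.P218.H313
open Complex (I)

set_option linter.unusedSectionVars false
set_option linter.unusedVariables false

variable {ι : Type} {U : Ultrafilter ι} {ρ L C : ℝ} {a : ℂ} {c : ℝ} {u : ι → ℂ → ℝ}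
  {G : ι → Set ℂ} {v : ℂ → ℝ} {Y₀ : ℂ → ℂ} {D : ℂ → ℂ →L[ℝ] ℂ}

lemma err_le {Y Y' P : ℂ} {A A' r H δ K : ℝ} (hδ : 0 < δ) (hY : ‖Y‖ ≤ 1) (hY' : ‖Y'‖ ≤ 1)
    (hP : ‖P‖ ≤ H) (hA : |A - A'| ≤ 2 * δ + K * ‖Y - Y'‖) :
    ‖conj Y ^ 2 * P + A + ((1 - (‖Y‖ ^ 2) ^ 2) / 4 * r : ℝ) - conj Y' ^ 2 * P - A'‖
      ≤ δ * H ^ 2 + δ * 3 + ((2 / δ + K) * ‖Y - Y'‖ + δ⁻¹ * r ^ 2) := by
  have e : conj Y ^ 2 * P + A + ((1 - (‖Y‖ ^ 2) ^ 2) / 4 * r : ℝ) - conj Y' ^ 2 * P - A'
      = conj (Y + Y') * conj (Y - Y') * P + ((A - A' : ℝ) : ℂ)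
        + ((1 - (‖Y‖ ^ 2) ^ 2) / 4 * r : ℝ) := by
    rw [map_add, map_sub, Complex.ofReal_sub A]; ring
  rw [e]
  refine (norm_add₃_le).trans ?_
  rw [norm_mul, norm_mul, Complex.norm_conj, Complex.norm_conj, Complex.norm_real,
    Complex.norm_real, Real.norm_eq_abs, Real.norm_eq_abs, abs_mul]
  have h1 : ‖Y + Y'‖ ≤ 2 := (norm_add_le _ _).trans (by linarith)
  have h2 : ‖Y - Y'‖ ≤ 2 := (norm_sub_le _ _).trans (by linarith)
  have h3 := norm_nonneg (Y - Y')
  have h4 : (‖Y‖ ^ 2) ^ 2 ≤ 1 := pow_le_one₀ (by positivity) (pow_le_one₀ (norm_nonneg _) hY)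
  have h5 : |(1 - (‖Y‖ ^ 2) ^ 2) / 4| ≤ 1 := by
    rw [abs_le]; constructor <;> nlinarith [sq_nonneg (‖Y‖ ^ 2)]
  set e := ‖Y - Y'‖
  have k1 : ‖Y + Y'‖ * e * ‖P‖ ≤ 2 * e * H := by gcongr
  have k2 : 2 * e * H ≤ δ * H ^ 2 + 2 / δ * e := by
    have k3 : δ * (2 * e * H) ≤ δ * (δ * H ^ 2 + 2 / δ * e) := by
      rw [mul_add, ← mul_assoc δ (2 / δ), mul_div_cancel₀ _ hδ.ne']
      nlinarith [sq_nonneg (δ * H - e)]
    exact le_of_mul_le_mul_left k3 hδ
  have k4 : |(1 - (‖Y‖ ^ 2) ^ 2) / 4| * |r| ≤ 1 * |r| := by gcongr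
  have k5 : |r| ≤ δ + δ⁻¹ * r ^ 2 := by
    have k6 : δ * |r| ≤ δ * (δ + δ⁻¹ * r ^ 2) := by
      rw [mul_add, ← mul_assoc δ δ⁻¹, mul_inv_cancel₀ hδ.ne', ← sq_abs r]
      nlinarith [sq_nonneg (δ - |r|), abs_nonneg r]
    exact le_of_mul_le_mul_left k6 hδ
  linarith

lemma ApC.exists_bound (h : ApC U ρ L C a c u G v) :
    ∃ M : ℝ, ∀ z ∈ ball (0 : ℂ) ρ, |v z| + 1 ≤ M := by
  obtain ⟨M, hM⟩ := (isCompact_closedBall (0 : ℂ) ρ).exists_bound_of_continuousOn
    (lipschitz_of h.hL h.lipv).continuous.continuousOn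
  exact ⟨M + 1, fun z hz => by linarith [show |v z| ≤ M from hM z (ball_subset_closedBall hz)]⟩

lemma Out.bd1 (o : Out U ρ L u G Y₀ D) (hL : 0 ≤ L) (z : ℂ) : ‖Y₀ z‖ ≤ 1 :=
  (o.bd z).trans (k_lt hL).le

lemma measurable_Y (u : ℂ → ℝ) : Measurable fun z => Th (grad u z) :=
  contDiff_Th.continuous.measurable.comp (measurable_grad u)

/-- the equation with frozen coefficients holds up to a small error -/
lemma ApC.err (h : ApC U ρ L C a c u G v) (o : Out U ρ L u G Y₀ D) :
    Tendsto (fun i => ∫⁻ z in G i, ‖pzb (fderiv ℝ (fun z => Th (grad (u i) z)) z)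
      - conj (Y₀ z) ^ 2 * pz (fderiv ℝ (fun z => Th (grad (u i) z)) z)
      - (Af a c (z, v z, Y₀ z) : ℝ)‖ₑ) U (𝓝 0) := by
  obtain ⟨M, hM⟩ := h.exists_bound
  have hK : IsCompact (closedBall (0 : ℂ) ρ ×ˢ closedBall (0 : ℝ) M ×ˢ closedBall (0 : ℂ) 1) :=
    (isCompact_closedBall _ _).prod ((isCompact_closedBall _ _).prod (isCompact_closedBall _ _))
  refine tend_delta (C := ENNReal.ofReal (4 * C) + 3 * volume (ball (0 : ℂ) ρ))
    (ENNReal.add_ne_top.2 ⟨ENNReal.ofReal_ne_top,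
      ENNReal.mul_ne_top (by norm_num) measure_ball_lt_top.ne⟩) fun δ hδ => ?_
  obtain ⟨A, hA, hm⟩ := modulus hK (contDiff_Af a c).continuous.continuousOn hδ
  refine ⟨_, by simpa using (tend_mul o.l1 (2 / δ + A)).add (tend_mul h.res δ⁻¹), ?_⟩
  filter_upwards [h.op, h.lip, h.hessY, h.unif (min 1 (δ / (A + 1))) (by positivity)]
    with i ⟨h1, h2, h3⟩ h4 h5 h6
  have m1 : Measurable fun z =>
      ENNReal.ofReal (‖fderiv ℝ (fun z => Th (grad (u i) z)) z‖ ^ 2) :=
    ((measurable_fderiv ℝ _).norm.pow_const 2).ennreal_ofReal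
  have m2 : Measurable fun z => ‖Th (grad (u i) z) - Y₀ z‖ₑ :=
    ((measurable_Y _).sub o.meas.measurable).enorm
  calc _ ≤ ∫⁻ z in G i, (ENNReal.ofReal δ
          * ENNReal.ofReal (‖fderiv ℝ (fun z => Th (grad (u i) z)) z‖ ^ 2)
        + ENNReal.ofReal δ * 3 + (ENNReal.ofReal (2 / δ + A) * ‖Th (grad (u i) z) - Y₀ z‖ₑ
        + ENNReal.ofReal δ⁻¹ * ENNReal.ofReal (resG a c (u i) z ^ 2))) := by
        refine setLIntegral_mono' h1.measurableSet fun z hz => ?_
        have k1 : ‖Th (grad (u i) z)‖ ≤ 1 :=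
          (norm_Th_le (norm_grad_le h.hL h4 z)).trans (k_lt h.hL).le
        have k2 := hM z (h2 hz)
        have k3 := h6 z (h2 hz)
        have k4 : |u i z| ≤ M := by
          have := abs_sub_abs_le_abs_sub (u i z) (v z)
          linarith [k3.trans (min_le_left _ _)]
        have k5 := hm (z, u i z, Th (grad (u i) z))
          ⟨ball_subset_closedBall (h2 hz), mem_closedBall_zero_iff.2 k4,
            mem_closedBall_zero_iff.2 k1⟩ (z, v z, Y₀ z)
          ⟨ball_subset_closedBall (h2 hz), mem_closedBall_zero_iff.2 (by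
            change |v z| ≤ M; linarith), mem_closedBall_zero_iff.2 (o.bd1 h.hL z)⟩
        have k6 : dist (z, u i z, Th (grad (u i) z)) (z, v z, Y₀ z)
            ≤ δ / (A + 1) + ‖Th (grad (u i) z) - Y₀ z‖ := by
          have k7 := k3.trans (min_le_right _ _)
          have k8 : 0 ≤ δ / (A + 1) := by positivity
          have k9 := norm_nonneg (Th (grad (u i) z) - Y₀ z)
          rw [Prod.dist_eq, Prod.dist_eq, max_le_iff, max_le_iff, dist_self, Real.dist_eq,
            dist_eq_norm]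
          exact ⟨by linarith, by linarith, by linarith⟩
        have k7 : A * (δ / (A + 1)) ≤ δ := by
          rw [← mul_div_assoc, div_le_iff₀ (by positivity)]; nlinarith
        have k8 := err_le (r := resG a c (u i) z) (K := A) hδ k1 (o.bd1 h.hL z)
          (norm_pz_le (fderiv ℝ (fun z => Th (grad (u i) z)) z))
          (k5.trans (by nlinarith [mul_le_mul_of_nonneg_left k6 hA]))
        rw [belt_eq a c (h3.contDiffAt (h1.mem_nhds hz)), ← ofReal_norm, ← ofReal_norm,
          ← ENNReal.ofReal_ofNat 3, ← ENNReal.ofReal_mul hδ.le, ← ENNReal.ofReal_mul hδ.le,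
          ← ENNReal.ofReal_mul (by positivity), ← ENNReal.ofReal_mul (by positivity),
          ← ENNReal.ofReal_add (by positivity) (by positivity),
          ← ENNReal.ofReal_add (by positivity) (by positivity),
          ← ENNReal.ofReal_add (by positivity) (by positivity)]
        exact ENNReal.ofReal_le_ofReal k8
    _ ≤ _ := by
        rw [lintegral_add_left ((m1.const_mul _).add_const _),
          lintegral_add_left (m1.const_mul _), lintegral_add_left (m2.const_mul _),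
          setLIntegral_const, lintegral_const_mul' _ _ ENNReal.ofReal_ne_top,
          lintegral_const_mul' _ _ ENNReal.ofReal_ne_top,
          lintegral_const_mul' _ _ ENNReal.ofReal_ne_top, mul_add, mul_assoc]
        gcongr

lemma ApC.Af_bd (h : ApC U ρ L C a c u G v) (o : Out U ρ L u G Y₀ D) :
    Measurable (fun z => (Af a c (z, v z, Y₀ z) : ℂ)) ∧
      ∃ B : ℝ, ∀ z ∈ ball (0 : ℂ) ρ, ‖(Af a c (z, v z, Y₀ z) : ℂ)‖ ≤ B := by
  refine ⟨Complex.measurable_ofReal.comp ((contDiff_Af a c).continuous.measurable.comp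
    (measurable_id.prodMk ((lipschitz_of h.hL h.lipv).continuous.measurable.prodMk
      o.meas.measurable))), ?_⟩
  obtain ⟨M, hM⟩ := h.exists_bound
  have hK : IsCompact (closedBall (0 : ℂ) ρ ×ˢ closedBall (0 : ℝ) M ×ˢ closedBall (0 : ℂ) 1) :=
    (isCompact_closedBall _ _).prod ((isCompact_closedBall _ _).prod (isCompact_closedBall _ _))
  obtain ⟨B, hB⟩ := hK.exists_bound_of_continuousOn (contDiff_Af a c).continuous.continuousOn
  refine ⟨B, fun z hz => ?_⟩
  rw [Complex.norm_real]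
  exact hB _ ⟨ball_subset_closedBall hz, mem_closedBall_zero_iff.2 (by
    have := hM z hz
    change |v z| ≤ M; linarith), mem_closedBall_zero_iff.2 (o.bd1 h.hL z)⟩

lemma split_eq (g m A : ℂ) (D : ℂ →L[ℝ] ℂ) : g * (pzb D - m * pz D - A)
    = g * ((1 - m) / 2) * D 1 + g * (I * (1 + m) / 2) * D I - g * A := by
  unfold pzb pz; ring

lemma int_apply {μ : Measure ℂ} {g : ℂ → ℂ} {D : ℂ → ℂ →L[ℝ] ℂ} (hg : MemLp g 2 μ)
    (hD : MemLp D 2 μ) (w : ℂ) : Integrable (fun z => g z * D z w) μ :=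
  hg.integrable_mul (hD.continuousLinearMap_comp (ContinuousLinearMap.apply ℝ ℂ w))

/-- **the limit equation** -/
lemma ApC.eqn (h : ApC U ρ L C a c u G v) (o : Out U ρ L u G Y₀ D) :
    ∀ᵐ z, z ∈ ball (0 : ℂ) ρ →
      pzb (D z) = conj (Y₀ z) ^ 2 * pz (D z) + (Af a c (z, v z, Y₀ z) : ℝ) := by
  obtain ⟨mA, B, hB⟩ := h.Af_bd o
  have mm : Measurable fun z => conj (Y₀ z) ^ 2 :=
    (Complex.continuous_conj.measurable.comp o.meas.measurable).pow_const 2
  have bm : ∀ z, ‖conj (Y₀ z) ^ 2‖ ≤ 1 := fun z => by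
    rw [norm_pow, Complex.norm_conj]
    exact pow_le_one₀ (norm_nonneg _) (o.bd1 h.hL z)
  have key : ∀ g : ℂ → ℂ, Measurable g → (∀ z, ‖g z‖ ≤ 1) →
      IntegrableOn (fun z => g z * (pzb (D z) - conj (Y₀ z) ^ 2 * pz (D z)
        - (Af a c (z, v z, Y₀ z) : ℝ))) (ball 0 ρ) ∧
      ∫ z in ball (0 : ℂ) ρ, g z * (pzb (D z) - conj (Y₀ z) ^ 2 * pz (D z)
        - (Af a c (z, v z, Y₀ z) : ℝ)) = 0 := by
    intro g hg hg1
    have g1 : MemLp (fun z => g z * ((1 - conj (Y₀ z) ^ 2) / 2)) 2 (volume.restrict (ball 0 ρ)) :=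
      memLp_bdd (B := 1) (Measurable.aestronglyMeasurable (by fun_prop))
        (fun z _ => by
          rw [norm_mul, norm_div, Complex.norm_two]
          have := (norm_sub_le 1 _).trans (add_le_add norm_one.le (bm z))
          exact mul_le_one₀ (hg1 z) (by positivity) (by linarith)) 2
    have g2 : MemLp (fun z => g z * (I * (1 + conj (Y₀ z) ^ 2) / 2)) 2
        (volume.restrict (ball 0 ρ)) :=
      memLp_bdd (B := 1) (Measurable.aestronglyMeasurable (by fun_prop))
        (fun z _ => by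
          rw [norm_mul, norm_div, Complex.norm_two, norm_mul, Complex.norm_I, one_mul]
          have := (norm_add_le 1 _).trans (add_le_add norm_one.le (bm z))
          exact mul_le_one₀ (hg1 z) (by positivity) (by linarith)) 2
    have b3 : ∀ z ∈ ball (0 : ℂ) ρ, ‖g z * (Af a c (z, v z, Y₀ z) : ℝ)‖ ≤ B := fun z hz => by
      rw [norm_mul]
      exact (mul_le_of_le_one_left (norm_nonneg _) (hg1 z)).trans (hB z hz)
    have g3 : IntegrableOn (fun z => g z * (Af a c (z, v z, Y₀ z) : ℝ)) (ball 0 ρ) :=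
      memLp_one_iff_integrable.1 (memLp_bdd (hg.mul mA).aestronglyMeasurable b3 1)
    have i1 := int_apply g1 o.memLp 1
    have i2 := int_apply g2 o.memLp I
    simp only [split_eq]
    refine ⟨(i1.add i2).sub g3, ?_⟩
    have t3 : Tendsto (fun i => ∫ z in G i, g z * (Af a c (z, v z, Y₀ z) : ℝ)) U
        (𝓝 (∫ z in ball (0 : ℂ) ρ, g z * (Af a c (z, v z, Y₀ z) : ℝ))) := by
      have t := (tend_int (tend_bdd (f := fun i z => g z * (Af a c (z, v z, Y₀ z) : ℝ)) (B := B)
        (h.op.mono fun i hi => ⟨measurableSet_ball.diff hi.1.measurableSet,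
          fun z hz => b3 z hz.1⟩) h.vol)).const_sub
        (∫ z in ball (0 : ℂ) ρ, g z * (Af a c (z, v z, Y₀ z) : ℝ))
      rw [sub_zero] at t
      refine t.congr' (h.op.mono fun i hi => ?_)
      simp only
      rw [setIntegral_sdiff hi.1.measurableSet g3 hi.2.1, sub_sub_cancel]
    have t4 : Tendsto (fun i => ∫ z in G i, g z * (pzb (fderiv ℝ (fun z => Th (grad (u i) z)) z)
        - conj (Y₀ z) ^ 2 * pz (fderiv ℝ (fun z => Th (grad (u i) z)) z)
        - (Af a c (z, v z, Y₀ z) : ℝ))) U (𝓝 0) := by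
      refine tend_int (tend_le (h.err o) (Eventually.of_forall fun i => lintegral_mono fun z => ?_))
      simp only
      rw [← ofReal_norm, ← ofReal_norm, norm_mul]
      exact ENNReal.ofReal_le_ofReal (mul_le_of_le_one_left (norm_nonneg _) (hg1 z))
    rw [integral_sub (i1.fun_add i2) g3, integral_add i1 i2]
    refine tendsto_nhds_unique (((o.weak 1 _ g1).add (o.weak I _ g2)).sub t3) (t4.congr' ?_)
    filter_upwards [h.op, h.hessY] with i ⟨h1, h2, _⟩ h4
    have hD : MemLp (fderiv ℝ fun z => Th (grad (u i) z)) 2 (volume.restrict (G i)) := by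
      have hm := (measurable_fderiv ℝ fun z => Th (grad (u i) z)).aestronglyMeasurable
        (μ := volume.restrict (G i))
      refine (memLp_two_iff_integrable_sq_norm hm).2 ⟨hm.norm.pow 2, ?_⟩
      rw [hasFiniteIntegral_iff_ofReal (Eventually.of_forall fun z => by positivity)]
      exact h4.trans_lt ENNReal.ofReal_lt_top
    have hle : volume.restrict (G i) ≤ volume.restrict (ball (0 : ℂ) ρ) :=
      Measure.restrict_mono h2 le_rfl
    have j1 := int_apply (g1.mono_measure hle) hD 1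
    have j2 := int_apply (g2.mono_measure hle) hD I
    simp only [split_eq]
    rw [integral_sub (j1.fun_add j2) (g3.mono_set h2), integral_add j1 j2]
  have h1 := (key (fun _ => 1) measurable_const fun _ => norm_one.le).1
  simp only [one_mul] at h1
  have h2 := Integrable.ae_eq_zero_of_forall_setIntegral_eq_zero h1 fun s hs _ => by
    have h3 := (key (s.indicator 1) (measurable_one.indicator hs) fun z => by
      by_cases hz : z ∈ s <;> simp [hz]).2
    rw [← integral_indicator hs]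
    refine (integral_congr_ae (Eventually.of_forall fun z => ?_)).trans h3
    by_cases hz : z ∈ s <;> simp [hz]
  filter_upwards [(ae_restrict_iff' measurableSet_ball).1 h2] with z hz hzb
  have h3 := hz hzb
  simp only [Pi.zero_apply] at h3
  linear_combination h3

end Vale.Agent.P218N.B.Pl
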