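import Vale.Agent.P218N.B.CovLoc

/-! Sequences of sets whose content tends to zero. -/

open MeasureTheory Set Filter Topology Metric
open scoped ENNReal NNReal RealInnerProductSpace ContDiff

namespace Vale.Agent.P218N.B

open Vale.Agent.P218.H313 Vale.Agent.P218N.H Vale.Agent.P218N.G
open Vale.Agent.P218.H552 (MC)
open Vale.Agent.P214 (proj)

set_option linter.unusedSectionVars false
set_option linter.unusedVariables false

variable {ι : Type} {U : Ultrafilter ι} {M : ι → Set E3} {κ : Measure E3} {Λ : ℝ}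

/-- the content tends to zero -/
def Small (U : Ultrafilter ι) (K : ι → Set E3) : Prop :=
  ∀ ε : ℝ, 0 < ε → ∀ᶠ i in (U : Filter ι), Cov (K i) ε

lemma Small.mono {K K' : ι → Set E3} (h : Small U K) (hK : ∀ᶠ i in (U : Filter ι), K' i ⊆ K i) :
    Small U K' := fun ε hε => by
  filter_upwards [h ε hε, hK] with i h1 h2 using h1.mono h2 le_rfl

lemma Small.union {K K' : ι → Set E3} (h : Small U K) (h' : Small U K') :
    Small U fun i => K i ∪ K' i := fun ε hε => by
  filter_upwards [h (ε / 2) (by positivity), h' (ε / 2) (by positivity)] with i h1 h2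
  exact (h1.union h2).mono subset_rfl (by linarith)

lemma small_empty : Small U fun _ => ∅ := fun ε hε =>
  Eventually.of_forall fun _ => cov_empty.mono subset_rfl hε.le

lemma Small.biUnion {α : Type*} (t : Finset α) {K : α → ι → Set E3} (h : ∀ a ∈ t, Small U (K a)) :
    Small U fun i => ⋃ a ∈ t, K a i := by
  classical
  induction t using Finset.induction_on with
  | empty => simpa using small_empty
  | insert a t ha ih =>
    simp only [Finset.set_biUnion_insert]
    exact (h a (Finset.mem_insert_self a t)).union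
      (ih fun b hb => h b (Finset.mem_insert_of_mem hb))

lemma measure_le_integral {μ : Measure E3} [IsFiniteMeasureOnCompacts μ] {ζ : E3 → ℝ}
    (hζ : Continuous ζ) (hc : HasCompactSupport ζ) (h0 : ∀ x, 0 ≤ ζ x) {K : Set E3}
    (hK : MeasurableSet K) (h1 : ∀ x ∈ K, 1 ≤ ζ x) : μ K ≤ ENNReal.ofReal (∫ x, ζ x ∂μ) := by
  rw [ofReal_integral_eq_lintegral_ofReal (hζ.integrable_of_hasCompactSupport hc)
    (Eventually.of_forall h0), ← lintegral_indicator_one hK]
  refine lintegral_mono fun x => ?_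
  by_cases hx : x ∈ K
  · simpa [hx] using h1 x hx
  · simp [hx]

lemma integral_le_measure' {μ : Measure E3} [IsFiniteMeasureOnCompacts μ] {ζ : E3 → ℝ}
    (hζ : Continuous ζ) (hc : HasCompactSupport ζ) (h0 : ∀ x, 0 ≤ ζ x) (h1 : ∀ x, ζ x ≤ 1)
    {O : Set E3} (hO : MeasurableSet O) (h2 : tsupport ζ ⊆ O) :
    ENNReal.ofReal (∫ x, ζ x ∂μ) ≤ μ O := by
  rw [ofReal_integral_eq_lintegral_ofReal (hζ.integrable_of_hasCompactSupport hc)
    (Eventually.of_forall h0), ← lintegral_indicator_one hO]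
  refine lintegral_mono fun x => ?_
  by_cases hx : x ∈ O
  · simpa [hx] using h1 x
  · simp [hx, image_eq_zero_of_notMem_tsupport fun h => hx (h2 h)]

/-- upper semicontinuity of the mass of compact sets -/
lemma Seq.mass_le (h : Seq U M κ Λ) {K O : Set E3} (hK : IsCompact K) (hO : IsOpen O)
    (hKO : K ⊆ O) {a b : ℝ} (ha : 0 ≤ a) (hab : a < b) (hκ : κ O ≤ ENNReal.ofReal a) :
    ∀ᶠ i in (U : Filter ι), mu (M i) K ≤ ENNReal.ofReal b := by
  have := h.lf
  obtain ⟨ζ, D, h1, h2, h3, h4, h5, h6, -⟩ := exists_cutoff hK hO hKO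
  have h7 : ∫ x, ζ x ∂κ ≤ a := (ENNReal.ofReal_le_ofReal_iff ha).1
    ((integral_le_measure' h1.continuous h2 h4 h5 hO.measurableSet h3).trans hκ)
  filter_upwards [h.good, (h.lim ζ h1.continuous h2).eventually (gt_mem_nhds (h7.trans_lt hab))]
    with i h8 h9
  have := h8.finite
  exact (measure_le_integral h1.continuous h2 h4 hK.measurableSet
    fun x hx => (h6 x hx).self_of_nhds.ge).trans (ENNReal.ofReal_le_ofReal h9.le)

/-- lower semicontinuity of the mass of open sets -/
lemma Seq.le_mass (h : Seq U M κ Λ) {K O : Set E3} (hK : IsCompact K) (hO : IsOpen O)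
    (hKO : K ⊆ O) {a : ℝ} (ha : 0 ≤ a)
    (hμ : ∀ᶠ i in (U : Filter ι), mu (M i) O ≤ ENNReal.ofReal a) : κ K ≤ ENNReal.ofReal a := by
  have := h.lf
  obtain ⟨ζ, D, h1, h2, h3, h4, h5, h6, -⟩ := exists_cutoff hK hO hKO
  refine (measure_le_integral h1.continuous h2 h4 hK.measurableSet
    fun x hx => (h6 x hx).self_of_nhds.ge).trans (ENNReal.ofReal_le_ofReal ?_)
  refine le_of_tendsto (h.lim ζ h1.continuous h2) ?_
  filter_upwards [h.good, hμ] with i h8 h9
  have := h8.finite
  exact (ENNReal.ofReal_le_ofReal_iff ha).1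
    ((integral_le_measure' h1.continuous h2 h4 h5 hO.measurableSet h3).trans h9)

lemma Seq.mass_bd (h : Seq U M κ Λ) (R : ℝ) : ∃ C : ℝ, 0 < C ∧
    ∀ᶠ i in (U : Filter ι), mu (M i) (closedBall 0 R) ≤ ENNReal.ofReal C := by
  have := h.lf
  have h1 : κ (ball 0 (R + 1)) ≠ ⊤ := measure_ball_lt_top.ne
  exact ⟨κ.real (ball 0 (R + 1)) + 1, by positivity, h.mass_le (isCompact_closedBall 0 R)
    isOpen_ball (closedBall_subset_ball (lt_add_one R)) measureReal_nonneg (lt_add_one _)
    (by rw [Measure.real, ENNReal.ofReal_toReal h1])⟩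

lemma Hn_le {M A : Set E3} (hM : Surf M) (hA : MeasurableSet A) {R a b : ℝ} (hR : A ⊆ ball 0 R)
    (ha : 0 ≤ a) (hb : 0 ≤ b) (h1 : Vn M (ball 0 R) ≤ ENNReal.ofReal a)
    (h2 : mu M A ≤ ENNReal.ofReal b) : Hn M A ≤ ENNReal.ofReal (2 * a + R ^ 2 / 2 * b) := by
  calc Hn M A ≤ ∫⁻ x in A, ENNReal.ofReal (R ^ 2 / 2) ∂(mu M)
        + ∫⁻ x in A, ENNReal.ofReal (2 * ‖velM M x‖ ^ 2) ∂(mu M) := by
        refine lint_le_add aemeasurable_const ?_
        filter_upwards [ae_restrict_of_ae (ae_mem_mu hM), ae_restrict_mem hA] with x h3 h4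
        have h5 := norm_Hv_sq_le hM h3
        have h6 : ‖x‖ ^ 2 ≤ R ^ 2 :=
          pow_le_pow_left₀ (norm_nonneg x) (mem_ball_zero_iff.1 (hR h4)).le 2
        linarith
    _ ≤ ENNReal.ofReal (R ^ 2 / 2 * b + 2 * a) := by
        refine ofReal_add_le' (by positivity) (by positivity) ?_ ?_
        · rw [setLIntegral_const]
          exact ofReal_mul_le (by positivity) h2
        · rw [lint_const_mul _ (by norm_num)]
          exact ofReal_mul_le (by norm_num) ((Vn_mono hR).trans h1)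
    _ = _ := by rw [add_comm]

/-- if the area tends to zero, so does `∫ |H|²` -/
lemma Seq.area_Hn (h : Seq U M κ Λ) {A : ι → Set E3} {R : ℝ}
    (hA : ∀ᶠ i in (U : Filter ι), MeasurableSet (A i) ∧ A i ⊆ ball 0 R)
    (h1 : ∀ τ : ℝ, 0 < τ → ∀ᶠ i in (U : Filter ι), mu (M i) (A i) ≤ ENNReal.ofReal τ) {a : ℝ}
    (ha : 0 < a) : ∀ᶠ i in (U : Filter ι),
      mu (M i) (A i) ≤ ENNReal.ofReal a ∧ Hn (M i) (A i) ≤ ENNReal.ofReal a := by
  filter_upwards [h.good, hA, h1 a ha, h1 (a / (R ^ 2 + 1)) (by positivity),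
    h.vel R (a / 4) (by positivity)] with i k1 k2 k3 k4 k5
  refine ⟨k3, (Hn_le k1.surf k2.1 k2.2 (by positivity) (by positivity) k5 k4).trans
    (ENNReal.ofReal_le_ofReal ?_)⟩
  have : R ^ 2 * (a / (R ^ 2 + 1)) ≤ a := by
    rw [← mul_div_assoc, div_le_iff₀ (by positivity)]
    nlinarith
  linarith

/-- outside the support of the limit the surfaces have small content -/
theorem Seq.small_lid (h : Seq U M κ Λ) {K O : Set E3} (hK : IsCompact K) (hO : IsOpen O)
    (hKO : K ⊆ O) (hκ : κ O = 0) : Small U fun i => M i ∩ K := by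
  intro ε hε
  obtain ⟨L, hL, h1, h2⟩ := exists_compact_between hK hO hKO
  obtain ⟨R, hR⟩ := hL.isBounded.subset_ball (0 : E3)
  obtain ⟨C, a₀, hC, ha₀, H⟩ := covLidStmt Λ K (interior L) h.pos hK isOpen_interior h1
  have hA : 0 < min a₀ (ε / C) := by positivity
  filter_upwards [h.good, h.area_Hn (A := fun _ => interior L) (R := R) (Eventually.of_forall
    fun _ => ⟨isOpen_interior.measurableSet, interior_subset.trans hR⟩) (fun τ hτ =>
      (h.mass_le hL hO h2 le_rfl hτ (by simp [hκ])).mono fun i hi =>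
        (measure_mono interior_subset).trans hi) hA] with i k1 k2
  refine (H (M i) _ k1 hA.le (min_le_left _ _) k2.1 k2.2).mono subset_rfl ?_
  calc C * min a₀ (ε / C) ≤ C * (ε / C) := by gcongr; exact min_le_right _ _
    _ = ε := by field_simp

/-- steep points near a point: small area implies small content -/
theorem Seq.small_band (hB : BandStmt) (h : Seq U M κ Λ) {b b' : ℝ} (hb : 0 ≤ b) (hbb : b < b')
    (p : E3) : ∃ r₁ : ℝ, 0 < r₁ ∧ ∀ (e : E3) (r : ℝ), ‖e‖ = 1 → 0 < r → r ≤ r₁ →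
      (∀ t τ : ℝ, 0 < t → 0 < τ → ∀ᶠ i in (U : Filter ι),
        mu (M i) ((ball p (2 * r) \ closedBall p t) ∩ band (M i) e b') ≤ ENNReal.ofReal τ) →
      Small U fun i => closedBall p r ∩ bandc (M i) e b := by
  obtain ⟨ε₀, hε₀, H⟩ := covLocStmt hB Λ b b' h.pos hb hbb
  obtain ⟨r₁, hr₁, H₁⟩ := exists_punct U M h.energy p hε₀
  refine ⟨r₁ / 2, by positivity, fun e r he hr hrr H₂ ε hε => ?_⟩
  set t := min (r / 2) ((ε / 2) ^ 2) with ht
  have ht0 : 0 < t := by positivity
  obtain ⟨C, a₀, hC, ha₀, H₃⟩ := H r t ht0 ((min_le_left _ _).trans_lt (by linarith))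
  have hA : 0 < min a₀ (ε / 2 / C) := by positivity
  filter_upwards [h.good, H₁ (t / 2) (by positivity), h.area_Hn
    (A := fun i => (ball p (2 * r) \ closedBall p (t / 2)) ∩ band (M i) e b') (R := 2 * r + ‖p‖)
    (h.good.mono fun i hi => ⟨(measurableSet_ball.diff measurableSet_closedBall).inter
      (measurableSet_band hi.surf e b'), fun x hx => ball_subset_ball' (by simp) hx.1.1⟩)
    (fun τ hτ => H₂ (t / 2) τ (by positivity) hτ) hA] with i k1 k2 k3
  have k4 := H₃ (M i) p e _ k1 he hA.le (min_le_left _ _)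
    ((En_mono (sdiff_subset_sdiff_left (ball_subset_ball (by linarith)))).trans k2) k3.1 k3.2
  refine (k4.union (cov_ball p ht0)).mono (fun x hx => ?_) ?_
  · by_cases hx' : x ∈ ball p t
    · exact Or.inr hx'
    · exact Or.inl ⟨⟨hx.1, hx'⟩, hx.2⟩
  · have k5 : C * min a₀ (ε / 2 / C) ≤ ε / 2 := by
      calc C * min a₀ (ε / 2 / C) ≤ C * (ε / 2 / C) := by gcongr; exact min_le_right _ _
        _ = ε / 2 := by field_simp
    have k6 : √t ≤ ε / 2 := Real.sqrt_le_iff.2 ⟨by positivity, min_le_right _ _⟩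
    linarith

end Vale.Agent.P218N.B
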