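import Vale.Agent.P218N.B.Stmt

/-! Compactness of bounded `W^{1,2}` functions on discs with small holes: the statement. -/

open MeasureTheory Set Filter Topology Metric
open scoped ENNReal NNReal ContDiff

namespace Vale.Agent.P218N.B

/-- **B6**: strong `L¹` limit of the functions, weak `L²` limit of the derivatives -/
def CompStmt : Prop := ∀ (ι : Type) (U : Ultrafilter ι) (ρ B C : ℝ) (Y : ι → ℂ → ℂ)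
  (G : ι → Set ℂ) (η : ι → ℂ → ℝ), 0 ≤ B →
  (∀ᶠ i in (U : Filter ι), IsOpen (G i) ∧ G i ⊆ ball 0 ρ ∧ ContDiffOn ℝ ∞ (Y i) (G i) ∧
    ∀ z ∈ G i, ‖Y i z‖ ≤ B) →
  (∀ᶠ i in (U : Filter ι), ContDiff ℝ ∞ (η i) ∧ (∀ z, 0 ≤ η i z) ∧ (∀ z, η i z ≤ 1) ∧
    ∀ z ∈ ball (0 : ℂ) ρ, z ∉ G i → ∀ᶠ z' in 𝓝 z, η i z' = 0) →
  (∀ᶠ i in (U : Filter ι),
    ∫⁻ z in G i, ENNReal.ofReal (‖fderiv ℝ (Y i) z‖ ^ 2) ≤ ENNReal.ofReal C) →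
  (∀ ε : ℝ, 0 < ε → ∀ᶠ i in (U : Filter ι),
    ∫⁻ z in ball (0 : ℂ) ρ, ‖fderiv ℝ (η i) z‖ₑ ≤ ENNReal.ofReal ε ∧
    volume {z ∈ ball (0 : ℂ) ρ | η i z ≠ 1} ≤ ENNReal.ofReal ε) →
  ∃ (Y₀ : ℂ → ℂ) (D : ℂ → ℂ →L[ℝ] ℂ), StronglyMeasurable Y₀ ∧ (∀ z, ‖Y₀ z‖ ≤ B) ∧
    MemLp D 2 (volume.restrict (ball 0 ρ)) ∧
    (∀ ε : ℝ, 0 < ε → ∀ᶠ i in (U : Filter ι), ∫⁻ z in G i, ‖Y i z - Y₀ z‖ₑ ≤ ENNReal.ofReal ε) ∧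
    (∀ (v : ℂ) (g : ℂ → ℂ), MemLp g 2 (volume.restrict (ball 0 ρ)) →
      Tendsto (fun i => ∫ z in G i, g z * fderiv ℝ (Y i) z v) U
        (𝓝 (∫ z in ball (0 : ℂ) ρ, g z * D z v))) ∧
    ∀ φ : ℂ → ℝ, ContDiff ℝ ∞ φ → HasCompactSupport φ → tsupport φ ⊆ ball 0 ρ → ∀ v : ℂ,
      ∫ z, fderiv ℝ φ z v • Y₀ z = - ∫ z, φ z • D z v

end Vale.Agent.P218N.B
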